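import Vale.Agent.P194.Der

namespace Vale.Agent.P194

variable {Λ S : Type} {Val : List S → Prop}

/-- filling with total perimeter `≤ t` and at most `n` faces -/
def Ar (Val : List S → Prop) (w : List S) (t n : ℕ) : Prop :=
  ∃ U n' M, Multiset.card U ≤ t ∧ n' ≤ n ∧ Der id Val w U n' M

theorem Der.ar {w : List S} {U : Multiset S} {n : ℕ} {M : Multiset (Sym2 S)}
    (h : Der id Val w U n M) : Ar Val w (Multiset.card U) n := ⟨U, n, M, le_rfl, le_rfl, h⟩

theorem Ar.mono {w : List S} {t n t' n' : ℕ} (h : Ar Val w t n) (h1 : t ≤ t') (h2 : n ≤ n') :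
    Ar Val w t' n' := by
  obtain ⟨U, m, M, a, b, c⟩ := h
  exact ⟨U, m, M, a.trans h1, b.trans h2, c⟩

theorem Ar.cast {w w' : List S} {t n : ℕ} (h : Ar Val w t n) (e : w = w') : Ar Val w' t n :=
  e ▸ h

theorem Ar.nil : Ar Val [] 0 0 := ⟨0, 0, 0, le_rfl, le_rfl, Der.nil⟩

theorem Ar.rot {a b : List S} {t n : ℕ} (h : Ar Val (a ++ b) t n) : Ar Val (b ++ a) t n := by
  obtain ⟨U, m, M, p, q, c⟩ := h
  exact ⟨U, m, M, p, q, c.rot⟩

theorem Ar.ins {a b c : List S} {t n t' n' : ℕ} (h : Ar Val b t n) (h' : Ar Val (a ++ c) t' n') :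
    Ar Val (a ++ (b ++ c)) (t + t') (n + n') := by
  obtain ⟨U, m, M, p, q, d⟩ := h
  obtain ⟨U', m', M', p', q', d'⟩ := h'
  exact ⟨_, _, _, by rw [Multiset.card_add]; omega, by omega, d.ins d'⟩

theorem Ar.cat {b c : List S} {t n t' n' : ℕ} (h : Ar Val b t n) (h' : Ar Val c t' n') :
    Ar Val (b ++ c) (t + t') (n + n') := Ar.ins (a := []) h h'

theorem Ar.mat {a b c : List S} {x : S} {t n t' n' : ℕ} (h : Ar Val b t n)
    (h' : Ar Val (a ++ c) t' n') : Ar Val (a ++ x :: (b ++ x :: c)) (t + t') (n + n') := by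
  obtain ⟨U, m, M, p, q, d⟩ := h
  obtain ⟨U', m', M', p', q', d'⟩ := h'
  exact ⟨_, _, _, by rw [Multiset.card_add]; omega, by omega,
    Der.mat a b c x x _ _ _ _ _ _ rfl d d'⟩

theorem Ar.opn {a r c : List S} {x : S} {t n : ℕ} (hv : Val (x :: r))
    (h : Ar Val (a ++ (r ++ c)) t n) : Ar Val (a ++ x :: c) (r.length + 1 + t) (n + 1) := by
  obtain ⟨U, m, M, p, q, d⟩ := h
  exact ⟨_, _, _, by rw [Multiset.card_add, Multiset.coe_card]; simp; omega, by omega,
    Der.opn a r c x x _ _ _ rfl hv d⟩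

theorem Ar.first (hrot : ∀ a b, Val (a ++ b) → Val (b ++ a)) {x : S} {c : List S} {t n : ℕ}
    (h : Ar Val (x :: c) t n) :
    (∃ b c' t1 n1 t2 n2, c = b ++ x :: c' ∧ t1 + t2 ≤ t ∧ n1 + n2 ≤ n ∧ Ar Val b t1 n1 ∧
      Ar Val c' t2 n2) ∨
    (∃ r t' n', Val (x :: r) ∧ r.length + 1 + t' ≤ t ∧ n' + 1 ≤ n ∧ Ar Val (r ++ c) t' n') := by
  obtain ⟨U, m, M, p, q, d⟩ := h
  rcases d.first hrot with ⟨b, y, c', U1, n1, M1, U2, n2, M2, e, hc, h1, h2, rfl, rfl, rfl⟩ |
    ⟨y, r, U', n', M', hc, hv, h1, rfl, rfl, rfl⟩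
  · obtain rfl : x = y := hc
    rw [Multiset.card_add] at p
    exact Or.inl ⟨b, c', _, _, _, _, e, p, q, h1.ar, h2.ar⟩
  · obtain rfl : x = y := hc
    rw [Multiset.card_add, Multiset.coe_card] at p
    exact Or.inr ⟨r, _, _, hv, by simpa using p, q, h1.ar⟩

theorem Ar.canc0 (hrot : ∀ a b, Val (a ++ b) → Val (b ++ a)) (x : S) :
    ∀ (N : ℕ) (c : List S) (t n : ℕ), t + c.length ≤ N → Ar Val (c ++ [x, x]) t n →
      Ar Val c t n := by
  intro N
  induction N using Nat.strong_induction_on with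
  | _ N ih =>
    intro c t n hN h
    rcases c with _ | ⟨z, c1⟩
    · exact Ar.nil.mono (Nat.zero_le _) (Nat.zero_le _)
    · rcases Ar.first hrot (x := z) (c := c1 ++ [x, x]) h with
        ⟨b, c', t1, n1, t2, n2, e, p, q, h1, h2⟩ | ⟨r, t', n', hv, p, q, h1⟩
      · have k : ∀ u, b = c1 ++ u → [x, x] = u ++ z :: c' → Ar Val (z :: c1) t n := by
          intro u e1 e2
          subst e1
          rcases u with _ | ⟨y, u⟩
          · simp only [List.nil_append, List.cons.injEq] at e2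
            obtain ⟨rfl, rfl⟩ := e2
            exact ((h2.cat h1).cast (by simp)).mono (by omega) (by omega)
          · simp only [List.cons_append, List.cons.injEq] at e2
            obtain ⟨rfl, e2⟩ := e2
            rcases u with _ | ⟨y, u⟩
            · simp only [List.nil_append, List.cons.injEq] at e2
              obtain ⟨rfl, rfl⟩ := e2
              exact (h1.rot.cast (by simp)).mono (by omega) (by omega)
            · simp at e2
        rcases List.append_eq_append_iff.1 e with ⟨u, e1, e2⟩ | ⟨u, e1, e2⟩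
        · exact k u e1 e2
        · rcases u with _ | ⟨y, u⟩
          · exact k [] (by simpa using e1.symm) (by simpa using e2.symm)
          · simp only [List.cons_append, List.cons.injEq] at e2
            obtain ⟨rfl, rfl⟩ := e2
            subst e1
            have := ih (t2 + u.length) (by simp at hN; omega) u t2 n2 le_rfl h2
            exact (Ar.mat (a := []) h1 this).mono p q
      · have := ih (t' + (r ++ c1).length) (by simp at hN ⊢; omega) (r ++ c1) t' n' le_rfl
          (h1.cast (by simp))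
        exact (Ar.opn (a := []) hv this).mono p q

theorem Ar.canc (hrot : ∀ a b, Val (a ++ b) → Val (b ++ a)) {a c : List S} {x : S} {t n : ℕ}
    (h : Ar Val (a ++ x :: x :: c) t n) : Ar Val (a ++ c) t n := by
  have h1 : Ar Val ((c ++ a) ++ [x, x]) t n :=
    (Ar.rot (a := a ++ [x, x]) (b := c) (h.cast (by simp))).cast (by simp)
  exact (Ar.canc0 hrot x _ _ t n le_rfl h1).rot

theorem Ar.cancL (hrot : ∀ a b, Val (a ++ b) → Val (b ++ a)) {t n : ℕ} :
    ∀ (l a c : List S), Ar Val (a ++ (l.reverse ++ (l ++ c))) t n → Ar Val (a ++ c) t n := by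
  intro l
  induction l with
  | nil => intro a c h; simpa using h
  | cons x l ih =>
    intro a c h
    have : Ar Val ((a ++ l.reverse) ++ x :: x :: (l ++ c)) t n := h.cast (by simp)
    exact ih a c ((this.canc hrot).cast (by simp))

theorem Ar.dblL : ∀ l : List S, Ar Val (l ++ l.reverse) 0 0 := by
  intro l
  induction l with
  | nil => exact Ar.nil
  | cons x l ih => exact (Ar.mat (a := []) (c := []) (x := x) ih Ar.nil).cast (by simp)

theorem Der.rev (hrot : ∀ a b, Val (a ++ b) → Val (b ++ a)) (hrev : ∀ l, Val l → Val l.reverse)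
    {w : List S} {U : Multiset S} {n : ℕ} {M : Multiset (Sym2 S)} (d : Der id Val w U n M) :
    Ar Val w.reverse (Multiset.card U) n := by
  induction d with
  | nil => exact Ar.nil
  | mat a0 b0 c0 x y U1 n1 M1 U2 n2 M2 hc h1 h2 ih1 ih2 =>
    obtain rfl : x = y := hc
    rw [Multiset.card_add]
    exact (Ar.mat (a := c0.reverse) (c := a0.reverse) (x := x) ih1 (ih2.cast (by simp))).cast
      (by simp)
  | opn a0 r c0 x y U n M hc hv h ih =>
    obtain rfl : x = y := hc
    have hv' : Val (x :: r.reverse) := by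
      simpa using hrot r.reverse [x] (by simpa using hrev _ hv)
    rw [Multiset.card_add, Multiset.coe_card]
    exact ((Ar.opn (a := c0.reverse) (c := a0.reverse) hv' (ih.cast (by simp))).cast
      (by simp)).mono (by simp) le_rfl

theorem Ar.rev (hrot : ∀ a b, Val (a ++ b) → Val (b ++ a)) (hrev : ∀ l, Val l → Val l.reverse)
    {w : List S} {t n : ℕ} (h : Ar Val w t n) : Ar Val w.reverse t n := by
  obtain ⟨U, m, M, p, q, d⟩ := h
  exact (d.rev hrot hrev).mono p q

theorem Ar.face (hrot : ∀ a b, Val (a ++ b) → Val (b ++ a)) (hrev : ∀ l, Val l → Val l.reverse)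
    {l : List S} (h : Val l) : Ar Val l l.length 1 := by
  rcases l with _ | ⟨x, r⟩
  · exact Ar.nil.mono le_rfl (by omega)
  · have hv' : Val (x :: r.reverse) := by
      simpa using hrot r.reverse [x] (by simpa using hrev _ h)
    have := Ar.opn (a := []) (c := r) hv' ((Ar.dblL r.reverse).cast (by simp))
    exact this.mono (by simp) le_rfl

theorem Ar.glue (hrot : ∀ a b, Val (a ++ b) → Val (b ++ a)) (hrev : ∀ l, Val l → Val l.reverse)
    {a r c : List S} {y : S} {t n t' n' : ℕ} (h : Ar Val (a ++ (r ++ c)) t n)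
    (h' : Ar Val (y :: r) t' n') : Ar Val (a ++ y :: c) (t' + t) (n' + n) := by
  have h1 : Ar Val (y :: r.reverse) t' n' :=
    (Ar.rot (a := r.reverse) (b := [y]) ((h'.rev hrot hrev).cast (by simp))).cast (by simp)
  have h2 := h1.ins h
  exact (Ar.cancL hrot r (a ++ [y]) c (h2.cast (by simp))).cast (by simp)

theorem areaAx (hrot : ∀ a b, Val (a ++ b) → Val (b ++ a)) (hrev : ∀ l, Val l → Val l.reverse)
    (L : ℕ) (hL : ∀ l, Val l → l.length ≤ L) (h1 : ∀ x, ¬ Val [x]) :
    AreaAx (fun w n => ∃ t, Ar Val w t n) L where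
  mono := fun ⟨t, h⟩ k => ⟨t, h.mono le_rfl k⟩
  nil := ⟨0, Ar.nil⟩
  dbl := fun x => ⟨0, Ar.dblL [x]⟩
  rot := fun ⟨t, h⟩ => ⟨t, h.rot⟩
  rev := fun ⟨t, h⟩ => ⟨t, h.rev hrot hrev⟩
  ins := fun ⟨_, h⟩ ⟨_, h'⟩ => ⟨_, h.ins h'⟩
  canc := fun ⟨t, h⟩ => ⟨t, h.canc hrot⟩
  first := by
    rintro x c n ⟨t, h⟩
    rcases h.first hrot with ⟨b, c', t1, n1, t2, n2, e, _, q, h1, h2⟩ | ⟨r, t', n', hv, _, q, h2⟩
    · exact Or.inl ⟨b, c', n1, n2, e, q, ⟨_, h1⟩, ⟨_, h2⟩⟩
    · refine Or.inr ⟨r, n', ?_, ?_, q, ⟨_, Ar.face hrot hrev hv⟩, ⟨_, h2⟩⟩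
      · rintro rfl; exact h1 x hv
      · have := hL _ hv; simp at this; omega

/-- refining big faces into small ones -/
theorem Der.transfer {Val' : List S → Prop} (hrot : ∀ a b, Val' (a ++ b) → Val' (b ++ a))
    (hrev : ∀ l, Val' l → Val' l.reverse) (D : ℕ)
    (hch : ∀ l, Val l → ∃ t m, Ar Val' l t m ∧ D * m ≤ l.length + D)
    {w : List S} {U : Multiset S} {n : ℕ} {M : Multiset (Sym2 S)} (d : Der id Val w U n M) :
    ∃ t m, Ar Val' w t m ∧ D * m ≤ Multiset.card U + D * n := by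
  induction d with
  | nil => exact ⟨0, 0, Ar.nil, by simp⟩
  | mat a0 b0 c0 x y U1 n1 M1 U2 n2 M2 hc h1 h2 ih1 ih2 =>
    obtain rfl : x = y := hc
    obtain ⟨t1, m1, p1, q1⟩ := ih1
    obtain ⟨t2, m2, p2, q2⟩ := ih2
    exact ⟨_, _, p1.mat p2, by rw [Multiset.card_add, mul_add, mul_add]; omega⟩
  | opn a0 r c0 x y U n M hc hv h ih =>
    obtain rfl : x = y := hc
    obtain ⟨t1, m1, p1, q1⟩ := ih
    obtain ⟨t2, m2, p2, q2⟩ := hch _ hv
    exact ⟨_, _, p1.glue hrot hrev p2, by
      rw [Multiset.card_add, Multiset.coe_card, mul_add, mul_add]; omega⟩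

/-- cyclically reduced -/
def CRed (l : List S) : Prop := ∀ l', l ~r l' → Red l'

theorem not_red {l : List S} (h : ¬ Red l) : ∃ a x c, l = a ++ x :: x :: c := by
  induction l with
  | nil => exact absurd List.isChain_nil h
  | cons x l ih =>
    rcases l with _ | ⟨y, l⟩
    · exact absurd (List.isChain_singleton x) h
    · by_cases e : x = y
      · exact ⟨[], x, l, by simp [e]⟩
      · obtain ⟨a, z, c, k⟩ := ih (fun k => h (List.isChain_cons_cons.2 ⟨e, k⟩))
        exact ⟨x :: a, z, c, by simp [k]⟩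

theorem of_isRotated {P : List S → Prop} (hrot : ∀ a b, P (a ++ b) → P (b ++ a)) {l l' : List S}
    (h : l ~r l') (hp : P l) : P l' := by
  obtain ⟨n, hn, rfl⟩ := List.isRotated_iff_mod.1 h
  rw [List.rotate_eq_drop_append_take hn]
  exact hrot _ _ (by simpa using hp)

theorem Der.reduce (hrot : ∀ a b, Val (a ++ b) → Val (b ++ a)) (hrev : ∀ l, Val l → Val l.reverse)
    (hcanc : ∀ x l, Val (x :: x :: l) → Val l)
    {w : List S} {U : Multiset S} {n : ℕ} {M : Multiset (Sym2 S)} (d : Der id Val w U n M) :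
    Der id (fun l => Val l ∧ CRed l) w U n M ∨ ∃ t m, t < Multiset.card U ∧ Ar Val w t m := by
  induction d with
  | nil => exact Or.inl Der.nil
  | mat a0 b0 c0 x y U1 n1 M1 U2 n2 M2 hc h1 h2 ih1 ih2 =>
    obtain rfl : x = y := hc
    rcases ih1 with k1 | ⟨t, m, p, q⟩
    · rcases ih2 with k2 | ⟨t, m, p, q⟩
      · exact Or.inl (Der.mat _ _ _ _ _ _ _ _ _ _ _ rfl k1 k2)
      · exact Or.inr ⟨_, _, by rw [Multiset.card_add]; omega, h1.ar.mat q⟩
    · exact Or.inr ⟨_, _, by rw [Multiset.card_add]; omega, q.mat h2.ar⟩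
  | opn a0 r c0 x y U n M hc hv h ih =>
    obtain rfl : x = y := hc
    by_cases hr : CRed (x :: r)
    · rcases ih with k1 | ⟨t, m, p, q⟩
      · exact Or.inl (Der.opn _ _ _ _ _ _ _ _ rfl ⟨hv, hr⟩ k1)
      · exact Or.inr ⟨_, _, by rw [Multiset.card_add, Multiset.coe_card]; simp; omega,
          q.opn hv⟩
    · simp only [CRed, not_forall] at hr
      obtain ⟨l', e, hl⟩ := hr
      obtain ⟨a, z, c, rfl⟩ := not_red hl
      have e2 : (x :: r) ~r (z :: z :: (c ++ a)) := by
        refine e.trans ?_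
        simpa using List.isRotated_append (l := a) (l' := z :: z :: c)
      have v1 := hcanc _ _ (of_isRotated hrot e2 hv)
      have v2 : Ar Val (z :: z :: (c ++ a)) (0 + (c ++ a).length) (0 + 1) :=
        (Ar.dblL [z]).cat (Ar.face hrot hrev v1)
      have v3 := of_isRotated (P := fun l => Ar Val l (0 + (c ++ a).length) (0 + 1))
        (fun _ _ k => k.rot) e2.symm v2
      have hlen := e2.perm.length_eq
      refine Or.inr ⟨_, _, ?_, h.ar.glue hrot hrev v3⟩
      rw [Multiset.card_add, Multiset.coe_card]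
      simp only [List.length_cons] at hlen ⊢
      omega

/-- `μ` gives the partner of every matched letter -/
def Cons (μ : Λ → Λ) (M : Multiset (Sym2 Λ)) : Prop := ∀ p q, s(p, q) ∈ M → μ p = q

theorem Der.exists_mu {col : Λ → S} {Val : List Λ → Prop} {w : List Λ} {U : Multiset Λ} {n : ℕ}
    {M : Multiset (Sym2 Λ)} (d : Der col Val w U n M) :
    ((w : Multiset Λ) + U).Nodup → ∃ μ, Cons μ M := by
  classical
  induction d with
  | nil => intro _; exact ⟨id, by simp [Cons]⟩
  | mat a0 b0 c0 x y U1 n1 M1 U2 n2 M2 hc h1 h2 ih1 ih2 =>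
    intro hn
    have e : ((a0 ++ x :: (b0 ++ y :: c0) : List Λ) : Multiset Λ) + (U1 + U2) =
        x ::ₘ y ::ₘ (((b0 : Multiset Λ) + U1) + (((a0 ++ c0 : List Λ) : Multiset Λ) + U2)) := by
      simp only [← Multiset.cons_coe, ← Multiset.coe_add, ← Multiset.singleton_add]; abel
    rw [e, Multiset.nodup_cons, Multiset.nodup_cons, Multiset.nodup_add] at hn
    obtain ⟨hx, hy, n1', n2', hd⟩ := hn
    obtain ⟨μ1, k1⟩ := ih1 n1'
    obtain ⟨μ2, k2⟩ := ih2 n2'
    have hxy : y ≠ x := fun e => hx (by simp [e])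
    refine ⟨fun z => if z = x then y else if z = y then x else
      if z ∈ (b0 : Multiset Λ) + U1 then μ1 z else μ2 z, fun p q hm => ?_⟩
    simp only [Multiset.mem_cons, Multiset.mem_add, Sym2.eq_iff] at hm
    rcases hm with (⟨rfl, rfl⟩ | ⟨rfl, rfl⟩) | hm | hm
    · simp
    · simp [hxy]
    · have m1 : p ∈ (b0 : Multiset Λ) + U1 := by simpa using (h1.mem_of_M p q hm).1
      have a1 : p ≠ x := by
        rintro rfl; exact hx (Multiset.mem_cons_of_mem (Multiset.mem_add.2 (Or.inl m1)))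
      have a2 : p ≠ y := by rintro rfl; exact hy (Multiset.mem_add.2 (Or.inl m1))
      simp only [a1, a2, m1, if_true, if_false]; exact k1 p q hm
    · have m1 : p ∈ ((a0 ++ c0 : List Λ) : Multiset Λ) + U2 := by
        rw [Multiset.mem_add, Multiset.mem_coe]; exact (h2.mem_of_M p q hm).1
      have a1 : p ≠ x := by
        rintro rfl; exact hx (Multiset.mem_cons_of_mem (Multiset.mem_add.2 (Or.inr m1)))
      have a2 : p ≠ y := by rintro rfl; exact hy (Multiset.mem_add.2 (Or.inr m1))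
      have a3 : p ∉ (b0 : Multiset Λ) + U1 := fun k => Multiset.disjoint_left.1 hd k m1
      simp only [a1, a2, a3, if_false]; exact k2 p q hm
  | opn a0 r c0 x y U n M hc hv h ih =>
    intro hn
    have e : ((a0 ++ x :: c0 : List Λ) : Multiset Λ) + (((y :: r : List Λ) : Multiset Λ) + U) =
        x ::ₘ y ::ₘ (((a0 ++ (r ++ c0) : List Λ) : Multiset Λ) + U) := by
      simp only [← Multiset.cons_coe, ← Multiset.coe_add, ← Multiset.singleton_add]; abel
    rw [e, Multiset.nodup_cons, Multiset.nodup_cons] at hn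
    obtain ⟨hx, hy, n1'⟩ := hn
    obtain ⟨μ1, k1⟩ := ih n1'
    have hxy : y ≠ x := fun e => hx (by simp [e])
    refine ⟨fun z => if z = x then y else if z = y then x else μ1 z, fun p q hm => ?_⟩
    simp only [Multiset.mem_cons, Sym2.eq_iff] at hm
    rcases hm with (⟨rfl, rfl⟩ | ⟨rfl, rfl⟩) | hm
    · simp
    · simp [hxy]
    · have m1 : p ∈ ((a0 ++ (r ++ c0) : List Λ) : Multiset Λ) + U := by
        rw [Multiset.mem_add, Multiset.mem_coe]; exact (h.mem_of_M p q hm).1
      have a1 : p ≠ x := by rintro rfl; exact hx (Multiset.mem_cons_of_mem m1)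
      have a2 : p ≠ y := by rintro rfl; exact hy m1
      simp only [a1, a2, if_false]; exact k1 p q hm

end Vale.Agent.P194
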