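import Vale.Agent.P194.Ar

namespace Vale.Agent.P194

variable {Λ S : Type} [DecidableEq Λ]

/-- number of junctions of a word -/
def jn (sc : Λ → Λ) : List Λ → ℕ
  | p :: q :: l => (if q = sc p then 0 else 1) + jn sc (q :: l)
  | _ => 0

/-- the matching does not continue antiparallel after `p` -/
def bad (sc μ : Λ → Λ) (p : Λ) : Prop := sc (μ (sc p)) ≠ μ p

instance (sc μ : Λ → Λ) : DecidablePred (bad sc μ) := fun p => by unfold bad; infer_instance

/-- number of broken adjacencies of a word -/
def brk (sc μ : Λ → Λ) : List Λ → ℕ
  | p :: q :: l => (if q = sc p ∧ bad sc μ p then 1 else 0) + brk sc μ (q :: l)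
  | _ => 0

variable {sc μ : Λ → Λ}

theorem jn_cons (x : Λ) (l : List Λ) : jn sc l ≤ jn sc (x :: l) ∧ jn sc (x :: l) ≤ jn sc l + 1 := by
  rcases l with _ | ⟨y, l⟩
  · simp [jn]
  · simp only [jn]; split_ifs <;> omega

theorem brk_cons (x : Λ) (l : List Λ) :
    brk sc μ l ≤ brk sc μ (x :: l) ∧ brk sc μ (x :: l) ≤ brk sc μ l + 1 := by
  rcases l with _ | ⟨y, l⟩
  · simp [brk]
  · simp only [brk]; split_ifs <;> omega

theorem jn_append (a b : List Λ) :
    jn sc a + jn sc b ≤ jn sc (a ++ b) ∧ jn sc (a ++ b) ≤ jn sc a + jn sc b + 1 := by
  induction a with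
  | nil => simp [jn]
  | cons x a ih =>
    rcases a with _ | ⟨y, a⟩
    · have := jn_cons (sc := sc) x b
      simp only [jn, List.cons_append, List.nil_append]; omega
    · simp only [jn, List.cons_append] at ih ⊢; omega

theorem brk_append (a b : List Λ) :
    brk sc μ a + brk sc μ b ≤ brk sc μ (a ++ b) ∧
      brk sc μ (a ++ b) ≤ brk sc μ a + brk sc μ b + 1 := by
  induction a with
  | nil => simp [brk]
  | cons x a ih =>
    rcases a with _ | ⟨y, a⟩
    · have := brk_cons (sc := sc) (μ := μ) x b
      simp only [brk, List.cons_append, List.nil_append]; omega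
    · simp only [brk, List.cons_append] at ih ⊢; omega

theorem jn_snoc (a : List Λ) (p q : Λ) :
    jn sc (a ++ [p, q]) = jn sc (a ++ [p]) + (if q = sc p then 0 else 1) := by
  induction a with
  | nil => simp [jn]
  | cons x a ih =>
    rcases a with _ | ⟨y, a⟩
    · simp [jn]
    · simp only [jn, List.cons_append] at ih ⊢; omega

theorem brk_snoc (a : List Λ) (p q : Λ) :
    brk sc μ (a ++ [p, q]) = brk sc μ (a ++ [p]) + (if q = sc p ∧ bad sc μ p then 1 else 0) := by
  induction a with
  | nil => simp [brk]
  | cons x a ih =>
    rcases a with _ | ⟨y, a⟩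
    · simp [brk]
    · simp only [brk, List.cons_append] at ih ⊢; omega

theorem jn_chain {l : List Λ} (h : List.IsChain (fun p q => q = sc p) l) : jn sc l = 0 := by
  induction l with
  | nil => rfl
  | cons x l ih =>
    rcases l with _ | ⟨y, l⟩
    · rfl
    · rw [List.isChain_cons_cons] at h
      simp only [jn, ih h.2, if_pos h.1]

theorem brk_chain {l : List Λ} (h : List.IsChain (fun p q => q = sc p) l) :
    l.countP (fun p => decide (bad sc μ p)) ≤ brk sc μ l + 1 := by
  induction l with
  | nil => simp
  | cons x l ih =>
    rcases l with _ | ⟨y, l⟩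
    · simp only [brk, List.countP_cons, List.countP_nil]; split_ifs <;> omega
    · rw [List.isChain_cons_cons] at h
      have := ih h.2
      rw [List.countP_cons]
      simp only [brk, ← h.1, true_and, decide_eq_true_eq]
      split_ifs <;> omega

theorem arcs {col : Λ → S} {Val : List Λ → Prop}
    (hrot : ∀ a b, Val (a ++ b) → Val (b ++ a))
    (hch : ∀ l, Val l → Cycle.Chain (fun p q => q = sc p) (l : Cycle Λ)) :
    ∀ (N : ℕ) (v : List Λ) (U : Multiset Λ) (n : ℕ) (M : Multiset (Sym2 Λ)),
      Multiset.card U + v.length ≤ N → Der col Val v U n M → Cons μ M →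
      (∀ p, (p ∈ v ∨ p ∈ U) → col (sc p) ≠ col p) → v ≠ [] →
      brk sc μ v + U.countP (bad sc μ) + 10 ≤ 5 * (jn sc v + 1) + 15 * n ∧
      ((¬ ∃ x b, v = x :: (b ++ [μ x])) →
        brk sc μ v + U.countP (bad sc μ) + 12 ≤ 5 * (jn sc v + 1) + 15 * n) := by
  intro N
  induction N using Nat.strong_induction_on with
  | _ N ih =>
    intro v U n M hN d hμ hsc hne
    rcases v with _ | ⟨x, c⟩
    · exact absurd rfl hne
    rcases d.first hrot with ⟨b, y, c', U1, n1, M1, U2, n2, M2, rfl, hc, h1, h2, rfl, rfl, rfl⟩ |
      ⟨y, r, U', n', M', hc, hv, h1, rfl, rfl, rfl⟩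
    · have mx : μ x = y := hμ x y (by simp)
      have my : μ y = x := hμ y x (by simp)
      have c1 : Cons μ M1 := fun p q h => hμ p q (by simp [h])
      have c2 : Cons μ M2 := fun p q h => hμ p q (by simp [h])
      have hyx : y ≠ sc x := fun e => hsc x (by simp) (by rw [← e, hc])
      simp only [Multiset.card_add, List.length_cons, List.length_append] at hN
      have i1 : b ≠ [] → _ := ih (Multiset.card U1 + b.length) (by omega) b U1 n1 M1 le_rfl h1 c1
        (fun p hp => hsc p (by rcases hp with k | k <;> simp [k]))
      have i2 : c' ≠ [] → _ := ih (Multiset.card U2 + c'.length) (by omega) c' U2 n2 M2 le_rfl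
        h2 c2 (fun p hp => hsc p (by rcases hp with k | k <;> simp [k]))
      rw [Multiset.countP_add]
      by_cases eb : b = []
      · subst eb
        obtain ⟨rfl, rfl, rfl⟩ := h1.of_nil' rfl
        by_cases ec : c' = []
        · subst ec
          obtain ⟨rfl, rfl, rfl⟩ := h2.of_nil' rfl
          refine ⟨by simp [brk, jn, hyx], fun k => absurd ⟨x, [], by simp [mx]⟩ k⟩
        · have := (i2 ec).1
          have j1 := jn_cons (sc := sc) y c'
          have j2 := brk_cons (sc := sc) (μ := μ) y c'
          simp only [List.nil_append, brk, jn, hyx, false_and, if_false, Multiset.countP_zero]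
          omega
      · by_cases ec : c' = []
        · subst ec
          obtain ⟨rfl, rfl, rfl⟩ := h2.of_nil' rfl
          refine ⟨?_, fun k => absurd ⟨x, b, by simp [mx]⟩ k⟩
          obtain ⟨k1, k2⟩ := i1 eb
          obtain ⟨b0, bl, e0⟩ : ∃ b0 bl, b = b0 ++ [bl] :=
            ⟨b.dropLast, b.getLast eb, (List.dropLast_append_getLast eb).symm⟩
          obtain ⟨b1, b', e1⟩ : ∃ b1 b', b = b1 :: b' := List.exists_cons_of_ne_nil eb
          have s1 := jn_snoc (sc := sc) b0 bl y
          have s2 := brk_snoc (sc := sc) (μ := μ) b0 bl y
          have e2 : b0 ++ [bl, y] = b1 :: (b' ++ [y]) := by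
            rw [← List.cons_append, ← e1, e0]; simp
          rw [← e0, e2] at s1 s2
          have e3 : x :: (b ++ [y]) = x :: b1 :: (b' ++ [y]) := by rw [e1]; rfl
          rw [e3]
          simp only [jn, brk, Multiset.countP_zero, s1, s2]
          by_cases t1 : b1 = sc x
          · by_cases t2 : y = sc bl
            · by_cases t3 : ∃ z b2, b = z :: (b2 ++ [μ z])
              · obtain ⟨z, b2, e4⟩ := t3
                have z1 : z = b1 := by rw [e1] at e4; exact (List.cons.inj e4).1.symm
                have z2 : μ z = bl := by
                  have : b0 ++ [bl] = (z :: b2) ++ [μ z] := by rw [← e0, e4]; rfl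
                  exact (by simpa using (List.append_inj' this rfl).2 : bl = μ z).symm
                subst z1
                obtain ⟨q, hq⟩ := h1.exists_M z (Or.inl (by simp [e1]))
                have z3 : μ bl = z := by
                  have := c1 z q hq
                  rw [← z2, this]; exact c1 q z (by rwa [Sym2.eq_swap])
                have n1 : ¬ bad sc μ x := by simp [bad, ← t1, z2, ← t2, mx]
                have n2 : ¬ bad sc μ bl := by simp [bad, ← t2, my, ← t1, z3]
                simp only [n1, n2, and_false, if_false, ← t1, ← t2, if_true]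
                omega
              · have := k2 t3
                simp only [← t1, ← t2, if_true]
                split_ifs <;> omega
            · simp only [t2, if_false]
              split_ifs <;> omega
          · simp only [t1, if_false]
            split_ifs <;> omega
        · have k1 := (i1 eb).1
          have k2 := (i2 ec).1
          have j1 := jn_cons (sc := sc) x (b ++ y :: c')
          have j2 := brk_cons (sc := sc) (μ := μ) x (b ++ y :: c')
          have j3 := jn_append (sc := sc) b (y :: c')
          have j4 := brk_append (sc := sc) (μ := μ) b (y :: c')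
          have j5 := jn_cons (sc := sc) y c'
          have j6 := brk_cons (sc := sc) (μ := μ) y c'
          omega
    · have c1 : Cons μ M' := fun p q h => hμ p q (by simp [h])
      have ch := hch _ hv
      rw [Cycle.chain_coe_cons] at ch
      have hr : r ≠ [] := by
        rintro rfl
        simp only [List.nil_append, List.isChain_pair] at ch
        exact hsc y (by simp) (by rw [← ch])
      have ch' : List.IsChain (fun p q => q = sc p) r := ch.tail.left_of_append
      simp only [Multiset.card_add, List.length_cons, Multiset.coe_card] at hN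
      have k := (ih (Multiset.card U' + (r ++ c).length) (by simp; omega) (r ++ c) U' n' M' le_rfl
        h1 c1 (fun p hp => hsc p (by
          rcases hp with k | k
          · rcases List.mem_append.1 k with k | k <;> simp [k]
          · simp [k])) (by simp [hr])).1
      have j1 := jn_cons (sc := sc) x c
      have j2 := brk_cons (sc := sc) (μ := μ) x c
      have j3 := jn_append (sc := sc) r c
      have j4 := brk_append (sc := sc) (μ := μ) r c
      have j5 := jn_chain ch'
      have j6 := brk_chain (μ := μ) ch'
      have j7 : Multiset.countP (bad sc μ) ((y :: r : List Λ) : Multiset Λ) ≤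
          r.countP (fun p => decide (bad sc μ p)) + 1 := by
        rw [Multiset.coe_countP, List.countP_cons]; split_ifs <;> omega
      rw [Multiset.countP_add]
      omega

end Vale.Agent.P194
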