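import Vale.Agent.P194.Ar

namespace Vale.Agent.P194

variable {S V : Type} {π : S → V → V}

/-- every colour is an involution -/
def Invo (π : S → V → V) : Prop := ∀ s v, π s (π s v) = v

@[simp] theorem run_nil (v : V) : run π v [] = v := rfl
@[simp] theorem run_cons (v : V) (s : S) (w : List S) : run π v (s :: w) = run π (π s v) w := rfl
theorem run_append (v : V) (a b : List S) : run π v (a ++ b) = run π (run π v a) b := by
  simp [run]
@[simp] theorem walk_nil (v : V) : Walk π v [] := trivial
@[simp] theorem walk_cons (v : V) (s : S) (w : List S) :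
    Walk π v (s :: w) ↔ π s v ≠ v ∧ Walk π (π s v) w := Iff.rfl

theorem walk_append (a b : List S) : ∀ v : V,
    Walk π v (a ++ b) ↔ Walk π v a ∧ Walk π (run π v a) b := by
  induction a with
  | nil => simp
  | cons s a ih => intro v; simp [ih, and_assoc]

theorem walk_reverse (h : Invo π) (w : List S) : ∀ v : V, Walk π v w →
    Walk π (run π v w) w.reverse ∧ run π (run π v w) w.reverse = v := by
  induction w with
  | nil => simp
  | cons s w ih =>
    intro v hw
    obtain ⟨k1, k2⟩ := ih _ hw.2
    simp only [List.reverse_cons, walk_append, run_append, run_cons, k1, k2, walk_cons, h s v,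
      walk_nil, run_nil, true_and, and_true]
    exact hw.1.symm

/-- labels of closed walks -/
def CW (π : S → V → V) (l : List S) : Prop := ∃ v, Walk π v l ∧ run π v l = v

theorem CW.rot (a b : List S) (h : CW π (a ++ b)) : CW π (b ++ a) := by
  obtain ⟨v, h1, h2⟩ := h
  rw [walk_append] at h1
  rw [run_append] at h2
  exact ⟨run π v a, by rw [walk_append, h2]; exact ⟨h1.2, h1.1⟩, by rw [run_append, h2]⟩

theorem CW.rev (h : Invo π) (l : List S) (hl : CW π l) : CW π l.reverse := by
  obtain ⟨v, h1, h2⟩ := hl
  have := walk_reverse h l v h1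
  rw [h2] at this
  exact ⟨v, this⟩

theorem CW.canc (h : Invo π) (x : S) (l : List S) (hl : CW π (x :: x :: l)) : CW π l := by
  obtain ⟨v, h1, h2⟩ := hl
  simp only [walk_cons, run_cons, h x v] at h1 h2
  exact ⟨v, h1.2.2, h2⟩

/-- labels of closed walks of length at most `L` -/
def CWL (π : S → V → V) (L : ℕ) (l : List S) : Prop := CW π l ∧ l.length ≤ L

theorem CWL.rot {L : ℕ} (a b : List S) (h : CWL π L (a ++ b)) : CWL π L (b ++ a) :=
  ⟨h.1.rot a b, by have := h.2; simp at this ⊢; omega⟩

theorem CWL.rev {L : ℕ} (h : Invo π) (l : List S) (hl : CWL π L l) : CWL π L l.reverse :=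
  ⟨hl.1.rev h l, by simpa using hl.2⟩

theorem chop0 (h : Invo π) {D : ℕ} (hD : 1 ≤ D) (hd : Diam π D) (u : V) :
    ∀ (N : ℕ) (γ l : List S), l.length ≤ N → γ.length ≤ D → Walk π u (γ ++ l) →
      run π u (γ ++ l) = u → ∃ t m, Ar (CWL π (3 * D)) (γ ++ l) t m ∧ D * m ≤ l.length + D := by
  intro N
  induction N using Nat.strong_induction_on with
  | _ N ih =>
    intro γ l hN hγ h1 h2
    by_cases hl : l.length ≤ 2 * D
    · exact ⟨_, 1, Ar.face CWL.rot (CWL.rev h) ⟨⟨u, h1, h2⟩, by simp; omega⟩, by omega⟩
    · have e : γ ++ l = (γ ++ l.take D) ++ l.drop D := by simp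
      rw [e] at h1 h2 ⊢
      rw [walk_append] at h1
      rw [run_append] at h2
      obtain ⟨γ', k1, k2, k3⟩ := hd u _ h1.1
      obtain ⟨t, m, p, q⟩ := ih (l.drop D).length (by simp; omega) γ' (l.drop D) le_rfl k3
        (by rw [walk_append, k2]; exact ⟨k1, h1.2⟩) (by rw [run_append, k2, h2])
      have r := walk_reverse h γ' u k1
      rw [k2] at r
      have f : CWL π (3 * D) ((γ ++ l.take D) ++ γ'.reverse) :=
        ⟨⟨u, by rw [walk_append]; exact ⟨h1.1, r.1⟩, by rw [run_append, r.2]⟩, by simp; omega⟩
      have := (Ar.face CWL.rot (CWL.rev h) f).cat p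
      refine ⟨_, _, Ar.cancL CWL.rot γ' _ _ (this.cast (by simp)), ?_⟩
      simp at q ⊢
      rw [mul_add]; omega

theorem chop (h : Invo π) {D : ℕ} (hD : 1 ≤ D) (hd : Diam π D) (l : List S) (hl : CW π l) :
    ∃ t m, Ar (CWL π (3 * D)) l t m ∧ D * m ≤ l.length + D := by
  obtain ⟨u, h1, h2⟩ := hl
  exact chop0 h hD hd u _ [] l le_rfl (by simp) h1 h2

theorem red_reverse {l : List S} (h : Red l) : Red l.reverse := by
  unfold Red at *
  rw [List.isChain_reverse]
  exact h.imp (fun _ _ k => k.symm)

theorem uniq (h : Invo π) {g : ℕ} (hg : Girth π g) : ∀ (w1 w2 : List S) (v : V), Red w1 → Red w2 →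
    Walk π v w1 → Walk π v w2 → run π v w1 = run π v w2 → w1.length + w2.length ≤ g →
    w1 = w2 := by
  intro w1
  induction w1 with
  | nil =>
    intro w2 v _ r2 _ k2 e hl
    by_contra hne
    have := hg v w2 (Ne.symm hne) r2 k2 e.symm
    simp at hl; omega
  | cons s w1 ih =>
    intro w2 v r1 r2 k1 k2 e hl
    rcases w2 with _ | ⟨t, w2⟩
    · have := hg v _ (by simp) r1 k1 e
      simp at hl this; omega
    · by_cases st : s = t
      · subst st
        rw [ih w2 (π s v) r1.tail r2.tail k1.2 k2.2 e (by simp at hl; omega)]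
      · exfalso
        have r := walk_reverse h _ v k1
        have := hg (run π v (s :: w1)) ((s :: w1).reverse ++ t :: w2) (by simp)
          (by
            unfold Red
            rw [List.isChain_append]
            refine ⟨red_reverse r1, r2, ?_⟩
            simp [st])
          (by rw [walk_append, r.2]; exact ⟨r.1, k2⟩) (by rw [run_append, r.2, e])
        simp at hl this; omega

/-- relators: squares of the colours and labels of closed walks -/
def rels (π : S → V → V) : Set (FreeGroup S) :=
  {x | (∃ s, x = FreeGroup.of s * FreeGroup.of s) ∨ ∃ w, CW π w ∧ x = (w.map FreeGroup.of).prod}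

/-- the group presented by the coloured graph -/
abbrev Grp (π : S → V → V) : Type := PresentedGroup (rels π)

/-- generators -/
def gen (π : S → V → V) (s : S) : Grp π := PresentedGroup.of s

theorem gen_sq (s : S) : gen π s * gen π s = 1 := by
  have := PresentedGroup.one_of_mem (rels := rels π) (x := FreeGroup.of s * FreeGroup.of s)
    (Or.inl ⟨s, rfl⟩)
  simpa [gen, PresentedGroup.of] using this

theorem gen_cw {w : List S} (h : CW π w) : (w.map (gen π)).prod = 1 := by
  have := PresentedGroup.one_of_mem (rels := rels π) (x := (w.map FreeGroup.of).prod)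
    (Or.inr ⟨w, h, rfl⟩)
  rw [map_list_prod, List.map_map] at this
  exact this

theorem gen_closure : Subgroup.closure (Set.range (gen π)) = ⊤ :=
  PresentedGroup.closure_range_of _

theorem Der.prod_one {w : List S} {U : Multiset S} {n : ℕ} {M : Multiset (Sym2 S)}
    (d : Der id (CW π) w U n M) : (w.map (gen π)).prod = 1 := by
  induction d with
  | nil => rfl
  | mat a0 b0 c0 x y U1 n1 M1 U2 n2 M2 hc h1 h2 ih1 ih2 =>
    obtain rfl : x = y := hc
    simp only [List.map_append, List.prod_append, List.map_cons, List.prod_cons, ih1] at ih2 ⊢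
    rw [one_mul, ← mul_assoc (gen π x), gen_sq, one_mul, ih2]
  | opn a0 r c0 x y U n M hc hv h ih =>
    obtain rfl : x = y := hc
    have := gen_cw hv
    simp only [List.map_append, List.prod_append, List.map_cons, List.prod_cons] at ih this ⊢
    have e : (r.map (gen π)).prod = gen π x := by
      rw [← one_mul (r.map (gen π)).prod, ← gen_sq x, mul_assoc, this, mul_one]
    rwa [e] at ih

/-- words up to fillings -/
def eqv (h : Invo π) : Setoid (List S) where
  r w w' := ∃ t n, Ar (CW π) (w ++ w'.reverse) t n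
  iseqv := ⟨fun w => ⟨0, 0, Ar.dblL w⟩,
    fun ⟨t, n, k⟩ => ⟨t, n, (k.rev CW.rot (CW.rev h)).cast (by simp)⟩,
    fun {_ y _} ⟨_, _, k⟩ ⟨_, _, k'⟩ =>
      ⟨_, _, Ar.cancL CW.rot y _ _ ((k.cat k').cast (by simp))⟩⟩

/-- left multiplication by a colour -/
def actF (h : Invo π) (s : S) : Quotient (eqv h) → Quotient (eqv h) :=
  Quotient.map (fun w => s :: w) (fun _ _ ⟨t, n, k⟩ =>
    ⟨t + 0, n + 0, (Ar.mat (a := []) (c := []) (x := s) k Ar.nil).cast (by simp)⟩)

theorem actF_inv (h : Invo π) (s : S) : Function.Involutive (actF h s) := by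
  intro q
  induction q using Quotient.inductionOn with
  | _ w =>
    exact Quotient.sound ⟨_, _, ((Ar.dblL [s]).cat (Ar.dblL w)).cast (by simp)⟩

theorem act_list (h : Invo π) (w w' : List S) :
    (w.map (fun s => (actF_inv h s).toPerm)).prod (Quotient.mk (eqv h) w') =
      Quotient.mk (eqv h) (w ++ w') := by
  induction w with
  | nil => rfl
  | cons s w ih => rw [List.map_cons, List.prod_cons, Equiv.Perm.mul_apply, ih]; rfl

theorem complete (h : Invo π) {w : List S} (hw : (w.map (gen π)).prod = 1) :
    ∃ t n, Ar (CW π) w t n := by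
  have hr : ∀ r ∈ rels π, FreeGroup.lift (fun s => (actF_inv h s).toPerm) r = 1 := by
    rintro r (⟨s, rfl⟩ | ⟨l, hl, rfl⟩)
    · ext q
      simp [actF_inv h s q]
    · ext q
      induction q using Quotient.inductionOn with
      | _ w' =>
        rw [map_list_prod, List.map_map]
        have : (FreeGroup.lift (fun s => (actF_inv h s).toPerm)) ∘ FreeGroup.of =
            fun s => (actF_inv h s).toPerm := by ext1 s; simp
        rw [this, act_list]
        exact Quotient.sound ⟨_, _, ((Ar.face CW.rot (CW.rev h) hl).cat (Ar.dblL w')).cast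
          (by simp)⟩
  have e := congrArg (PresentedGroup.toGroup hr) hw
  rw [map_list_prod, List.map_map, map_one] at e
  have : (PresentedGroup.toGroup hr) ∘ gen π = fun s => (actF_inv h s).toPerm := by
    ext1 s; simp [gen]
  rw [this] at e
  have e2 := act_list h w []
  rw [e] at e2
  obtain ⟨t, n, k⟩ := Quotient.exact e2.symm
  exact ⟨t, n, k.cast (by simp)⟩

end Vale.Agent.P194
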