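import Vale.Agent.P194.Count
import Vale.Agent.P194.Walk

namespace Vale.Agent.P194

open Finset

variable {S X V : Type}

/-- a drawing in the graph `π` of the shape `(T, nx, μ, rep, i0)` -/
structure Drawn (π : S → V → V) (c0 : V) (T : ℕ) (nx μ rep : ℕ → ℕ) (i0 : ℕ) (cl : ℕ → S)
    (tl : ℕ → V) : Prop where
  step : ∀ j < T, π (cl j) (tl j) = tl (nx j) ∧ tl (nx j) ≠ tl j
  nx_le : ∀ j < T, nx j ≤ T
  mu : ∀ j < T, μ j < T → cl (μ j) = cl j
  ker : ∀ i ≤ T, ∀ i' ≤ T, tl i = tl i' ↔ rep i = rep i'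
  root : ∀ i ≤ T, tl i = c0 ↔ rep i = i0

theorem Drawn.congr {π : S → V → V} {c0 : V} {T : ℕ} {nx μ rep nx' μ' rep' : ℕ → ℕ} {i0 : ℕ}
    {cl : ℕ → S} {tl : ℕ → V} (h : Drawn π c0 T nx μ rep i0 cl tl) (h1 : ∀ j < T, nx j = nx' j)
    (h2 : ∀ j < T, μ j = μ' j) (h3 : ∀ j ≤ T, rep j = rep' j) :
    Drawn π c0 T nx' μ' rep' i0 cl tl :=
  ⟨fun j hj => h1 j hj ▸ h.step j hj, fun j hj => h1 j hj ▸ h.nx_le j hj,
    fun j hj => h2 j hj ▸ h.mu j hj, fun i hi i' hi' => h3 i hi ▸ h3 i' hi' ▸ h.ker i hi i' hi',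
    fun i hi => h3 i hi ▸ h.root i hi⟩

/-- same edge, read off the shape -/
def SE (nx rep : ℕ → ℕ) (j j' : ℕ) : Prop :=
  (rep j = rep j' ∧ rep (nx j) = rep (nx j')) ∨ (rep j = rep (nx j') ∧ rep (nx j) = rep j')

/-- certificate for a subgraph of the shape: edges `F`, free edges `Fr`, vertices `Vt`,
irregular vertices `Ir` -/
structure Cert (T : ℕ) (nx μ rep : ℕ → ℕ) (i0 : ℕ) (F Fr Vt Ir : Finset ℕ) (ρ : ℕ → ℕ) :
    Prop where
  F_lt : ∀ j ∈ F, j < T
  F_inj : ∀ j ∈ F, ∀ j' ∈ F, SE nx rep j j' → j = j'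
  par : ∀ j ∈ F, j ∉ Fr → ∃ j1 < T, μ j1 < T ∧ SE nx rep j j1 ∧
    ∃ j' ∈ F, SE nx rep j' (μ j1) ∧ ρ j' < ρ j
  V_le : ∀ i ∈ Vt, i ≤ T
  ends : ∀ j ∈ F, ((∃ i ∈ Vt, rep i = rep j) ∨ rep j = i0) ∧
    ((∃ i ∈ Vt, rep i = rep (nx j)) ∨ rep (nx j) = i0)
  reg : ∀ i ∈ Vt, i ∉ Ir → ∃ j ∈ F, ∃ j' ∈ F, j ≠ j' ∧ (rep i = rep j' ∨ rep i = rep (nx j')) ∧
    ∃ u ≤ T, ((rep i = rep j ∧ rep u = rep (nx j)) ∨ (rep i = rep (nx j) ∧ rep u = rep j)) ∧
      (rep u = i0 ∨ ∃ u' ∈ Vt, rep u' = rep u ∧ u' < i)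

theorem col_uniq {π : S → V → V} (hπ : Invo π) {g : ℕ} (hg : Girth π g) (h2 : 2 ≤ g) {s t : S}
    {u : V} (h : π s u = π t u) (hne : π s u ≠ u) : s = t := by
  have := uniq hπ hg [s] [t] u (List.isChain_singleton _) (List.isChain_singleton _)
    ⟨hne, trivial⟩ ⟨h ▸ hne, trivial⟩ h h2
  simpa using this

theorem Drawn.se_col {π : S → V → V} {c0 : V} {T : ℕ} {nx μ rep : ℕ → ℕ} {i0 : ℕ}
    {cl : ℕ → S} {tl : ℕ → V} (h : Drawn π c0 T nx μ rep i0 cl tl) (hπ : Invo π) {g : ℕ}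
    (hg : Girth π g) (h2 : 2 ≤ g) {j j' : ℕ} (hj : j < T) (hj' : j' < T)
    (e : SE nx rep j j') : cl j = cl j' := by
  obtain ⟨a, b⟩ := h.step j hj
  obtain ⟨c, d⟩ := h.step j' hj'
  have l1 := h.nx_le j hj
  have l2 := h.nx_le j' hj'
  rcases e with ⟨e1, e2⟩ | ⟨e1, e2⟩
  · rw [← h.ker _ hj.le _ hj'.le] at e1
    rw [← h.ker _ l1 _ l2] at e2
    exact col_uniq hπ hg h2 (u := tl j) (by rw [a, e2, ← c, e1]) (by rw [a]; exact b)
  · rw [← h.ker _ hj.le _ l2] at e1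
    rw [← h.ker _ l1 _ hj'.le] at e2
    exact col_uniq hπ hg h2 (u := tl j) (by rw [a, e2, e1, ← c, hπ]) (by rw [a]; exact b)

theorem Drawn.se_of_col {π : S → V → V} {c0 : V} {T : ℕ} {nx μ rep : ℕ → ℕ} {i0 : ℕ}
    {cl : ℕ → S} {tl : ℕ → V} (h : Drawn π c0 T nx μ rep i0 cl tl) (hπ : Invo π)
    {j j' : ℕ} (hj : j < T) (hj' : j' < T) (e : cl j = cl j') {v : V}
    (h1 : v = tl j ∨ v = tl (nx j)) (h2 : v = tl j' ∨ v = tl (nx j')) : SE nx rep j j' := by
  obtain ⟨a, b⟩ := h.step j hj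
  obtain ⟨c, d⟩ := h.step j' hj'
  have l1 := h.nx_le j hj
  have l2 := h.nx_le j' hj'
  have a' : π (cl j) (tl (nx j)) = tl j := by rw [← a, hπ]
  have c' : π (cl j) (tl (nx j')) = tl j' := by rw [← c, e, hπ]
  rw [← e] at c
  unfold SE
  rw [← h.ker _ hj.le _ hj'.le, ← h.ker _ l1 _ l2, ← h.ker _ hj.le _ l2, ← h.ker _ l1 _ hj'.le]
  rcases h1 with rfl | rfl <;> rcases h2 with k | k
  · exact Or.inl ⟨k, by rw [← a, ← c, k]⟩
  · exact Or.inr ⟨k, by rw [← a, ← c', k]⟩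
  · exact Or.inr ⟨by rw [← a', ← c, k], k⟩
  · exact Or.inl ⟨by rw [← a', ← c', k], k⟩

theorem valid_invo {m : Model S X V} {π : S → V → V} (h : Valid m π) : Invo π :=
  fun s v => (h s v).1

theorem valid_mem {m : Model S X V} {π : S → V → V} (h : Valid m π) {s : S} {v : V}
    (hv : π s v ≠ v) : s ∈ m.L v := by
  by_contra k; exact hv ((h s v).2.1 k)

open Classical in
theorem pattern [Fintype S] [Fintype V] [Nonempty S] (hP : ProbStmt) (m : Model S X V) (c0 : V)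
    {g N0 Ns N2 : ℕ} (h2 : 2 ≤ g) (hB : Big m N0) (hF : Few m N2) {T : ℕ} {nx μ rep : ℕ → ℕ}
    {i0 : ℕ} {F Fr Vt Ir : Finset ℕ} {ρ : ℕ → ℕ} (c : Cert T nx μ rep i0 F Fr Vt Ir ρ)
    (hN : Ns + 2 * (Fintype.card S + 1) ^ (g + 2) + 2 * F.card ≤ N0)
    (A : Finset (S → V → V)) (hA : A ⊆ GG m g)
    (hD : ∀ π ∈ A, ∃ cl tl, Drawn π c0 T nx μ rep i0 cl tl) :
    A.card * Ns ^ F.card ≤ Fintype.card S ^ (F.filter (· ∈ Fr)).card *
      Fintype.card V ^ (Vt.filter (· ∈ Ir)).card * N2 ^ (Vt.filter (· ∉ Ir)).card *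
      (GG m g).card := by
  haveI : Nonempty V := ⟨c0⟩
  choose! cl tl hD using hD
  have hG : ∀ π ∈ A, Valid m π ∧ Girth π g := fun π h => by simpa [GG] using hA h
  let f : (S → V → V) → ℕ ⊕ ℕ → S ⊕ V := fun π => Sum.map (cl π) (tl π)
  let I : Finset (ℕ ⊕ ℕ) := F.disjSum Vt
  let r : ℕ ⊕ ℕ → ℕ := Sum.elim ρ (fun i => F.sup ρ + 1 + i)
  let k : ℕ ⊕ ℕ → ℕ := Sum.elim (fun j => if j ∈ Fr then Fintype.card S else 1)
    (fun i => if i ∈ Ir then Fintype.card V else N2)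
  have cnt := count_seq' A f r k I (by
    rintro (j | i) hi x0 hx0
    · have hj : j ∈ F := by simpa [I] using hi
      by_cases fr : j ∈ Fr
      · simp only [k, Sum.elim_inl, if_pos fr]
        exact ⟨univ.image Sum.inl, card_image_le.trans (by simp), fun x _ _ =>
          mem_image.2 ⟨cl x j, mem_univ _, rfl⟩⟩
      · simp only [k, Sum.elim_inl, if_neg fr]
        obtain ⟨j1, a1, a2, a3, j', a4, a5, a6⟩ := c.par j hj fr
        have key : ∀ x ∈ A, cl x j = cl x j' := fun x hx => by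
          have d := hD x hx
          have iv := valid_invo (hG x hx).1
          rw [d.se_col iv (hG x hx).2 h2 (c.F_lt j hj) a1 a3, ← d.mu j1 a1 a2,
            d.se_col iv (hG x hx).2 h2 (c.F_lt j' a4) a2 a5]
        refine ⟨{Sum.inl (cl x0 j')}, by simp, fun x hx1 hx2 => ?_⟩
        have hx := And.intro hx1 hx2
        have := hx.2 (Sum.inl j') (by simpa [I] using a4) a6
        simp only [f, Sum.map_inl, Sum.inl.injEq] at this
        simp [f, key x hx.1, this]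
    · have hi' : i ∈ Vt := by simpa [I] using hi
      by_cases ir : i ∈ Ir
      · simp only [k, Sum.elim_inr, if_pos ir]
        exact ⟨univ.image Sum.inr, card_image_le.trans (by simp), fun x _ _ =>
          mem_image.2 ⟨tl x i, mem_univ _, rfl⟩⟩
      · simp only [k, Sum.elim_inr, if_neg ir]
        obtain ⟨j, hj, j', hj', ne, inc, u, hu, en, pr⟩ := c.reg i hi' ir
        have iT := c.V_le i hi'
        have jT := c.F_lt j hj
        have jT' := c.F_lt j' hj'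
        have facts : ∀ x ∈ A, cl x j ∈ m.L (tl x i) ∧ cl x j' ∈ m.L (tl x i) ∧
            m.τ (tl x i) = m.act (cl x j) (m.τ (tl x u)) ∧ cl x j ≠ cl x j' := by
          intro x hx
          have d := hD x hx
          have vl := (hG x hx).1
          have iv := valid_invo vl
          have l1 := d.nx_le j jT
          have l2 := d.nx_le j' jT'
          rw [← d.ker _ iT _ jT'.le, ← d.ker _ iT _ l2] at inc
          rw [← d.ker _ iT _ jT.le, ← d.ker _ iT _ l1, ← d.ker _ hu _ jT.le,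
            ← d.ker _ hu _ l1] at en
          obtain ⟨a, b⟩ := d.step j jT
          obtain ⟨a', b'⟩ := d.step j' jT'
          have e1 : x (cl x j) (tl x u) = tl x i ∧ tl x i ≠ tl x u := by
            rcases en with ⟨e1, e2⟩ | ⟨e1, e2⟩
            · exact ⟨by rw [e1, e2, ← a, iv], by rw [e1, e2]; exact b.symm⟩
            · exact ⟨by rw [e1, e2, a], by rw [e1, e2]; exact b⟩
          have m1 : cl x j ∈ m.L (tl x u) := valid_mem vl (by rw [e1.1]; exact e1.2)
          refine ⟨valid_mem vl (by rw [← e1.1, iv, e1.1]; exact e1.2.symm), ?_,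
            by rw [← e1.1]; exact ((vl _ _).2.2 m1).2, fun e => ne (c.F_inj j hj j' hj'
              (d.se_of_col iv jT jT' e (v := tl x i) (by tauto) inc))⟩
          rcases inc with e | e
          · exact valid_mem vl (by rw [e, a']; exact b')
          · exact valid_mem vl (by rw [e, ← a', iv, a']; exact b'.symm)
        refine ⟨(univ.filter (fun v => cl x0 j ∈ m.L v ∧
          cl x0 j' ∈ m.L v ∧ m.τ v = m.act (cl x0 j) (m.τ (tl x0 u)))).image Sum.inr,
          (card_image_le.trans (hF _ _ _ (facts x0 hx0).2.2.2)), fun x hx1 hx2 => ?_⟩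
        have hx := And.intro hx1 hx2
        have k1 : ∀ j ∈ F, cl x j = cl x0 j := fun j hj => by
          have := hx.2 (Sum.inl j) (by simpa [I] using hj) (by
            have := le_sup (f := ρ) hj
            simp only [r, Sum.elim_inl, Sum.elim_inr]; omega)
          simpa [f] using this
        have k2 : tl x u = tl x0 u := by
          rcases pr with e | ⟨u', hu', e, lt⟩
          · rw [((hD x hx.1).root u hu).2 e, ((hD x0 hx0).root u hu).2 e]
          · have := hx.2 (Sum.inr u') (by simpa [I] using hu') (by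
              simp only [r, Sum.elim_inr]; omega)
            simp only [f, Sum.map_inr, Sum.inr.injEq] at this
            rw [← ((hD x hx.1).ker _ (c.V_le _ hu') _ hu).2 e, this,
              ((hD x0 hx0).ker _ (c.V_le _ hu') _ hu).2 e]
        obtain ⟨f1, f2, f3, -⟩ := facts x hx.1
        rw [k1 j hj] at f1 f3
        rw [k1 j' hj'] at f2
        rw [k2] at f3
        exact mem_image.2 ⟨tl x i, by simp [f1, f2, f3], rfl⟩)
  have pk : ∏ i ∈ I, k i = Fintype.card S ^ (F.filter (· ∈ Fr)).card *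
      Fintype.card V ^ (Vt.filter (· ∈ Ir)).card * N2 ^ (Vt.filter (· ∉ Ir)).card := by
    simp only [I, k, prod_disjSum, Sum.elim_inl, Sum.elim_inr, prod_ite, prod_const, one_pow,
      mul_one, mul_assoc]
  rw [← pk]
  set rs : (S → V → V) → ℕ ⊕ ℕ → Option (S ⊕ V) := fun x j => if j ∈ I then some (f x j) else none
  rw [card_eq_sum_card_image rs A, sum_mul]
  refine le_trans (sum_le_card_nsmul _ _ (GG m g).card ?_) (Nat.mul_le_mul_right _ cnt)
  intro y hy
  obtain ⟨x0, hx0, rfl⟩ := mem_image.1 hy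
  have d0 := hD x0 hx0
  have iv0 := valid_invo (hG x0 hx0).1
  let E : Finset (V × S × V) := F.image (fun j => (tl x0 j, cl x0 j, tl x0 (nx j)))
  have cE : E.card = F.card := card_image_of_injOn (fun j hj j' hj' e => by
    simp only [Prod.mk.injEq] at e
    exact c.F_inj j hj j' hj' (d0.se_of_col iv0 (c.F_lt j hj) (c.F_lt j' hj') e.2.1
      (Or.inl rfl) (Or.inl e.1)))
  have sE : Sep E := by
    constructor
    · intro e he
      obtain ⟨j, hj, rfl⟩ := mem_image.1 he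
      exact (d0.step j (c.F_lt j hj)).2.symm
    · intro e he e' he' ne ec
      obtain ⟨j, hj, rfl⟩ := mem_image.1 he
      obtain ⟨j', hj', rfl⟩ := mem_image.1 he'
      have : ∀ v, v = tl x0 j → (v = tl x0 j' ∨ v = tl x0 (nx j')) → False := fun v a b =>
        ne (by rw [c.F_inj j hj j' hj' (d0.se_of_col iv0 (c.F_lt j hj) (c.F_lt j' hj') ec
          (Or.inl a) b)])
      exact ⟨fun e => this _ rfl (Or.inl e), fun e => this _ rfl (Or.inr e)⟩
  have pr := hP S X V m g N0 Ns E hB sE (by rw [cE]; exact hN)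
  rw [cE] at pr
  refine le_trans (Nat.mul_le_mul_right _ (card_le_card ?_)) pr
  intro x hx
  rw [mem_filter] at hx ⊢
  refine ⟨hA hx.1, fun e he => ?_⟩
  obtain ⟨j, hj, rfl⟩ := mem_image.1 he
  have d := hD x hx.1
  have jT := c.F_lt j hj
  have k1 : cl x j = cl x0 j := by
    have := congrFun hx.2 (Sum.inl j)
    simpa [rs, I, hj, f] using this
  have k2 : ∀ u ≤ T, ((∃ i ∈ Vt, rep i = rep u) ∨ rep u = i0) → tl x u = tl x0 u := by
    rintro u hu (⟨i, hi, e⟩ | e)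
    · have := congrFun hx.2 (Sum.inr i)
      have k : tl x i = tl x0 i := by simpa [rs, I, hi, f] using this
      rw [← (d.ker _ (c.V_le _ hi) _ hu).2 e, k, (d0.ker _ (c.V_le _ hi) _ hu).2 e]
    · rw [(d.root u hu).2 e, (d0.root u hu).2 e]
  show x (cl x0 j) (tl x0 j) = tl x0 (nx j)
  rw [← k1, ← k2 j jT.le (c.ends j hj).1, ← k2 _ (d.nx_le j jT) (c.ends j hj).2]
  exact (d.step j jT).1

end Vale.Agent.P194
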