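import Vale.Agent.P194.Cfg
import Vale.Agent.P194.Pat

namespace Vale.Agent.P194

open Finset

variable {S V : Type} {π : S → V → V} {c0 : V} {T B R h : ℕ} {cl : ℕ → S} {tl : ℕ → V}
  {nx μ : ℕ → ℕ}

/-- colours of the darts `a, …, a + d - 1` -/
def seg (cl : ℕ → S) (a d : ℕ) : List S := (List.range' a d).map cl

theorem seg_succ (a d : ℕ) : seg cl a (d + 1) = cl a :: seg cl (a + 1) d := by
  simp [seg, List.range'_succ]

theorem seg_add (a t e : ℕ) : seg cl a (t + e) = seg cl a t ++ seg cl (a + t) e := by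
  have := List.range'_append (s := a) (m := t) (n := e) (step := 1)
  simp only [one_mul] at this
  unfold seg
  rw [← List.map_append, this]

@[simp] theorem seg_len (a d : ℕ) : (seg cl a d).length = d := by simp [seg]

theorem Cfg.seg_walk (c : Cfg π c0 T B R cl tl nx μ) (d : ℕ) : ∀ a, a + d ≤ T →
    (∀ i, a ≤ i → i < a + d → nx i = i + 1) →
    Walk π (tl a) (seg cl a d) ∧ run π (tl a) (seg cl a d) = tl (a + d) ∧ Red (seg cl a d) := by
  induction d with
  | zero => intro a _ _; exact ⟨trivial, rfl, List.isChain_nil⟩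
  | succ d ih =>
    intro a h1 h2
    obtain ⟨k1, k2, k3⟩ := ih (a + 1) (by omega) (fun i x y => h2 i (by omega) (by omega))
    obtain ⟨s1, s2⟩ := c.step a (by omega)
    have e := h2 a le_rfl (by omega)
    rw [e] at s1 s2
    rw [seg_succ]
    refine ⟨⟨by rw [s1]; exact s2, by rw [s1]; exact k1⟩,
      by rw [run_cons, s1, k2]; congr 1; omega, ?_⟩
    rcases d with _ | d
    · exact List.isChain_singleton _
    · rw [seg_succ] at k3 ⊢
      have := c.red a (by omega) (by omega)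
      rw [e] at this
      exact List.isChain_cons_cons.2 ⟨this.symm, k3⟩

theorem Cfg.cmp (c : Cfg π c0 T B R cl tl nx μ) (hπ : Invo π) {g : ℕ} (hg : Girth π g)
    {a d a' d' : ℕ} (h1 : a + d ≤ T) (h2 : ∀ i, a ≤ i → i < a + d → nx i = i + 1)
    (h1' : a' + d' ≤ T) (h2' : ∀ i, a' ≤ i → i < a' + d' → nx i = i + 1) (hl : d + d' ≤ g) :
    (tl a = tl a' → tl (a + d) = tl (a' + d') → d = d' ∧ ∀ t ≤ d, tl (a + t) = tl (a' + t)) ∧
    (tl a = tl (a' + d') → tl (a + d) = tl a' → d = d' ∧ seg cl a d = (seg cl a' d').reverse ∧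
      ∀ t ≤ d, tl (a + t) = tl (a' + d' - t)) := by
  obtain ⟨w1, r1, p1⟩ := c.seg_walk d a h1 h2
  obtain ⟨w2, r2, p2⟩ := c.seg_walk d' a' h1' h2'
  constructor
  · intro e1 e2
    have e := uniq hπ hg _ _ (tl a) p1 p2 w1 (e1 ▸ w2) (by rw [r1, e1, r2, e2]) (by simpa using hl)
    have hd : d = d' := by simpa using congrArg List.length e
    subst hd
    refine ⟨rfl, fun t ht => ?_⟩
    obtain ⟨k, rfl⟩ : ∃ k, d = t + k := ⟨d - t, by omega⟩
    rw [seg_add, seg_add] at e
    have e' := (List.append_inj e (by simp)).1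
    rw [← (c.seg_walk t a (by omega) (fun i x y => h2 i x (by omega))).2.1,
      ← (c.seg_walk t a' (by omega) (fun i x y => h2' i x (by omega))).2.1, e', e1]
  · intro e1 e2
    have rv := walk_reverse hπ _ _ w2
    rw [r2, ← e1] at rv
    have e := uniq hπ hg _ _ (tl a) p1 (red_reverse p2) w1 rv.1 (by rw [r1, rv.2, e2])
      (by simpa using hl)
    have hd : d = d' := by simpa using congrArg List.length e
    subst hd
    refine ⟨rfl, e, fun t ht => ?_⟩
    obtain ⟨k, rfl⟩ : ∃ k, d = t + k := ⟨d - t, by omega⟩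
    rw [seg_add, add_comm t k, seg_add, List.reverse_append] at e
    have e' := (List.append_inj e (by simp)).1
    obtain ⟨w3, r3, -⟩ := c.seg_walk t (a' + k) (by omega) (fun i x y => h2' i (by omega) (by omega))
    have rv3 := (walk_reverse hπ _ _ w3).2
    rw [← (c.seg_walk t a (by omega) (fun i x y => h2 i x (by omega))).2.1, e', e1,
      show a' + (t + k) = a' + k + t by omega, ← r3, rv3]
    congr 1; omega

/-- starts of cells -/
def St (h T : ℕ) (nx μ : ℕ → ℕ) (j : ℕ) : Prop := j = 0 ∨ h ∣ j ∨ Brk T nx μ (j - 1)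

instance (h T : ℕ) (nx μ : ℕ → ℕ) : DecidablePred (St h T nx μ) := fun j => by
  unfold St; infer_instance

/-- index of the cell of a corner -/
def kap (h T : ℕ) (nx μ : ℕ → ℕ) (j : ℕ) : ℕ := ((range (j + 1)).filter (St h T nx μ)).card

theorem kap_mono {i i' : ℕ} (hi : i ≤ i') : kap h T nx μ i ≤ kap h T nx μ i' :=
  card_le_card (filter_subset_filter _ (range_subset_range.2 (by omega)))

theorem kap_pos (i : ℕ) : 1 ≤ kap h T nx μ i :=
  card_pos.2 ⟨0, by simp [St]⟩

theorem kap_eq {i i' : ℕ} (e : kap h T nx μ i = kap h T nx μ i') {j : ℕ} (h1 : i < j)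
    (h2 : j ≤ i') : ¬ St h T nx μ j := by
  intro hs
  have : (range (i + 1)).filter (St h T nx μ) ⊂ (range (i' + 1)).filter (St h T nx μ) :=
    ⟨filter_subset_filter _ (range_subset_range.2 (by omega)), fun k => by
      have := k (show j ∈ _ by simp [hs]; omega)
      simp at this; omega⟩
  have := card_lt_card this
  unfold kap at e; omega

theorem kap_nb {i i' : ℕ} (e : kap h T nx μ i = kap h T nx μ i') {j : ℕ} (h1 : i ≤ j)
    (h2 : j < i') : nx j = j + 1 ∧ (j + 1 < T → μ j = μ (j + 1) + 1 ∧ nx (μ (j + 1)) = μ j) := by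
  have := kap_eq e (j := j + 1) (by omega) (by omega)
  simp only [St, Brk, not_or, Nat.add_sub_cancel, not_not] at this
  exact this.2.2

theorem kap_lt (hh : 1 ≤ h) {i i' : ℕ} (e : kap h T nx μ i = kap h T nx μ i') : i' < i + h := by
  by_contra k
  have a := Nat.div_add_mod i h
  have b := Nat.mod_lt i (show h > 0 by omega)
  refine kap_eq e (j := h * (i / h + 1)) (by rw [mul_add]; omega) (by rw [mul_add]; omega)
    (Or.inr (Or.inl (dvd_mul_right _ _)))

theorem Cfg.kap_le (c : Cfg π c0 T B R cl tl nx μ) (hh : 1 ≤ h) {i : ℕ} (hi : i ≤ T) :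
    kap h T nx μ i ≤ T / h + 1 + R := by
  refine le_trans (kap_mono hi) ?_
  have : (range (T + 1)).filter (St h T nx μ) ⊆ (range (T / h + 1)).image (fun k => h * k) ∪
      ((range T).filter (Brk T nx μ)).image (fun k => k + 1) := by
    intro j hj
    simp only [mem_filter, mem_range, St, mem_union, mem_image] at hj ⊢
    by_cases k : h ∣ j
    · obtain ⟨k, rfl⟩ := k
      refine Or.inl ⟨k, Nat.lt_succ_of_le ((Nat.le_div_iff_mul_le (by omega)).2 ?_), rfl⟩
      rw [mul_comm]; omega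
    · have j0 : j ≠ 0 := by rintro rfl; exact k (dvd_zero _)
      rcases hj.2 with q | q | q
      · exact absurd q j0
      · exact absurd q k
      · exact Or.inr ⟨j - 1, ⟨by omega, q⟩, by omega⟩
  refine le_trans (card_le_card this) (le_trans (card_union_le _ _) ?_)
  have a := card_image_le (s := range (T / h + 1)) (f := fun k => h * k)
  have b := card_image_le (s := (range T).filter (Brk T nx μ)) (f := fun k => k + 1)
  have := c.brk
  rw [card_range] at a
  omega

theorem Cfg.cell_cmp (c : Cfg π c0 T B R cl tl nx μ) (hπ : Invo π) (hh : 1 ≤ h)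
    (hg : Girth π (2 * h)) {i1 i2 j1 j2 : ℕ} (hi : i1 ≤ i2) (l1 : i2 ≤ T) (l2 : j1 ≤ T)
    (l3 : j2 ≤ T) (e1 : kap h T nx μ i1 = kap h T nx μ i2)
    (e2 : kap h T nx μ j1 = kap h T nx μ j2) (t1 : tl i1 = tl j1) (t2 : tl i2 = tl j2) :
    (j2 = j1 + (i2 - i1) ∧ ∀ t ≤ i2 - i1, tl (i1 + t) = tl (j1 + t)) ∨
    (j1 = j2 + (i2 - i1) ∧ ∀ t ≤ i2 - i1, tl (i1 + t) = tl (j1 - t)) := by
  have b1 := kap_lt hh e1
  rcases le_total j1 j2 with k | k
  · have b2 := kap_lt hh e2
    have := (c.cmp hπ hg (a := i1) (d := i2 - i1) (a' := j1) (d' := j2 - j1) (by omega)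
      (fun i x y => (kap_nb e1 x (by omega)).1) (by omega)
      (fun i x y => (kap_nb e2 x (by omega)).1) (by omega)).1 t1
      (by rwa [Nat.add_sub_cancel' hi, Nat.add_sub_cancel' k])
    exact Or.inl ⟨by omega, this.2⟩
  · have b2 := kap_lt hh e2.symm
    have := (c.cmp hπ hg (a := i1) (d := i2 - i1) (a' := j2) (d' := j1 - j2) (by omega)
      (fun i x y => (kap_nb e1 x (by omega)).1) (by omega)
      (fun i x y => (kap_nb e2.symm x (by omega)).1) (by omega)).2
      (by rwa [Nat.add_sub_cancel' k]) (by rwa [Nat.add_sub_cancel' hi])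
    rw [Nat.add_sub_cancel' k] at this
    exact Or.inr ⟨by omega, this.2.2⟩

theorem Cfg.cell_inj (c : Cfg π c0 T B R cl tl nx μ) (hπ : Invo π) (hh : 1 ≤ h)
    (hg : Girth π (2 * h)) {i j : ℕ} (l1 : i ≤ T) (l2 : j ≤ T)
    (e : kap h T nx μ i = kap h T nx μ j) (t : tl i = tl j) : i = j := by
  rcases c.cell_cmp hπ hh hg le_rfl l1 l1 l2 rfl e rfl t with k | k <;> omega

/-- the vertex of corner `i` lies on the cell `σ` -/
def Hit (h T : ℕ) (tl : ℕ → V) (nx μ : ℕ → ℕ) (i σ : ℕ) : Prop :=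
  ∃ i' ≤ T, kap h T nx μ i' = σ ∧ tl i' = tl i

/-- special corners -/
def Spc (h T : ℕ) (tl : ℕ → V) (nx μ : ℕ → ℕ) (i : ℕ) : Prop :=
  i = 0 ∨ i = T ∨ kap h T nx μ (i + 1) ≠ kap h T nx μ i ∨ kap h T nx μ (i - 1) ≠ kap h T nx μ i ∨
    ∃ σ, Hit h T tl nx μ i σ ∧ (¬ Hit h T tl nx μ (i + 1) σ ∨ ¬ Hit h T tl nx μ (i - 1) σ)

theorem Cfg.hit_mid (c : Cfg π c0 T B R cl tl nx μ) (hπ : Invo π) (hh : 1 ≤ h)
    (hg : Girth π (2 * h)) {i1 i2 i σ : ℕ} (a : i1 ≤ i) (b : i ≤ i2) (l : i2 ≤ T)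
    (e : kap h T nx μ i1 = kap h T nx μ i2) (h1 : Hit h T tl nx μ i1 σ)
    (h2 : Hit h T tl nx μ i2 σ) : Hit h T tl nx μ i σ := by
  obtain ⟨j1, p1, q1, r1⟩ := h1
  obtain ⟨j2, p2, q2, r2⟩ := h2
  rcases c.cell_cmp hπ hh hg (a.trans b) l p1 p2 e (q1.trans q2.symm) r1.symm r2.symm with
    ⟨k1, k2⟩ | ⟨k1, k2⟩
  · have := k2 (i - i1) (by omega)
    rw [Nat.add_sub_cancel' a] at this
    exact ⟨j1 + (i - i1), by omega, le_antisymm (q2 ▸ kap_mono (by omega))
      (q1 ▸ kap_mono (by omega)), this.symm⟩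
  · have := k2 (i - i1) (by omega)
    rw [Nat.add_sub_cancel' a] at this
    exact ⟨j1 - (i - i1), by omega, le_antisymm (q1 ▸ kap_mono (by omega))
      (q2 ▸ kap_mono (by omega)), this.symm⟩

open Classical in
theorem Cfg.card_spc (c : Cfg π c0 T B R cl tl nx μ) (hπ : Invo π) (hh : 1 ≤ h)
    (hg : Girth π (2 * h)) :
    ((range (T + 1)).filter (Spc h T tl nx μ)).card ≤ 4 * (T / h + 1 + R + 1) ^ 2 := by
  set K := T / h + 1 + R with hK
  have kl : ∀ i ≤ T, kap h T nx μ i ∈ range (K + 1) := fun i hi =>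
    mem_range.2 (Nat.lt_succ_of_le (c.kap_le hh hi))
  let P1 : ℕ → Prop := fun i => i = T ∨ kap h T nx μ (i + 1) ≠ kap h T nx μ i
  let P2 : ℕ → Prop := fun i => i = 0 ∨ kap h T nx μ (i - 1) ≠ kap h T nx μ i
  let P3 : ℕ → Prop := fun i => ¬ P1 i ∧ ∃ σ, Hit h T tl nx μ i σ ∧ ¬ Hit h T tl nx μ (i + 1) σ
  let P4 : ℕ → Prop := fun i => ¬ P2 i ∧ ∃ σ, Hit h T tl nx μ i σ ∧ ¬ Hit h T tl nx μ (i - 1) σ
  have c1 : ((range (T + 1)).filter P1).card ≤ K + 1 := by
    refine le_trans (card_le_card_of_injOn (kap h T nx μ) (fun i hi => ?_) ?_)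
      (card_range (K + 1)).le
    · exact kl i (by simp at hi; omega)
    · have : ∀ i j, i < j → j ≤ T → P1 i → kap h T nx μ i ≠ kap h T nx μ j := by
        rintro i j a b (k | k) e
        · omega
        · exact k (le_antisymm (e ▸ kap_mono a) (kap_mono (by omega)))
      intro i hi j hj e
      simp only [coe_filter, mem_range, Set.mem_setOf_eq] at hi hj
      rcases lt_trichotomy i j with k | k | k
      · exact absurd e (this i j k (by omega) hi.2)
      · exact k
      · exact absurd e.symm (this j i k (by omega) hj.2)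
  have c2 : ((range (T + 1)).filter P2).card ≤ K + 1 := by
    refine le_trans (card_le_card_of_injOn (kap h T nx μ) (fun i hi => ?_) ?_)
      (card_range (K + 1)).le
    · exact kl i (by simp at hi; omega)
    · have : ∀ i j, i < j → P2 j → kap h T nx μ i ≠ kap h T nx μ j := by
        rintro i j a (k | k) e
        · omega
        · exact k (le_antisymm (kap_mono (by omega)) (e ▸ kap_mono (by omega)))
      intro i hi j hj e
      simp only [coe_filter, mem_range, Set.mem_setOf_eq] at hi hj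
      rcases lt_trichotomy i j with k | k | k
      · exact absurd e (this i j k hj.2)
      · exact k
      · exact absurd e.symm (this j i k hi.2)
  have gen : ∀ (P : ℕ → Prop) [DecidablePred P] (Q : ℕ → ℕ → Prop), (∀ i, P i → ∃ σ, Hit h T tl nx μ i σ ∧ Q i σ) →
      (∀ i j σ, i < j → j ≤ T → P i → P j → kap h T nx μ i = kap h T nx μ j →
        Hit h T tl nx μ i σ → Hit h T tl nx μ j σ → Q i σ → Q j σ → False) →
      ((range (T + 1)).filter P).card ≤ (K + 1) ^ 2 := by
    intro P _ Q a b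
    choose! sg s1 s2 using a
    refine le_trans (card_le_card_of_injOn (t := range (K + 1) ×ˢ range (K + 1))
      (fun i => (kap h T nx μ i, sg i)) (fun i hi => ?_) ?_) (by simp [sq])
    · simp only [coe_filter, mem_range, Set.mem_setOf_eq] at hi
      obtain ⟨j, p, q, -⟩ := s1 i hi.2
      simp only [coe_product, Set.mem_prod, mem_coe]
      exact ⟨kl i (by omega), q ▸ kl j p⟩
    · intro i hi j hj e
      simp only [coe_filter, mem_range, Set.mem_setOf_eq, Prod.mk.injEq] at hi hj e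
      rcases lt_trichotomy i j with k | k | k
      · exact (b i j (sg i) k (by omega) hi.2 hj.2 e.1 (s1 i hi.2) (e.2 ▸ s1 j hj.2) (s2 i hi.2)
          (e.2 ▸ s2 j hj.2)).elim
      · exact k
      · exact (b j i (sg i) k (by omega) hj.2 hi.2 e.1.symm (e.2 ▸ s1 j hj.2) (s1 i hi.2)
          (e.2 ▸ s2 j hj.2) (s2 i hi.2)).elim
  have c3 := gen P3 (fun i σ => ¬ Hit h T tl nx μ (i + 1) σ) (fun i k => k.2)
    (fun i j σ a b _ _ e h1 h2 q _ => q (c.hit_mid hπ hh hg (by omega) a b e h1 h2))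
  have c4 := gen P4 (fun i σ => ¬ Hit h T tl nx μ (i - 1) σ) (fun i k => k.2)
    (fun i j σ a b _ _ e h1 h2 _ q => q (c.hit_mid hπ hh hg (by omega) (by omega) b e h1 h2))
  have sub : (range (T + 1)).filter (Spc h T tl nx μ) ⊆ (((range (T + 1)).filter P1 ∪
      (range (T + 1)).filter P2) ∪ (range (T + 1)).filter P3) ∪ (range (T + 1)).filter P4 := by
    intro i hi
    obtain ⟨a, b⟩ := mem_filter.1 hi
    by_cases k1 : P1 i
    · exact mem_union_left _ (mem_union_left _ (mem_union_left _ (mem_filter.2 ⟨a, k1⟩)))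
    · by_cases k2 : P2 i
      · exact mem_union_left _ (mem_union_left _ (mem_union_right _ (mem_filter.2 ⟨a, k2⟩)))
      · rcases b with q | q | q | q | ⟨σ, p, q | q⟩
        · exact absurd (Or.inl q) k2
        · exact absurd (Or.inl q) k1
        · exact absurd (Or.inr q) k1
        · exact absurd (Or.inr q) k2
        · exact mem_union_left _ (mem_union_right _ (mem_filter.2 ⟨a, k1, σ, p, q⟩))
        · exact mem_union_right _ (mem_filter.2 ⟨a, k2, σ, p, q⟩)
  refine le_trans (card_le_card sub) ?_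
  have u1 := card_union_le (((range (T + 1)).filter P1 ∪
      (range (T + 1)).filter P2) ∪ (range (T + 1)).filter P3) ((range (T + 1)).filter P4)
  have u2 := card_union_le ((range (T + 1)).filter P1 ∪
      (range (T + 1)).filter P2) ((range (T + 1)).filter P3)
  have u3 := card_union_le ((range (T + 1)).filter P1) ((range (T + 1)).filter P2)
  have : K + 1 ≤ (K + 1) ^ 2 := Nat.le_self_pow (by omega) _
  omega

theorem Cfg.nonspc (c : Cfg π c0 T B R cl tl nx μ) (hπ : Invo π) (hh : 1 ≤ h)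
    (hg : Girth π (2 * h)) {i i' : ℕ} (hi : i ≤ T) (hs : ¬ Spc h T tl nx μ i) (hi' : i' ≤ T)
    (e : tl i' = tl i) :
    0 < i' ∧ i' < T ∧ kap h T nx μ (i' - 1) = kap h T nx μ i' ∧
      kap h T nx μ (i' + 1) = kap h T nx μ i' ∧
      ((tl (i' - 1) = tl (i - 1) ∧ tl (i' + 1) = tl (i + 1)) ∨
        (tl (i' - 1) = tl (i + 1) ∧ tl (i' + 1) = tl (i - 1))) := by
  simp only [Spc, not_or, not_exists, not_and, not_not] at hs
  obtain ⟨s1, s2, s3, s4, s5⟩ := hs
  obtain ⟨⟨b, b1, b2, b3⟩, ⟨a, a1, a2, a3⟩⟩ := s5 _ ⟨i', hi', rfl, e⟩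
  have d : i + 1 - (i - 1) = 2 := by omega
  rcases c.cell_cmp hπ hh hg (i1 := i - 1) (i2 := i + 1) (by omega) (by omega) a1 b1
    (s4.trans s3.symm) (a2.trans b2.symm) a3.symm b3.symm with ⟨k1, k2⟩ | ⟨k1, k2⟩
  · rw [d] at k1 k2
    have := k2 1 (by omega)
    rw [Nat.sub_add_cancel (by omega)] at this
    have m : a + 1 = i' := c.cell_inj hπ hh hg (by omega) hi'
      (le_antisymm (b2 ▸ kap_mono (by omega)) (a2 ▸ kap_mono (by omega))) (by rw [← this, e])
    obtain rfl : a = i' - 1 := by omega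
    obtain rfl : b = i' + 1 := by omega
    exact ⟨by omega, by omega, a2, b2, Or.inl ⟨a3, b3⟩⟩
  · rw [d] at k1 k2
    have := k2 1 (by omega)
    rw [Nat.sub_add_cancel (by omega)] at this
    have m : a - 1 = i' := c.cell_inj hπ hh hg (by omega) hi'
      (le_antisymm (a2 ▸ kap_mono (by omega)) (b2 ▸ kap_mono (by omega))) (by rw [← this, e])
    obtain rfl : a = i' + 1 := by omega
    obtain rfl : b = i' - 1 := by omega
    exact ⟨by omega, by omega, b2, a2, Or.inr ⟨b3, a3⟩⟩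

end Vale.Agent.P194
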