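import Vale.Agent.P194.Merge

namespace Vale.Agent.P194

variable {S V : Type} {π : S → V → V}

/-- the matching and the successor function do not continue regularly at `j` -/
def Brk (T : ℕ) (nx μ : ℕ → ℕ) (j : ℕ) : Prop :=
  ¬ (nx j = j + 1 ∧ (j + 1 < T → μ j = μ (j + 1) + 1 ∧ nx (μ (j + 1)) = μ j))

instance (T : ℕ) (nx μ : ℕ → ℕ) : DecidablePred (Brk T nx μ) := fun j => by
  unfold Brk; infer_instance

/-- a reduced diagram drawn in the graph: `T` darts, at most `B` of them on the boundary -/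
structure Cfg (π : S → V → V) (c0 : V) (T B R : ℕ) (cl : ℕ → S) (tl : ℕ → V)
    (nx μ : ℕ → ℕ) : Prop where
  step : ∀ j < T, π (cl j) (tl j) = tl (nx j) ∧ tl (nx j) ≠ tl j
  nx_le : ∀ j < T, nx j ≤ T
  red : ∀ j < T, nx j < T → cl (nx j) ≠ cl j
  inj : ∀ i < T, ∀ j < T, nx i = nx j → i = j
  endp : (∃ j < T, nx j = T) → ∃ i < T, tl i = c0
  inv : ∀ j < T, μ (μ j) = j
  mu_lt : ∀ j < T, μ j < T + B
  orig : ∀ j < T, μ j < T → cl (μ j) = cl j ∧ tl (μ j) ≠ tl (nx j)
  brk : ((Finset.range T).filter (Brk T nx μ)).card ≤ R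

theorem walk_take (w : List S) : ∀ (u : V) (k : ℕ) (hk : k < w.length), Walk π u w →
    π w[k] (run π u (w.take k)) = run π u (w.take (k + 1)) ∧
      run π u (w.take (k + 1)) ≠ run π u (w.take k) := by
  induction w with
  | nil => intro u k hk; simp at hk
  | cons s w ih =>
    intro u k hk h
    rcases k with _ | k
    · exact ⟨rfl, h.1⟩
    · exact ih (π s u) k (by simpa using hk) h.2

theorem range'_chain (n : ℕ) : ∀ (t : ℕ) (nx : ℕ → ℕ), (∀ i, t ≤ i → nx i = i + 1) →
    List.IsChain (fun p q => q = nx p) (List.range' t n) := by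
  induction n with
  | zero => intro t nx _; exact List.isChain_nil
  | succ n ih =>
    intro t nx h
    rcases n with _ | n
    · exact List.isChain_singleton _
    · have := ih (t + 1) nx (fun i hi => h i (by omega))
      rw [List.range'_succ] at this
      rw [List.range'_succ, List.range'_succ]
      exact List.isChain_cons_cons.2 ⟨(h t le_rfl).symm, this⟩

theorem raw [Nontrivial S] {w : List S} {U : Multiset S} {n : ℕ} {M : Multiset (Sym2 S)}
    (d : Der id (fun l => CW π l ∧ CRed l) w U n M) (u0 : V) (hw : w ≠ []) (hr : Red w) :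
    ∃ (cl : ℕ → S) (tl : ℕ → V) (nx μ : ℕ → ℕ) (M' : Multiset (Sym2 ℕ)),
      Der cl (ValN nx) (List.range' (Multiset.card U) w.length)
        (Multiset.range (Multiset.card U)) n M' ∧
      (List.range' (Multiset.card U) w.length).map cl = w ∧
      (∀ i < Multiset.card U, nx i < Multiset.card U ∧ π (cl i) (tl i) = tl (nx i) ∧
        tl (nx i) ≠ tl i) ∧
      (∀ i < Multiset.card U + w.length, cl (nx i) ≠ cl i) ∧
      (∀ i < Multiset.card U, ∀ j < Multiset.card U, nx i = nx j → i = j) ∧
      (∀ i, Multiset.card U ≤ i → nx i = i + 1) ∧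
      (∀ k ≤ w.length, tl (Multiset.card U + k) = run π u0 (w.take k)) ∧
      (((List.range' (Multiset.card U) w.length : List ℕ) : Multiset ℕ) +
        Multiset.range (Multiset.card U)).Nodup ∧ Cons μ M' ∧
      (∀ j < Multiset.card U + w.length, μ j < Multiset.card U + w.length ∧ μ (μ j) = j ∧
        cl (μ j) = cl j ∧ s(j, μ j) ∈ M') ∧ 1 ≤ n ∧
      ((Finset.range (Multiset.card U + w.length)).filter
        (Brk (Multiset.card U + w.length) nx μ)).card ≤ 17 * n := by
  obtain ⟨s0, hs0⟩ := exists_ne (w.getLast hw)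
  obtain ⟨cl, tl, nx, M', d', a1, a2, a3, a4, a5, a6, a7⟩ := toNat d u0 s0
  set T := Multiset.card U
  have mem : ∀ j, (j ∈ List.range' T w.length ∨ j ∈ Multiset.range T) ↔ j < T + w.length := by
    intro j; simp; omega
  have hn : (((List.range' T w.length : List ℕ) : Multiset ℕ) + Multiset.range T).Nodup := by
    rw [Multiset.nodup_add]
    refine ⟨Multiset.coe_nodup.2 (List.nodup_range' ..), Multiset.nodup_range _, ?_⟩
    rw [Multiset.disjoint_left]; intro a h1 h2; simp at h1 h2; omega
  obtain ⟨μ, hμ⟩ := d'.exists_mu hn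
  have hcl : ∀ k (hk : k < w.length), cl (T + k) = w[k] := by
    intro k hk
    have := List.getElem_of_eq a1.symm hk
    simpa using this.symm
  have hred : ∀ i < T + w.length, cl (nx i) ≠ cl i := by
    intro i hi
    by_cases h : i < T
    · exact (a2 i h).2.2.2
    · obtain ⟨k, rfl⟩ : ∃ k, i = T + k := ⟨i - T, by omega⟩
      rw [a5 _ (by omega), hcl k (by omega)]
      by_cases h2 : k + 1 < w.length
      · rw [add_assoc, hcl _ h2]
        exact (List.isChain_iff_getElem.1 hr k h2).symm
      · have : k + 1 = w.length := by omega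
        rw [add_assoc, this, a7]
        rw [List.getLast_eq_getElem] at hs0
        convert hs0 using 2; omega
  have hmu : ∀ j < T + w.length, μ j < T + w.length ∧ μ (μ j) = j ∧ cl (μ j) = cl j ∧
      s(j, μ j) ∈ M' := by
    intro j hj
    obtain ⟨q, hq⟩ := d'.exists_M j ((mem j).2 hj)
    have hq' : s(q, j) ∈ M' := by rwa [Sym2.eq_swap]
    rw [hμ j q hq]
    exact ⟨(mem q).1 (d'.mem_of_M q j hq').1, hμ q j hq', (d'.mem_of_M q j hq').2, hq⟩
  have ch := range'_chain w.length T nx a5
  have ar := (arcs (sc := nx) (μ := μ) cyc_rot (fun _ h => h) _ _ _ _ _ le_rfl d' hμ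
    (fun p hp => hred p ((mem p).1 hp)) (by simpa using hw)).1
  rw [jn_chain ch] at ar
  have b1 := brk_chain (μ := μ) ch
  have b2 : ((Finset.range (T + w.length)).filter (bad nx μ)).card ≤ 15 * n := by
    have e : (Finset.range (T + w.length)).val =
        ((List.range' T w.length : List ℕ) : Multiset ℕ) + Multiset.range T := by
      rw [Multiset.Nodup.ext (Finset.range _).nodup hn]
      intro j; rw [Multiset.mem_add, Multiset.mem_coe, mem]; simp
    have : ((Finset.range (T + w.length)).filter (bad nx μ)).card =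
        Multiset.countP (bad nx μ) (Finset.range (T + w.length)).val := by
      rw [Multiset.countP_eq_card_filter]; rfl
    rw [this, e, Multiset.countP_add, Multiset.coe_countP]; omega
  have b3 : ((Finset.range (T + w.length)).filter
      (fun j => j + 1 < T + w.length ∧ nx (μ (j + 1)) ≠ μ (j + 1) + 1)).card ≤ n := by
    refine le_trans (Finset.card_le_card_of_injOn (fun j => μ (j + 1)) ?_ ?_) a4
    · intro j hj
      simp only [Finset.coe_filter, Finset.mem_range, Set.mem_setOf_eq] at hj ⊢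
      refine ⟨?_, hj.2.2⟩
      by_contra k; exact hj.2.2 (a5 _ (by omega))
    · intro i hi j hj e
      simp only [Finset.coe_filter, Finset.mem_range, Set.mem_setOf_eq] at hi hj e
      have := (hmu _ hi.2.1).2.1
      rw [e, (hmu _ hj.2.1).2.1] at this; omega
  refine ⟨cl, tl, nx, μ, M', d', a1, fun i hi => ⟨(a2 i hi).1, (a2 i hi).2.1, (a2 i hi).2.2.1⟩,
    hred, a3, a5, a6, hn, hμ, hmu, by omega, ?_⟩
  refine le_trans (Finset.card_le_card (t := ((Finset.range T).filter (fun i => nx i ≠ i + 1) ∪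
    (Finset.range (T + w.length)).filter (bad nx μ)) ∪ (Finset.range (T + w.length)).filter
      (fun j => j + 1 < T + w.length ∧ nx (μ (j + 1)) ≠ μ (j + 1) + 1)) ?_) ?_
  · intro j hj
    simp only [Finset.mem_filter, Finset.mem_range, Finset.mem_union, Brk, bad] at hj ⊢
    by_cases k1 : nx j = j + 1
    · by_cases k2 : nx (μ (nx j)) = μ j
      · right
        refine ⟨hj.1, ?_⟩
        rw [k1] at k2
        by_contra k3
        refine hj.2 ⟨k1, fun k4 => ⟨?_, k2⟩⟩
        rw [← k2]; by_contra k5; exact k3 ⟨k4, k5⟩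
      · exact Or.inl (Or.inr ⟨hj.1, k2⟩)
    · refine Or.inl (Or.inl ⟨?_, k1⟩)
      by_contra k; exact k1 (a5 _ (by omega))
  · refine le_trans (Finset.card_union_le _ _) ?_
    have := Finset.card_union_le ((Finset.range T).filter (fun i => nx i ≠ i + 1))
      ((Finset.range (T + w.length)).filter (bad nx μ))
    omega

theorem face_long {g : ℕ} (hg : Girth π g) (l : List S) (h : CW π l ∧ CRed l) (hl : l ≠ []) :
    g + 1 ≤ l.length := by
  obtain ⟨⟨u, a, b⟩, c⟩ := h
  exact hg u l hl (c l (List.IsRotated.refl _)) a b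

theorem cfg_unrooted [Nontrivial S] (hπ : Invo π) {g : ℕ} (hg : Girth π g) (c0 : V)
    {w : List S} (hw : w ≠ []) (hr : Red w) {t m : ℕ} (h : Ar (CW π) w t m)
    (hmin : ∀ t' m', Ar (CW π) w t' m' → t ≤ t') :
    ∃ n cl tl nx μ, Cfg π c0 t w.length (17 * n) cl tl nx μ ∧ 1 ≤ n ∧ (g + 1) * n ≤ t ∧
      Ar (CW π) w t n := by
  haveI : Nonempty V := ⟨c0⟩
  obtain ⟨U, n, M, p, -, d⟩ := h
  obtain rfl : t = Multiset.card U := le_antisymm (hmin _ _ d.ar) p
  rcases d.reduce CW.rot (CW.rev hπ) (CW.canc hπ) with d1 | ⟨t, m, p, q⟩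
  swap
  · exact absurd (hmin _ _ q) (by omega)
  obtain ⟨cl, tl, nx, μ, M', d', a1, a2, a3, a4, a5, -, hn, hμ, hmu, hn1, hb⟩ := raw d1 c0 hw hr
  refine ⟨n, cl, tl, nx, μ, ⟨fun j hj => (a2 j hj).2, fun j hj => (a2 j hj).1.le,
    fun j hj _ => a3 j (by omega), a4, ?_, fun j hj => (hmu j (by omega)).2.1,
    fun j hj => (hmu j (by omega)).1, fun j hj hm => ⟨(hmu j (by omega)).2.2.1, fun e => ?_⟩,
    le_trans (Finset.card_le_card ?_) hb⟩, hn1, d1.face_ge _ (face_long hg), d.ar⟩
  · rintro ⟨j, hj, e⟩; exact absurd (a2 j hj).1 (by omega)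
  · obtain ⟨t, m, p, q⟩ := d'.merge (tl := tl) hπ hn hμ
      (fun q hq => (a2 q (by simpa using hq)).2) j (μ j) (hmu j (by omega)).2.2.2
      (by simpa using hj) (by simpa using hm) (by rw [e, (a2 j hj).2.1])
    rw [a1] at q
    have := hmin _ _ q
    simp at p; omega
  · intro j hj
    simp only [Finset.mem_filter, Finset.mem_range, Brk] at hj ⊢
    exact ⟨by omega, fun k => hj.2 ⟨k.1, fun k' => k.2 (by omega)⟩⟩

theorem cfg_rooted [Nontrivial S] (hπ : Invo π) {g : ℕ} (hg : Girth π g) (c0 : V)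
    {w : List S} (hw : w ≠ []) (hr : Red w) (hp : Walk π c0 w) {t m : ℕ}
    (h : Ar (CW π) w t m)
    (hmin : ∀ p t' m', Walk π c0 p → run π c0 p = run π c0 w → Ar (CW π) p t' m' →
      t + w.length ≤ t' + p.length) :
    ∃ n cl tl nx μ, Cfg π c0 (t + w.length) 0 (17 * n) cl tl nx μ ∧ 1 ≤ n ∧
      (g + 1) * n ≤ t := by
  haveI : Nonempty V := ⟨c0⟩
  obtain ⟨U, n, M, p, -, d⟩ := h
  obtain rfl : t = Multiset.card U :=
    le_antisymm (by have := hmin _ _ _ hp rfl d.ar; omega) p
  rcases d.reduce CW.rot (CW.rev hπ) (CW.canc hπ) with d1 | ⟨t, m, p, q⟩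
  swap
  · exact absurd (hmin _ _ _ hp rfl q) (by omega)
  obtain ⟨cl, tl, nx, μ, M', d', a1, a2, a3, a4, a5, a6, hn, hμ, hmu, hn1, hb⟩ := raw d1 c0 hw hr
  set T := Multiset.card U
  have hcl : ∀ k (hk : k < w.length), cl (T + k) = w[k] := by
    intro k hk
    have := List.getElem_of_eq a1.symm hk
    simpa using this.symm
  have st : ∀ j < T + w.length, Step π cl tl nx j := by
    intro j hj
    by_cases h : j < T
    · exact (a2 j h).2
    · obtain ⟨k, rfl⟩ : ∃ k, j = T + k := ⟨j - T, by omega⟩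
      unfold Step
      rw [a5 _ (by omega), hcl k (by omega), add_assoc, a6 _ (by omega), a6 _ (by omega)]
      exact walk_take w c0 k (by omega) hp
  have t0 : tl T = c0 := by simpa using a6 0 (by omega)
  have hl : 0 < w.length := List.length_pos_iff.2 hw
  have pth : Pth π cl tl (List.range' T w.length) c0 (run π c0 w) := by
    have ch := range'_chain (w.length + 1) T nx a5
    rw [List.range'_concat] at ch
    obtain ⟨k, hk⟩ : ∃ k, w.length = k + 1 := ⟨w.length - 1, by omega⟩
    have e := a6 w.length le_rfl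
    rw [List.take_length] at e
    rw [← e, ← t0]
    simp only [one_mul] at ch
    rw [hk, List.range'_succ] at ch ⊢
    exact chain_pth _ _ _ (fun q hq => st q (by simp at hq; omega)) ch
  have su : ∀ q ∈ Multiset.range T, Step π cl tl nx q := fun q hq =>
    (a2 q (by simpa using hq)).2
  refine ⟨n, cl, tl, nx, μ, ⟨st, fun j hj => ?_, fun j hj _ => a3 j hj, fun i hi j hj e => ?_,
    fun _ => ⟨T, by omega, t0⟩, fun j hj => (hmu j hj).2.1, fun j hj => (hmu j hj).1,
    fun j hj hm => ⟨(hmu j hj).2.2.1, fun e => ?_⟩, hb⟩, hn1, d1.face_ge _ (face_long hg)⟩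
  · by_cases h : j < T
    · have := (a2 j h).1; omega
    · rw [a5 j (by omega)]; omega
  · by_cases h : i < T
    · by_cases h' : j < T
      · exact a4 i h j h' e
      · have := (a2 i h).1; rw [a5 j (by omega)] at e; omega
    · by_cases h' : j < T
      · have := (a2 j h').1; rw [a5 i (by omega)] at e; omega
      · rw [a5 i (by omega), a5 j (by omega)] at e; omega
  · have ho : tl (μ j) = π (cl j) (tl j) := by rw [e, (st j hj).1]
    have fin : ∀ e e', s(e, e') ∈ M' → e ∈ List.range' T w.length → tl e' = π (cl e) (tl e) →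
        False := by
      intro e e' k1 k2 k3
      obtain ⟨p, t, m, q1, q2, q3, q4⟩ := d'.push hπ hn hμ su pth e e' k1 k2 k3
      have := hmin p t m q1 q2 q4
      simp at q3; omega
    by_cases h : j < T
    · by_cases h' : μ j < T
      · obtain ⟨t, m, p, q⟩ := d'.merge (tl := tl) hπ hn hμ su j (μ j) (hmu j hj).2.2.2
          (by simpa using h) (by simpa using h') ho
        rw [a1] at q
        have := hmin _ _ _ hp rfl q
        simp at p; omega
      · exact fin (μ j) j (by rw [Sym2.eq_swap]; exact (hmu j hj).2.2.2) (by simp; omega)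
          (by rw [ho, (hmu j hj).2.2.1, hπ])
    · exact fin j (μ j) (hmu j hj).2.2.2 (by simp; omega) ho

end Vale.Agent.P194
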