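import Vale.Agent.P194.Defs

namespace Vale.Agent.P194

open Finset

open Classical in
theorem count_seq {α ι Y : Type} (A : Finset α) (f : α → ι → Y) (ρ : ι → ℕ) (k : ι → ℕ)
    (I : Finset ι) : (∀ i ∈ I, ∀ x0 ∈ A,
      ((A.filter (fun x => ∀ j ∈ I, ρ j < ρ i → f x j = f x0 j)).image (fun x => f x i)).card
        ≤ k i) →
    (A.image (fun x j => if j ∈ I then some (f x j) else none)).card ≤ ∏ i ∈ I, k i := by
  induction I using Finset.induction_on_max_value ρ with
  | empty =>
    intro _
    simp only [prod_empty]
    exact card_le_one.2 (fun a ha b hb => by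
      obtain ⟨x, -, rfl⟩ := mem_image.1 ha
      obtain ⟨y, -, rfl⟩ := mem_image.1 hb
      funext j; simp)
  | insert i I hi hmax ih =>
    intro h
    have ih' := ih (fun i' hi' x0 hx0 => by
      refine le_trans (card_le_card (image_subset_image ?_)) (h i' (mem_insert_of_mem hi') x0 hx0)
      intro x hx
      simp only [mem_filter] at hx ⊢
      refine ⟨hx.1, fun j hj hl => ?_⟩
      rcases mem_insert.1 hj with rfl | hj
      · exact absurd (hmax i' hi') (by omega)
      · exact hx.2 j hj hl)
    rw [prod_insert hi]
    refine le_trans (card_le_mul_card_image_of_maps_to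
      (f := fun r : ι → Option Y => Function.update r i none)
      (t := A.image (fun x j => if j ∈ I then some (f x j) else none)) ?_ (k i) ?_)
      (Nat.mul_le_mul_left _ ih')
    · intro r hr
      obtain ⟨x, hx, rfl⟩ := mem_image.1 hr
      refine mem_image.2 ⟨x, hx, ?_⟩
      funext j
      by_cases e : j = i
      · subst e; simp [hi]
      · simp [Function.update_of_ne e, e]
    · intro r hr
      obtain ⟨x0, hx0, rfl⟩ := mem_image.1 hr
      refine le_trans (card_le_card_of_injOn (fun r => (r i).getD (f x0 i)) ?_ ?_)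
        (h i (mem_insert_self _ _) x0 hx0)
      · intro r hr
        simp only [coe_filter, mem_image, Set.mem_setOf_eq] at hr
        obtain ⟨⟨x, hx, rfl⟩, e⟩ := hr
        simp only [coe_image, Set.mem_image, coe_filter, Set.mem_setOf_eq]
        refine ⟨x, ⟨hx, fun j hj hl => ?_⟩, by simp⟩
        have ne : j ≠ i := by rintro rfl; omega
        have hj' : j ∈ I := (mem_insert.1 hj).resolve_left ne
        have := congrFun e j
        simpa [Function.update_of_ne ne, hj'] using this
      · intro r hr r' hr' e
        simp only [coe_filter, mem_image, Set.mem_setOf_eq] at hr hr'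
        obtain ⟨⟨x, hx, rfl⟩, e1⟩ := hr
        obtain ⟨⟨y, hy, rfl⟩, e2⟩ := hr'
        funext j
        by_cases ne : j = i
        · subst ne; simpa using e
        · have := congrFun (e1.trans e2.symm) j
          simpa [Function.update_of_ne ne] using this

theorem count_seq' {α ι Y : Type} [d1 : DecidableEq ι] [d2 : DecidableEq (ι → Option Y)]
    (A : Finset α)
    (f : α → ι → Y) (ρ : ι → ℕ) (k : ι → ℕ) (I : Finset ι)
    (h : ∀ i ∈ I, ∀ x0 ∈ A, ∃ t : Finset Y, t.card ≤ k i ∧
      ∀ x ∈ A, (∀ j ∈ I, ρ j < ρ i → f x j = f x0 j) → f x i ∈ t) :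
    (A.image (fun x j => if j ∈ I then some (f x j) else none)).card ≤ ∏ i ∈ I, k i := by
  have := count_seq A f ρ k I (fun i hi x0 hx0 => by
    obtain ⟨t, a, b⟩ := h i hi x0 hx0
    refine le_trans (card_le_card ?_) a
    intro y hy
    simp only [mem_image, mem_filter] at hy
    obtain ⟨x, hx, rfl⟩ := hy
    exact b x hx.1 hx.2)
  obtain rfl : d1 = fun a b => Classical.propDecidable (a = b) := Subsingleton.elim _ _
  obtain rfl : d2 = fun a b => Classical.propDecidable (a = b) := Subsingleton.elim _ _
  exact this

theorem card_small_subsets {α : Type} [DecidableEq α] (s : Finset α) (r : ℕ) :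
    (s.powerset.filter (fun t => t.card ≤ r)).card ≤ (s.card + 1) ^ r := by
  induction r with
  | zero =>
    refine card_le_one.2 (fun a ha b hb => ?_)
    simp only [mem_filter, nonpos_iff_eq_zero, card_eq_zero] at ha hb
    rw [ha.2, hb.2]
  | succ r ih =>
    have : s.powerset.filter (fun t => t.card ≤ r + 1) ⊆
        s.powerset.filter (fun t => t.card ≤ r) ∪
          (s ×ˢ s.powerset.filter (fun t => t.card ≤ r)).image (fun p => insert p.1 p.2) := by
      intro t ht
      simp only [mem_filter, mem_powerset, mem_union, mem_image, mem_product] at ht ⊢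
      by_cases h : t.card ≤ r
      · exact Or.inl ⟨ht.1, h⟩
      · obtain ⟨a, ha⟩ : t.Nonempty := card_pos.1 (by omega)
        exact Or.inr ⟨(a, t.erase a), ⟨ht.1 ha, (erase_subset _ _).trans ht.1,
          by rw [card_erase_of_mem ha]; omega⟩, insert_erase ha⟩
    refine le_trans (card_le_card this) (le_trans (card_union_le _ _) ?_)
    have h2 := card_image_le (s := s ×ˢ s.powerset.filter (fun t => t.card ≤ r))
      (f := fun p : α × Finset α => insert p.1 p.2)
    rw [card_product] at h2
    have h3 := Nat.mul_le_mul_left s.card ih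
    rw [pow_succ, mul_add, mul_one, mul_comm _ s.card]
    omega

theorem count_simple {Y : Type} [DecidableEq Y] (T R : ℕ) (Yf : Finset Y) (φ : Y → Y) (d : Y)
    (Φ : Finset (ℕ → Y)) (h1 : ∀ f ∈ Φ, ∀ i, T < i → f i = d) (h2 : ∀ f ∈ Φ, ∀ i ≤ T, f i ∈ Yf)
    (h3 : ∀ f ∈ Φ, ((range T).filter (fun i => f (i + 1) ≠ φ (f i))).card ≤ R) :
    Φ.card ≤ ((T + 1) * Yf.card + 1) ^ (R + 1) := by
  have := card_small_subsets (range (T + 1) ×ˢ Yf) (R + 1)
  rw [card_product, card_range] at this
  refine le_trans (card_le_card_of_injOn (fun f => insert (0, f 0)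
    (((range T).filter (fun i => f (i + 1) ≠ φ (f i))).image (fun i => (i + 1, f (i + 1)))))
    ?_ ?_) this
  · intro f hf
    simp only [coe_filter, mem_powerset, Set.mem_setOf_eq]
    constructor
    · intro p hp
      simp only [mem_insert, mem_image, mem_filter, mem_range, mem_product] at hp ⊢
      rcases hp with rfl | ⟨i, ⟨hi, -⟩, rfl⟩
      · exact ⟨by omega, h2 f hf 0 (by omega)⟩
      · exact ⟨by omega, h2 f hf _ (by omega)⟩
    · exact le_trans (card_insert_le _ _) (Nat.succ_le_succ (card_image_le.trans (h3 f hf)))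
  · intro f hf g hg e
    beta_reduce at e
    have key : ∀ f g : ℕ → Y, insert (0, f 0)
        (((range T).filter (fun i => f (i + 1) ≠ φ (f i))).image (fun i => (i + 1, f (i + 1)))) =
        insert (0, g 0)
        (((range T).filter (fun i => g (i + 1) ≠ φ (g i))).image (fun i => (i + 1, g (i + 1)))) →
        ∀ i < T, f (i + 1) ≠ φ (f i) → f (i + 1) = g (i + 1) := by
      intro f g e i hi hb
      have : (i + 1, f (i + 1)) ∈ insert (0, g 0) (((range T).filter
          (fun i => g (i + 1) ≠ φ (g i))).image (fun i => (i + 1, g (i + 1)))) := by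
        rw [← e]; exact mem_insert_of_mem (mem_image.2 ⟨i, by simp [hi, hb], rfl⟩)
      simp only [mem_insert, mem_image, Prod.mk.injEq] at this
      rcases this with ⟨k, -⟩ | ⟨j, -, k1, k2⟩
      · omega
      · rw [← k2, k1]
    funext i
    induction i with
    | zero =>
      have : (0, f 0) ∈ insert (0, g 0) (((range T).filter
          (fun i => g (i + 1) ≠ φ (g i))).image (fun i => (i + 1, g (i + 1)))) := by
        rw [← e]; exact mem_insert_self _ _
      simpa using this
    | succ i ih =>
      by_cases hi : i < T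
      · by_cases b1 : f (i + 1) = φ (f i)
        · by_cases b2 : g (i + 1) = φ (g i)
          · rw [b1, b2, ih]
          · exact (key g f e.symm i hi b2).symm
        · exact key f g e i hi b1
      · rw [h1 f hf _ (by omega), h1 g hg _ (by omega)]

end Vale.Agent.P194
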