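import Mathlib

namespace Vale.Agent.P194

section words
variable {Λ S : Type}

/-- Planar derivations: current boundary word, multiset of all letters of the faces used,
number of faces, multiset of matched pairs of letters. -/
inductive Der (col : Λ → S) (Val : List Λ → Prop) :
    List Λ → Multiset Λ → ℕ → Multiset (Sym2 Λ) → Prop
  | nil : Der col Val [] 0 0 0
  | mat (a b c : List Λ) (x y : Λ) (U1 : Multiset Λ) (n1 : ℕ) (M1 : Multiset (Sym2 Λ))
      (U2 : Multiset Λ) (n2 : ℕ) (M2 : Multiset (Sym2 Λ)) :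
      col x = col y → Der col Val b U1 n1 M1 → Der col Val (a ++ c) U2 n2 M2 →
      Der col Val (a ++ x :: (b ++ y :: c)) (U1 + U2) (n1 + n2) (s(x, y) ::ₘ (M1 + M2))
  | opn (a r c : List Λ) (x y : Λ) (U : Multiset Λ) (n : ℕ) (M : Multiset (Sym2 Λ)) :
      col x = col y → Val (y :: r) → Der col Val (a ++ (r ++ c)) U n M →
      Der col Val (a ++ x :: c) ((↑(y :: r) : Multiset Λ) + U) (n + 1) (s(x, y) ::ₘ M)

/-- Abstract area axioms: `A w n` means that the word `w` (in involutive letters) has a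
filling with at most `n` faces, every face having length at most `L`. -/
structure AreaAx (A : List S → ℕ → Prop) (L : ℕ) : Prop where
  mono : ∀ {w : List S} {n m : ℕ}, A w n → n ≤ m → A w m
  nil : A [] 0
  dbl : ∀ x : S, A [x, x] 0
  rot : ∀ {a b : List S} {n : ℕ}, A (a ++ b) n → A (b ++ a) n
  rev : ∀ {w : List S} {n : ℕ}, A w n → A w.reverse n
  ins : ∀ {a b c : List S} {n m : ℕ}, A b n → A (a ++ c) m → A (a ++ (b ++ c)) (n + m)
  canc : ∀ {a c : List S} {x : S} {n : ℕ}, A (a ++ x :: x :: c) n → A (a ++ c) n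
  first : ∀ {x : S} {c : List S} {n : ℕ}, A (x :: c) n →
    (∃ b c' n1 n2, c = b ++ x :: c' ∧ n1 + n2 ≤ n ∧ A b n1 ∧ A c' n2) ∨
    (∃ r m, r ≠ [] ∧ r.length < L ∧ m + 1 ≤ n ∧ A (x :: r) 1 ∧ A (r ++ c) m)

/-- `n` is the least area of `w`. -/
def IsArea (A : List S → ℕ → Prop) (w : List S) (n : ℕ) : Prop :=
  A w n ∧ ∀ m, A w m → n ≤ m

/-- no two adjacent letters are equal -/
def Red (w : List S) : Prop := List.IsChain (fun x y => x ≠ y) w

end words

/-- WP-B: local-to-global principle for the linear isoperimetric inequality. -/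
def L2GStmt : Prop :=
  ∀ q : ℕ, ∃ K : ℕ, ∀ (S : Type) (A : List S → ℕ → Prop) (L : ℕ), 1 ≤ L → AreaAx A L →
    (∀ w n, IsArea A w n → n ≤ K → L * n ≤ q * w.length) →
    ∀ w n, IsArea A w n → L * n ≤ 2 * q * w.length

section model
variable {S X V : Type}

/-- vertex `v` has the set of colours `L v` and the class `τ v`; colours act on classes -/
structure Model (S X V : Type) where
  L : V → Finset S
  τ : V → X
  act : S → X → X

/-- an edge-coloured graph compatible with the model: one involution per colour -/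
def Valid (m : Model S X V) (π : S → V → V) : Prop :=
  ∀ s v, π s (π s v) = v ∧ (s ∉ m.L v → π s v = v) ∧
    (s ∈ m.L v → π s v ≠ v ∧ m.τ (π s v) = m.act s (m.τ v))

/-- endpoint of the walk from `v` with colour word `w` -/
def run (π : S → V → V) (v : V) (w : List S) : V := w.foldl (fun u s => π s u) v

/-- every step of the word `w` read from `v` is an edge -/
def Walk (π : S → V → V) : V → List S → Prop
  | _, [] => True
  | v, s :: w => π s v ≠ v ∧ Walk π (π s v) w

def Girth (π : S → V → V) (g : ℕ) : Prop :=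
  ∀ v w, w ≠ [] → Red w → Walk π v w → run π v w = v → g < w.length

def Diam (π : S → V → V) (D : ℕ) : Prop :=
  ∀ v w, Walk π v w → ∃ w', Walk π v w' ∧ run π v w' = run π v w ∧ w'.length ≤ D

open Classical in
/-- the finite probability space: valid graphs of girth `> g` -/
noncomputable def GG [Fintype S] [Fintype V] (m : Model S X V) (g : ℕ) : Finset (S → V → V) :=
  Finset.univ.filter (fun π => Valid m π ∧ Girth π g)

/-- the graph contains all the edges `(u, s, v)` of `F` -/
def Has (π : S → V → V) (F : Finset (V × S × V)) : Prop := ∀ e ∈ F, π e.2.1 e.1 = e.2.2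

/-- the triples of `F` are pairwise different, non-loop edges -/
def Sep (F : Finset (V × S × V)) : Prop :=
  (∀ e ∈ F, e.1 ≠ e.2.2) ∧
    ∀ e ∈ F, ∀ e' ∈ F, e ≠ e' → e.2.1 = e'.2.1 → e.1 ≠ e'.1 ∧ e.1 ≠ e'.2.2

open Classical in
/-- every colour class of every vertex class is large -/
def Big [Fintype V] (m : Model S X V) (N0 : ℕ) : Prop :=
  ∀ s v, s ∈ m.L v → N0 ≤ (Finset.univ.filter (fun u => s ∈ m.L u ∧ m.τ u = m.τ v)).card

open Classical in
/-- few vertices of a given class carry two given colours -/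
def Few [Fintype V] (m : Model S X V) (N2 : ℕ) : Prop :=
  ∀ s t x, s ≠ t →
    (Finset.univ.filter (fun u => s ∈ m.L u ∧ t ∈ m.L u ∧ m.τ u = x)).card ≤ N2

end model

/-- WP-C1: graphs of large girth exist (switching). -/
def NonemptyStmt : Prop :=
  ∀ (S X V : Type) [Fintype S] [Fintype V] (m : Model S X V) (g N0 : ℕ),
    (∃ π, Valid m π) → Big m N0 → 2 * (Fintype.card S + 1) ^ (g + 2) < N0 → (GG m g).Nonempty

open Classical in
/-- WP-C2: probability that given edges are present (switching). -/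
def ProbStmt : Prop :=
  ∀ (S X V : Type) [Fintype S] [Fintype V] (m : Model S X V) (g N0 Ns : ℕ)
    (F : Finset (V × S × V)), Big m N0 → Sep F →
    Ns + 2 * (Fintype.card S + 1) ^ (g + 2) + 2 * F.card ≤ N0 →
    ((GG m g).filter (fun π => Has π F)).card * Ns ^ F.card ≤ (GG m g).card

open Classical in
/-- WP-D: logarithmic diameter of components with probability at least 3/4. -/
def DiamStmt : Prop :=
  ∀ (S X V : Type) [Fintype S] [Fintype V] (m : Model S X V) (g N r : ℕ),
    Big m (10 * N) → (∀ v, 10 ≤ (m.L v).card) → Fintype.card V ≤ 600 * N →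
    100 * (Fintype.card S + 1) ^ (g + 2) ≤ N → N ≤ 2 ^ r →
    4 * ((GG m g).filter (fun π => ¬ Diam π (10 ^ 6 * (2 * r + 1)))).card ≤ (GG m g).card

/-- WP-F: the design from the plane of order 9 and the group algebra computation. -/
def DesignStmt : Prop :=
  ∀ N : ℕ, Even N → 100 ≤ N →
    ∃ (V : Type) (_ : Fintype V) (m : Model (Fin 91) (Fin 3 × Bool) V) (c0 : V),
      (∃ π, Valid m π) ∧ Big m (10 * N) ∧ Few m (N + 17) ∧ (∀ v, 10 ≤ (m.L v).card) ∧
      Fintype.card V ≤ 600 * N ∧
      ∀ π, Valid m π → ∀ (G : Type) [Group G] (φ : Fin 91 → G), (∀ s, φ s * φ s = 1) →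
        (∀ v w, Walk π v w → run π v w = v → (w.map φ).prod = 1) →
        (∀ w, Walk π c0 w → (w.map φ).prod = 1 → run π c0 w = c0) →
        ∃ a b : MonoidAlgebra (ZMod 3) G, a * b = 1 ∧ b * a ≠ 1

/-- Cayley graph of `G` for the generating set `T` -/
def cayley {G : Type} [Group G] (T : Set G) : SimpleGraph G where
  Adj g h := g ≠ h ∧ (g⁻¹ * h ∈ T ∨ h⁻¹ * g ∈ T)
  symm := ⟨fun _ _ h => ⟨h.1.symm, h.2.symm⟩⟩
  loopless := ⟨fun _ h => h.1 rfl⟩

/-- word-hyperbolic: finite generating set and thin geodesic triangles in the Cayley graph -/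
def IsHyperbolic (G : Type) [Group G] : Prop :=
  ∃ T : Set G, T.Finite ∧ Subgroup.closure T = ⊤ ∧ ∃ δ : ℕ,
    ∀ (x y z : G) (p : (cayley T).Walk x y) (q : (cayley T).Walk y z) (r : (cayley T).Walk z x),
      p.length = (cayley T).dist x y → q.length = (cayley T).dist y z →
      r.length = (cayley T).dist z x →
      ∀ u ∈ p.support, ∃ v, (v ∈ q.support ∨ v ∈ r.support) ∧ (cayley T).dist u v ≤ δ

/-- WP-H: a linear isoperimetric inequality implies hyperbolicity. -/
def HypStmt : Prop :=
  ∀ (S G : Type) [Fintype S] [Group G] (φ : S → G) (A : List S → ℕ → Prop) (L C : ℕ),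
    (∀ s, φ s * φ s = 1) → Subgroup.closure (Set.range φ) = ⊤ → AreaAx A L →
    (∀ w, (w.map φ).prod = 1 ↔ ∃ n, A w n) →
    (∀ w n, IsArea A w n → n ≤ C * w.length) → IsHyperbolic G

/-- WP-R: group algebras of residually finite groups are directly finite. -/
def RFStmt : Prop :=
  ∀ (K G : Type) [Field K] [Group G],
    (∀ g : G, g ≠ 1 → ∃ (F : Type) (_ : Group F) (_ : Finite F) (f : G →* F), f g ≠ 1) →
    ∀ a b : MonoidAlgebra K G, a * b = 1 → b * a = 1

end Vale.Agent.P194
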