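import Vale.Agent.P194.Defs

namespace Vale.Agent.P194

variable {Λ Λ' S : Type} {col : Λ → S} {Val : List Λ → Prop}

theorem Der.cast {w w' : List Λ} {U U' : Multiset Λ} {n n' : ℕ} {M M' : Multiset (Sym2 Λ)}
    (h : Der col Val w U n M) (h1 : w = w') (h2 : U = U') (h3 : n = n') (h4 : M = M') :
    Der col Val w' U' n' M' := by
  subst h1 h2 h3 h4; exact h

theorem Der.rot' {w : List Λ} {U : Multiset Λ} {n : ℕ} {M : Multiset (Sym2 Λ)}
    (h : Der col Val w U n M) : ∀ a b, w = a ++ b → Der col Val (b ++ a) U n M := by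
  induction h with
  | nil =>
    intro a b e
    obtain ⟨rfl, rfl⟩ := List.append_eq_nil_iff.1 e.symm
    exact Der.nil
  | mat a0 b0 c0 x y U1 n1 M1 U2 n2 M2 hc h1 h2 ih1 ih2 =>
    intro a b e
    have k1 : ∀ t, a0 = a ++ t → b = t ++ x :: (b0 ++ y :: c0) →
        Der col Val (b ++ a) (U1 + U2) (n1 + n2) (s(x, y) ::ₘ (M1 + M2)) := by
      intro t e1 e2
      have := ih2 a (t ++ c0) (by simp [e1])
      refine (Der.mat t b0 (c0 ++ a) x y U1 n1 M1 U2 n2 M2 hc h1 (by simpa using this)).cast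
        (by simp [e2]) rfl rfl rfl
    rcases List.append_eq_append_iff.1 e with ⟨t, e1, e2⟩ | ⟨t, e1, e2⟩
    · rcases t with _ | ⟨z, t1⟩
      · exact k1 [] (by simpa using e1.symm) (by simpa using e2.symm)
      · simp only [List.cons_append, List.cons.injEq] at e2
        obtain ⟨rfl, e2⟩ := e2
        have k2 : ∀ t2, b0 = t1 ++ t2 → b = t2 ++ y :: c0 →
            Der col Val (b ++ a) (U1 + U2) (n1 + n2) (s(x, y) ::ₘ (M1 + M2)) := by
          intro t2 e3 e4
          have p1 := ih2 a0 c0 rfl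
          have p2 := ih1 t1 t2 e3
          refine (Der.mat t2 (c0 ++ a0) t1 y x U2 n2 M2 U1 n1 M1 hc.symm p1 p2).cast
            (by simp [e4, e1]) (add_comm _ _) (add_comm _ _) (by rw [Sym2.eq_swap, add_comm])
        rcases List.append_eq_append_iff.1 e2 with ⟨t2, e3, e4⟩ | ⟨t2, e3, e4⟩
        · rcases t2 with _ | ⟨z, t3⟩
          · exact k2 [] (by simpa using e3.symm) (by simpa using e4.symm)
          · simp only [List.cons_append, List.cons.injEq] at e4
            obtain ⟨rfl, e4⟩ := e4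
            have := ih2 (a0 ++ t3) b (by simp [e4])
            refine (Der.mat (b ++ a0) b0 t3 x y U1 n1 M1 U2 n2 M2 hc h1
              (by simpa using this)).cast (by simp [e1, e3]) rfl rfl rfl
        · exact k2 t2 e3 e4
    · exact k1 t e1 e2
  | opn a0 r c0 x y U n M hc hv h ih =>
    intro a b e
    have k1 : ∀ t, a0 = a ++ t → b = t ++ x :: c0 →
        Der col Val (b ++ a) ((↑(y :: r) : Multiset Λ) + U) (n + 1) (s(x, y) ::ₘ M) := by
      intro t e1 e2
      have := ih a (t ++ (r ++ c0)) (by simp [e1])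
      refine (Der.opn t r (c0 ++ a) x y U n M hc hv (by simpa using this)).cast
        (by simp [e2]) rfl rfl rfl
    rcases List.append_eq_append_iff.1 e with ⟨t, e1, e2⟩ | ⟨t, e1, e2⟩
    · rcases t with _ | ⟨z, t1⟩
      · exact k1 [] (by simpa using e1.symm) (by simpa using e2.symm)
      · simp only [List.cons_append, List.cons.injEq] at e2
        obtain ⟨rfl, e2⟩ := e2
        have := ih (a0 ++ (r ++ t1)) b (by simp [e2])
        refine (Der.opn (b ++ a0) r t1 x y U n M hc hv (by simpa using this)).cast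
          (by simp [e1]) rfl rfl rfl
    · exact k1 t e1 e2

theorem Der.rot {a b : List Λ} {U : Multiset Λ} {n : ℕ} {M : Multiset (Sym2 Λ)}
    (h : Der col Val (a ++ b) U n M) : Der col Val (b ++ a) U n M := h.rot' a b rfl

theorem Der.cat {b w : List Λ} {U1 U2 : Multiset Λ} {n1 n2 : ℕ} {M1 M2 : Multiset (Sym2 Λ)}
    (h : Der col Val b U1 n1 M1) (h' : Der col Val w U2 n2 M2) :
    Der col Val (b ++ w) (U1 + U2) (n1 + n2) (M1 + M2) := by
  induction h with
  | nil => simpa using h'
  | mat a0 b0 c0 x y U1 n1 M1 U3 n3 M3 hc h1 h2 ih1 ih2 =>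
    refine (Der.mat a0 b0 (c0 ++ w) x y U1 n1 M1 _ _ _ hc h1 (by simpa using ih2)).cast
      (by simp) (by rw [add_assoc]) (by rw [add_assoc]) (by simp [add_assoc])
  | opn a0 r c0 x y U n M hc hv h ih =>
    refine (Der.opn a0 r (c0 ++ w) x y _ _ _ hc hv (by simpa using ih)).cast
      (by simp) (by rw [add_assoc]) (by omega) (by simp)

theorem Der.ins {a b c : List Λ} {U1 U2 : Multiset Λ} {n1 n2 : ℕ} {M1 M2 : Multiset (Sym2 Λ)}
    (h : Der col Val b U1 n1 M1) (h' : Der col Val (a ++ c) U2 n2 M2) :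
    Der col Val (a ++ (b ++ c)) (U1 + U2) (n1 + n2) (M1 + M2) := by
  have := h.cat h'.rot
  rw [← List.append_assoc] at this
  exact this.rot

/-- the two ways to process the first letter -/
def Fst (col : Λ → S) (Val : List Λ → Prop) (x : Λ) (c : List Λ) (U : Multiset Λ) (n : ℕ)
    (M : Multiset (Sym2 Λ)) : Prop :=
  (∃ b y c' U1 n1 M1 U2 n2 M2, c = b ++ y :: c' ∧ col x = col y ∧ Der col Val b U1 n1 M1 ∧
    Der col Val c' U2 n2 M2 ∧ U = U1 + U2 ∧ n = n1 + n2 ∧ M = s(x, y) ::ₘ (M1 + M2)) ∨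
  (∃ y r U' n' M', col x = col y ∧ Val (y :: r) ∧ Der col Val (r ++ c) U' n' M' ∧
    U = (↑(y :: r) : Multiset Λ) + U' ∧ n = n' + 1 ∧ M = s(x, y) ::ₘ M')

theorem Der.first' (hrot : ∀ a b, Val (a ++ b) → Val (b ++ a))
    {w : List Λ} {U : Multiset Λ} {n : ℕ} {M : Multiset (Sym2 Λ)}
    (h : Der col Val w U n M) : ∀ z c, w = z :: c → Fst col Val z c U n M := by
  induction h with
  | nil => intro z c e; simp at e
  | mat a0 b0 c0 x y U1 n1 M1 U2 n2 M2 hc h1 h2 ih1 ih2 =>
    intro z c e
    rcases a0 with _ | ⟨z', a1⟩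
    · simp only [List.nil_append, List.cons.injEq] at e
      obtain ⟨rfl, rfl⟩ := e
      exact Or.inl ⟨b0, y, c0, U1, n1, M1, U2, n2, M2, rfl, hc, h1, h2, rfl, rfl, rfl⟩
    · simp only [List.cons_append, List.cons.injEq] at e
      obtain ⟨rfl, rfl⟩ := e
      rcases ih2 z' (a1 ++ c0) rfl with ⟨b, y', c', U3, n3, M3, U4, n4, M4, e, hc', h3, h4, rfl,
        rfl, rfl⟩ | ⟨y', r, U', n', M', hc', hv, h3, rfl, rfl, rfl⟩
      · have k1 : ∀ t, c0 = t ++ y' :: c' → b = a1 ++ t → Fst col Val z' (a1 ++ x :: (b0 ++ y :: c0))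
            (U1 + (U3 + U4)) (n1 + (n3 + n4)) (s(x, y) ::ₘ (M1 + s(z', y') ::ₘ (M3 + M4))) := by
          intro t e1 e2
          subst e2
          refine Or.inl ⟨a1 ++ x :: (b0 ++ y :: t), y', c', _, _, _, U4, n4, M4, by simp [e1], hc',
            Der.mat a1 b0 t x y U1 n1 M1 U3 n3 M3 hc h1 h3, h4, by rw [add_assoc], by omega, ?_⟩
          simp only [← Multiset.singleton_add]; abel
        rcases List.append_eq_append_iff.1 e with ⟨t, e1, e2⟩ | ⟨t, e1, e2⟩
        · exact k1 t e2 e1
        · rcases t with _ | ⟨y'', t1⟩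
          · exact k1 [] (by simpa using e2.symm) (by simpa using e1.symm)
          · simp only [List.cons_append, List.cons.injEq] at e2
            obtain ⟨rfl, rfl⟩ := e2
            refine Or.inl ⟨b, y', t1 ++ x :: (b0 ++ y :: c0), U3, n3, M3, _, _, _, by simp [e1], hc',
              h3, Der.mat t1 b0 c0 x y U1 n1 M1 U4 n4 M4 hc h1 h4, by abel, by omega, ?_⟩
            simp only [← Multiset.singleton_add]; abel
      · refine Or.inr ⟨y', r, _, _, _, hc', hv, (Der.mat (r ++ a1) b0 c0 x y U1 n1 M1 U' n' M' hc h1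
          (by simpa using h3)).cast (by simp) rfl rfl rfl, by abel, by omega, ?_⟩
        simp only [← Multiset.singleton_add]; abel
  | opn a0 r c0 x y U n M hc hv h ih =>
    intro z c e
    rcases a0 with _ | ⟨z', a1⟩
    · simp only [List.nil_append, List.cons.injEq] at e
      obtain ⟨rfl, rfl⟩ := e
      exact Or.inr ⟨y, r, U, n, M, hc, hv, h, rfl, rfl, rfl⟩
    · simp only [List.cons_append, List.cons.injEq] at e
      obtain ⟨rfl, rfl⟩ := e
      rcases ih z' (a1 ++ (r ++ c0)) rfl with ⟨b, y', c', U3, n3, M3, U4, n4, M4, e, hc', h3, h4,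
        rfl, rfl, rfl⟩ | ⟨y', r', U', n', M', hc', hv', h3, rfl, rfl, rfl⟩
      · have k1 : ∀ t, c0 = t ++ y' :: c' → b = a1 ++ (r ++ t) → Fst col Val z' (a1 ++ x :: c0)
            ((↑(y :: r) : Multiset Λ) + (U3 + U4)) (n3 + n4 + 1)
            (s(x, y) ::ₘ s(z', y') ::ₘ (M3 + M4)) := by
          intro t e1 e2
          subst e2
          refine Or.inl ⟨a1 ++ x :: t, y', c', _, _, _, U4, n4, M4, by simp [e1], hc',
            Der.opn a1 r t x y U3 n3 M3 hc hv h3, h4, by rw [add_assoc], by omega, ?_⟩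
          simp only [← Multiset.singleton_add]; abel
        have k2 : ∀ t, r ++ c0 = t ++ y' :: c' → b = a1 ++ t → Fst col Val z' (a1 ++ x :: c0)
            ((↑(y :: r) : Multiset Λ) + (U3 + U4)) (n3 + n4 + 1)
            (s(x, y) ::ₘ s(z', y') ::ₘ (M3 + M4)) := by
          intro t e1 e2
          rcases List.append_eq_append_iff.1 e1 with ⟨t2, e3, e4⟩ | ⟨t2, e3, e4⟩
          · exact k1 t2 e4 (by rw [e2, e3])
          · rcases t2 with _ | ⟨y'', r2⟩
            · exact k1 [] (by simpa using e4.symm) (by simpa [e2] using e3.symm)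
            · simp only [List.cons_append, List.cons.injEq] at e4
              obtain ⟨rfl, rfl⟩ := e4
              subst e2 e3
              refine Or.inr ⟨y', r2 ++ y :: t, U3 + U4, n3 + n4, s(y, x) ::ₘ (M3 + M4), hc',
                by simpa using hrot (y :: t) (y' :: r2) (by simpa using hv),
                (Der.mat r2 (t ++ a1) c0 y x U3 n3 M3 U4 n4 M4 hc.symm h3.rot h4).cast (by simp)
                  rfl rfl rfl, ?_, rfl, ?_⟩
              · congr 1
                simp only [← Multiset.cons_coe, ← Multiset.coe_add, ← Multiset.singleton_add]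
                abel
              · rw [Sym2.eq_swap (a := y)]
                simp only [← Multiset.singleton_add]; abel
        rcases List.append_eq_append_iff.1 e with ⟨t, e1, e2⟩ | ⟨t, e1, e2⟩
        · exact k2 t e2 e1
        · rcases t with _ | ⟨y'', t1⟩
          · exact k2 [] (by simpa using e2.symm) (by simpa using e1.symm)
          · simp only [List.cons_append, List.cons.injEq] at e2
            obtain ⟨rfl, rfl⟩ := e2
            refine Or.inl ⟨b, y', t1 ++ x :: c0, U3, n3, M3, _, _, _, by simp [e1], hc',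
              h3, Der.opn t1 r c0 x y U4 n4 M4 hc hv h4, by abel, by omega, ?_⟩
            simp only [← Multiset.singleton_add]; abel
      · refine Or.inr ⟨y', r', _, _, _, hc', hv', (Der.opn (r' ++ a1) r c0 x y U' n' M' hc hv
          (by simpa using h3)).cast (by simp) rfl rfl rfl, by abel, by omega, ?_⟩
        simp only [← Multiset.singleton_add]; abel

theorem Der.first (hrot : ∀ a b, Val (a ++ b) → Val (b ++ a))
    {z : Λ} {c : List Λ} {U : Multiset Λ} {n : ℕ} {M : Multiset (Sym2 Λ)}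
    (h : Der col Val (z :: c) U n M) : Fst col Val z c U n M := h.first' hrot z c rfl

theorem Der.of_nil' {w : List Λ} {U : Multiset Λ} {n : ℕ} {M : Multiset (Sym2 Λ)}
    (h : Der col Val w U n M) : w = [] → U = 0 ∧ n = 0 ∧ M = 0 := by
  cases h with
  | nil => simp
  | mat => simp
  | opn => simp

theorem Der.mem_of_M {w : List Λ} {U : Multiset Λ} {n : ℕ} {M : Multiset (Sym2 Λ)}
    (h : Der col Val w U n M) : ∀ p q, s(p, q) ∈ M → (p ∈ w ∨ p ∈ U) ∧ col p = col q := by
  induction h with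
  | nil => simp
  | mat a0 b0 c0 x y U1 n1 M1 U2 n2 M2 hc h1 h2 ih1 ih2 =>
    intro p q hm
    simp only [Multiset.mem_cons, Multiset.mem_add, Sym2.eq_iff] at hm
    rcases hm with (⟨rfl, rfl⟩ | ⟨rfl, rfl⟩) | hm | hm
    · simp [hc]
    · simp [hc]
    · obtain ⟨k | k, k'⟩ := ih1 p q hm <;> simp [k, k']
    · obtain ⟨k | k, k'⟩ := ih2 p q hm
      · rcases List.mem_append.1 k with k | k <;> simp [k, k']
      · simp [k, k']
  | opn a0 r c0 x y U n M hc hv h ih =>
    intro p q hm
    simp only [Multiset.mem_cons, Sym2.eq_iff] at hm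
    rcases hm with (⟨rfl, rfl⟩ | ⟨rfl, rfl⟩) | hm
    · simp [hc]
    · simp [hc]
    · obtain ⟨k | k, k'⟩ := ih p q hm
      · simp only [List.mem_append] at k
        rcases k with k | k | k <;> simp [k, k']
      · simp [k, k']

theorem Der.exists_M {w : List Λ} {U : Multiset Λ} {n : ℕ} {M : Multiset (Sym2 Λ)}
    (h : Der col Val w U n M) : ∀ p, (p ∈ w ∨ p ∈ U) → ∃ q, s(p, q) ∈ M := by
  induction h with
  | nil => simp
  | mat a0 b0 c0 x y U1 n1 M1 U2 n2 M2 hc h1 h2 ih1 ih2 =>
    intro p hp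
    simp only [List.mem_append, List.mem_cons, Multiset.mem_add] at hp
    have k1 : (p ∈ b0 ∨ p ∈ U1) → ∃ q, s(p, q) ∈ s(x, y) ::ₘ (M1 + M2) := fun k => by
      obtain ⟨q, hq⟩ := ih1 p k; exact ⟨q, by simp [hq]⟩
    have k2 : (p ∈ a0 ++ c0 ∨ p ∈ U2) → ∃ q, s(p, q) ∈ s(x, y) ::ₘ (M1 + M2) := fun k => by
      obtain ⟨q, hq⟩ := ih2 p k; exact ⟨q, by simp [hq]⟩
    rcases hp with (k | rfl | k | rfl | k) | k | k
    · exact k2 (by simp [k])
    · exact ⟨y, by simp⟩
    · exact k1 (by simp [k])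
    · exact ⟨x, by simp⟩
    · exact k2 (by simp [k])
    · exact k1 (by simp [k])
    · exact k2 (by simp [k])
  | opn a0 r c0 x y U n M hc hv h ih =>
    intro p hp
    simp only [List.mem_append, List.mem_cons, Multiset.mem_add, Multiset.mem_coe] at hp
    have k2 : (p ∈ a0 ++ (r ++ c0) ∨ p ∈ U) → ∃ q, s(p, q) ∈ s(x, y) ::ₘ M := fun k => by
      obtain ⟨q, hq⟩ := ih p k; exact ⟨q, by simp [hq]⟩
    rcases hp with (k | rfl | k) | (rfl | k) | k
    · exact k2 (by simp [k])
    · exact ⟨y, by simp⟩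
    · exact k2 (by simp [k])
    · exact ⟨x, by simp⟩
    · exact k2 (by simp [k])
    · exact k2 (by simp [k])

theorem Der.map {col' : Λ' → S} {Val' : List Λ' → Prop} (f : Λ → Λ')
    {w : List Λ} {U : Multiset Λ} {n : ℕ} {M : Multiset (Sym2 Λ)}
    (h : Der col Val w U n M) : (∀ p, (p ∈ w ∨ p ∈ U) → col' (f p) = col p) →
    (∀ l, Val l → (∀ p ∈ l, p ∈ U) → Val' (l.map f)) →
    Der col' Val' (w.map f) (U.map f) n (M.map (Sym2.map f)) := by
  induction h with
  | nil => intro _ _; simpa using Der.nil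
  | mat a0 b0 c0 x y U1 n1 M1 U2 n2 M2 hc h1 h2 ih1 ih2 =>
    intro k1 k2
    have p1 := ih1 (fun p hp => k1 p (by rcases hp with k | k <;> simp [k]))
      (fun l hl hm => k2 l hl (fun p hp => by simp [hm p hp]))
    have p2 := ih2 (fun p hp => k1 p (by
        rcases hp with k | k
        · rcases List.mem_append.1 k with k | k <;> simp [k]
        · simp [k]))
      (fun l hl hm => k2 l hl (fun p hp => by simp [hm p hp]))
    refine (Der.mat (a0.map f) (b0.map f) (c0.map f) (f x) (f y) _ _ _ _ _ _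
      (by rw [k1 x (by simp), k1 y (by simp), hc]) p1 (by simpa using p2)).cast
      (by simp) (by simp) rfl (by simp)
  | opn a0 r c0 x y U n M hc hv h ih =>
    intro k1 k2
    have p := ih (fun p hp => k1 p (by
        rcases hp with k | k
        · simp only [List.mem_append] at k
          rcases k with k | k | k <;> simp [k]
        · simp [k]))
      (fun l hl hm => k2 l hl (fun p hp => by simp [hm p hp]))
    have hv' := k2 _ hv (fun p hp => by
      rw [Multiset.mem_add]; left; exact Multiset.mem_coe.2 hp)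
    refine (Der.opn (a0.map f) (r.map f) (c0.map f) (f x) (f y) _ _ _
      (by rw [k1 x (by simp), k1 y (by simp), hc]) (by simpa using hv') (by simpa using p)).cast
      (by simp) (by rw [Multiset.map_add, Multiset.map_coe]; rfl) rfl (by simp)

theorem Der.face_mem {w : List Λ} {U : Multiset Λ} {n : ℕ} {M : Multiset (Sym2 Λ)}
    (h : Der col Val w U n M) (L : ℕ) (hL : ∀ l, Val l → l.length ≤ L) :
    Multiset.card U ≤ L * n := by
  induction h with
  | nil => simp
  | mat a0 b0 c0 x y U1 n1 M1 U2 n2 M2 hc h1 h2 ih1 ih2 =>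
    rw [Multiset.card_add, mul_add]; omega
  | opn a0 r c0 x y U n M hc hv h ih =>
    have := hL _ hv
    rw [Multiset.card_add, Multiset.coe_card, mul_add]; omega

theorem Der.face_ge {w : List Λ} {U : Multiset Λ} {n : ℕ} {M : Multiset (Sym2 Λ)}
    (h : Der col Val w U n M) (L : ℕ) (hL : ∀ l, Val l → l ≠ [] → L ≤ l.length) :
    L * n ≤ Multiset.card U := by
  induction h with
  | nil => simp
  | mat a0 b0 c0 x y U1 n1 M1 U2 n2 M2 hc h1 h2 ih1 ih2 =>
    rw [Multiset.card_add, mul_add]; omega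
  | opn a0 r c0 x y U n M hc hv h ih =>
    have := hL _ hv (by simp)
    rw [Multiset.card_add, Multiset.coe_card, mul_add]; omega

end Vale.Agent.P194
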