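import Vale.Agent.P194.Design1

/-! The design from the projective plane of order nine: counting and conclusion. -/

namespace Vale.Agent.P194

open Finset

namespace F

theorem line_line (l l' : Fin 91) : ((line l ∩ line l').card : ZMod 3) = 1 := by
  have : (line l ∩ line l').card = (DD.filter fun a => a + (l - l') ∈ DD).card :=
    card_nbij' (· - l) (· + l) (fun s hs => by simpa [line] using hs)
      (fun s hs => by simpa [line, add_sub_assoc] using hs) (fun s _ => by simp) fun s _ => by simp
  rw [this, diff]
  split_ifs <;> decide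

theorem two_pts {s t : Fin 91} (h : s ≠ t) :
    (univ.filter fun l => s - l ∈ DD ∧ t - l ∈ DD).card = 1 := by
  have : (univ.filter fun l => s - l ∈ DD ∧ t - l ∈ DD).card =
      (DD.filter fun a => a + (t - s) ∈ DD).card :=
    card_nbij' (s - ·) (s - ·) (fun l hs => by simpa using hs)
      (fun l hs => by
        have : t - (s - l) = l + (t - s) := by abel
        simpa [this] using hs) (fun s _ => by simp) fun s _ => by simp
  rw [this, diff, if_neg (sub_ne_zero.2 h.symm)]

theorem cnt {N : ℕ} (T : Finset (VV N)) (x : Fin 3 × Bool) (P : Finset (Fin 91) → Prop)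
    [DecidablePred P] (hT : ∀ v, v ∈ T ↔ P ((md N).L v) ∧ (md N).τ v = x) :
    T.card = (∑ l : Fin 91, if P (line l) then N + dd x l else 0) +
      ∑ b : Bool, if P (blk b) ∧ cls b = x then 1 else 0 := by
  rw [show T = univ.filter fun v => P ((md N).L v) ∧ (md N).τ v = x by ext; simp [hT],
    card_filter, Fintype.sum_sum_type, Fintype.sum_sigma, Fintype.sum_prod_type, sum_comm]
  refine congrArg₂ (· + ·) (sum_congr rfl fun l _ => ?_) rfl
  change ∑ y, ∑ _i : Fin (N + dd y l), (if P (line l) ∧ y = x then 1 else 0) = _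
  simp only [sum_const, card_univ, Fintype.card_fin, smul_eq_mul, mul_ite, mul_one, mul_zero,
    ite_and]
  split_ifs <;> simp

theorem cnt1 {N : ℕ} (T : Finset (VV N)) (x : Fin 3 × Bool) (s : Fin 91)
    (hT : ∀ v, v ∈ T ↔ s ∈ (md N).L v ∧ (md N).τ v = x) : T.card = 10 * N + ex s x := by
  rw [cnt T x (s ∈ ·) hT, ex, ← add_assoc, ← (ten s).1, card_filter, sum_mul, ← sum_add_distrib]
  refine congrArg₂ (· + ·) (sum_congr rfl fun l _ => ?_) ?_
  · skip
    simp only [line, mem_filter, mem_univ, true_and]
    split_ifs <;> simp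
  · simp [blk]

end F

open F

theorem design : DesignStmt := by
  classical
  intro N _ hN
  refine ⟨VV N, inferInstance, md N, Sum.inl ⟨((2, true), 0), ⟨0, by omega⟩⟩, ?_,
    fun s v _ => ?_, fun s t x h => ?_, fun v => ?_, ?_, fun π h G _ φ h2 hc h0 => ?_⟩
  · have := fun s => exists_invol (Sum.inr true : VV N)
      (fun x => univ.filter fun v => s ∈ (md N).L v ∧ (md N).τ v = x) (fun v => s ∈ (md N).L v)
      (md N).τ (fun x v => by simp) (act s) (fun x => (ex_spec s x).2.2)
      (fun x => by rw [cnt1 _ (act s x) s (by simp), cnt1 _ x s (by simp), (ex_spec s x).1])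
      fun x _ => by
        rw [cnt1 _ x s (by simp), Nat.even_iff]
        have := (ex_spec s x).2.1
        omega
    choose π hπ using this
    exact ⟨π, hπ⟩
  · rw [cnt1 _ ((md N).τ v) s (by simp)]
    omega
  · rw [cnt _ x (fun L => s ∈ L ∧ t ∈ L) (by simp [and_assoc])]
    refine add_le_add (b := N + 16) (d := 1) ?_ ?_
    · rw [← one_mul (N + 16), ← two_pts h, card_filter, sum_mul]
      refine sum_le_sum fun l _ => ?_
      have := dd_le x l
      simp only [line, mem_filter, mem_univ, true_and]
      split_ifs <;> omega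
    · rw [Fintype.sum_bool]
      split_ifs with a b
      · exact absurd (a.2.trans b.2.symm) (by decide)
      all_goals omega
  · rcases v with p | b
    · exact (ten _).2.ge
    · exact blk_card b
  · rw [Fintype.card_sum, Fintype.card_sigma]
    simp only [Fintype.card_fin, sum_add_distrib, dd_sum, sum_const, card_univ, Fintype.card_prod,
      Fintype.card_bool, smul_eq_mul]
    omega
  haveI : Fact (Nat.Prime 3) := ⟨Nat.prime_three⟩
  have bl : ∀ b l, ((blk b ∩ line l).card : ZMod 3) = -1 := fun b l => by
    rw [← ZMod.natCast_mod, blk_line]; rfl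
  refine not_df (K := ZMod 3) h h2 hc h0 Prod.fst 0 (fun _ _ => rfl) sg sg_spec
    (Sum.elim (fun p => sg p.1.1) fun _ => 1) (Sum.inr true) (Sum.inr false) rfl
    (show (1 : Fin 3) ≠ 0 by decide) (show (2 : Fin 3) ≠ 0 by decide)
    (show (2 : Fin 3) ≠ 1 by decide) one_ne_zero ?_
  rintro (p | _ | _) (q | _ | _) ha hb
  · simp [md, line_line]
  · simp [md, inter_comm (line _), bl, show sg (cls false) = -1 from rfl]
  · exact absurd rfl hb
  · exact absurd ha (show (1 : Fin 3) ≠ 0 by decide)
  · exact absurd ha (show (1 : Fin 3) ≠ 0 by decide)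
  · exact absurd ha (show (1 : Fin 3) ≠ 0 by decide)
  · simp [md, bl, show sg (cls true) = -1 from rfl]
  · simp [md, blk_blk]
  · exact absurd rfl hb

end Vale.Agent.P194
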