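import Vale.Agent.P194.Switch

/-! Abstract parts of the design: matchings, potentials and the group algebra computation. -/

namespace Vale.Agent.P194

open Finset

namespace F

variable {S X V G : Type}

theorem exists_invol (v0 : V) (C : X → Finset V) (p : V → Prop) (τ : V → X)
    (hC : ∀ x v, v ∈ C x ↔ p v ∧ τ v = x) (a : X → X) (ha : ∀ x, a (a x) = x)
    (hc : ∀ x, (C (a x)).card = (C x).card) (he : ∀ x, a x = x → Even (C x).card) :
    ∃ f : V → V, ∀ v, f (f v) = v ∧ (¬p v → f v = v) ∧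
      (p v → f v ≠ v ∧ τ (f v) = a (τ v)) := by
  classical
  let idx : X → V → ℕ := fun x v => if h : v ∈ C x then ((C x).equivFin ⟨v, h⟩ : ℕ) else 0
  let g : X → ℕ → V := fun x i => if h : i < (C x).card then ((C x).equivFin.symm ⟨i, h⟩).1 else v0
  have h1 : ∀ x v, v ∈ C x → idx x v < (C x).card ∧ g x (idx x v) = v := fun x v h => by
    simp [idx, g, h]
  have h2 : ∀ x i, i < (C x).card → g x i ∈ C x ∧ idx x (g x i) = i := fun x i h => by
    simp [idx, g, h]
  let f : V → V := fun v => if p v then g (a (τ v)) ((C (τ v)).card - 1 - idx (τ v) v) else v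
  refine ⟨f, fun v => ?_⟩
  by_cases hp : p v
  · obtain ⟨b1, b2⟩ := h1 (τ v) v ((hC _ _).2 ⟨hp, rfl⟩)
    have e : f v = g (a (τ v)) ((C (τ v)).card - 1 - idx (τ v) v) := if_pos hp
    obtain ⟨b3, b4⟩ := h2 (a (τ v)) ((C (τ v)).card - 1 - idx (τ v) v) (by rw [hc]; omega)
    rw [← e] at b3 b4
    obtain ⟨b5, b6⟩ := (hC _ _).1 b3
    refine ⟨?_, fun h => absurd hp h, fun _ => ⟨fun k => ?_, b6⟩⟩
    · refine (if_pos b5).trans ?_
      rw [b6, ha, b4, hc, show (C (τ v)).card - 1 - ((C (τ v)).card - 1 - idx (τ v) v) =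
        idx (τ v) v by omega, b2]
    · rw [k] at b6 b4
      obtain ⟨r, hr⟩ := he _ b6.symm
      rw [← b6] at b4
      omega
  · have e : f v = v := if_neg hp
    exact ⟨by rw [e, e], fun _ => e, fun h => absurd h hp⟩

theorem mem_L {m : Model S X V} {π : S → V → V} (h : Valid m π) (s : S) (v : V) :
    s ∈ m.L (π s v) ↔ s ∈ m.L v := by
  constructor
  · intro k
    by_contra k'
    rw [(h s v).2.1 k'] at k
    exact k' k
  · intro k
    by_contra k'
    exact ((h s v).2.2 k).1 (((h s _).2.1 k').symm.trans (h s v).1)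

theorem exists_pot [Group G] {π : S → V → V} (hi : ∀ s v, π s (π s v) = v) {φ : S → G}
    (h2 : ∀ s, φ s * φ s = 1)
    (hc : ∀ v w, Walk π v w → run π v w = v → (w.map φ).prod = 1) :
    ∃ pot : V → G, ∀ s v, π s v ≠ v → pot (π s v) = pot v * φ s := by
  let P : V → V → G → Prop := fun x y g => ∃ w, Walk π x w ∧ run π x w = y ∧ (w.map φ).prod = g
  have tr : ∀ {x y z g h}, P x y g → P y z h → P x z (g * h) := by
    rintro x _ _ _ _ ⟨a, a1, rfl, rfl⟩ ⟨b, b1, rfl, rfl⟩
    exact ⟨a ++ b, (C.walk_append _ _ _ _).2 ⟨a1, b1⟩, C.run_append _ _ _ _, by simp⟩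
  have st : ∀ s v, π s v ≠ v → P v (π s v) (φ s) := fun s v h => ⟨[s], ⟨h, trivial⟩, rfl, by simp⟩
  have sy : ∀ {x y g}, P x y g → P y x g⁻¹ := by
    rintro x _ _ ⟨a, a1, rfl, rfl⟩
    induction a generalizing x with
    | nil => exact ⟨[], trivial, rfl, by simp⟩
    | cons s a ih =>
      have := tr (ih a1.2) (st s (π s x) (by rw [hi]; exact a1.1.symm))
      rw [hi] at this
      rw [List.map_cons, List.prod_cons, mul_inv_rev, inv_eq_of_mul_eq_one_right (h2 s)]
      exact this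
  let r : Setoid V := ⟨fun x y => ∃ g, P x y g, fun x => ⟨1, [], trivial, rfl, by simp⟩,
    fun ⟨_, h⟩ => ⟨_, sy h⟩, fun ⟨_, h⟩ ⟨_, h'⟩ => ⟨_, tr h h'⟩⟩
  choose pot hp using fun v => (Quotient.mk_out (s := r) v : ∃ g, P _ v g)
  refine ⟨pot, fun s v h => ?_⟩
  have e : Quotient.mk r (π s v) = Quotient.mk r v := Quotient.sound ⟨_, sy (st s v h)⟩
  have k := hp (π s v)
  rw [e] at k
  obtain ⟨w, w1, w2, w3⟩ := tr (tr (hp v) (st s v h)) (sy k)
  rw [hc _ w w1 w2] at w3
  exact (mul_inv_eq_one.1 w3.symm).symm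

theorem pot_run [Group G] {π : S → V → V} {φ : S → G} {pot : V → G}
    (hp : ∀ s v, π s v ≠ v → pot (π s v) = pot v * φ s) (w : List S) : ∀ v, Walk π v w →
    pot (run π v w) = pot v * (w.map φ).prod := by
  induction w with
  | nil => intro v _; simp [run]
  | cons s w ih => intro v h; rw [C.run_cons, ih _ h.2, hp _ _ h.1]; simp [mul_assoc]

open MonoidAlgebra in
theorem kill {K : Type} [Field K] [Fintype S] [DecidableEq S] [Group G] {m : Model S X V}
    {π : S → V → V} (h : Valid m π) {φ : S → G} {pot : V → G}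
    (hp : ∀ s v, π s v ≠ v → pot (π s v) = pot v * φ s) (sg : X → K) (A B : Finset V)
    (hA : ∀ s, ∀ v ∈ A, π s v ∈ A) (hB : ∀ s, ∀ v ∈ B, π s v ∈ B)
    (hs : ∀ s, ∀ a ∈ A, ∀ b ∈ B,
      sg (m.τ a) * sg (m.τ b) + sg (m.act s (m.τ a)) * sg (m.act s (m.τ b)) = 0) :
    ∑ a ∈ A, ∑ b ∈ B, single (pot a * (pot b)⁻¹)
      (sg (m.τ a) * sg (m.τ b) * ((m.L a ∩ m.L b).card : K)) = 0 := by
  have e : ∀ a b, single (pot a * (pot b)⁻¹)
      (sg (m.τ a) * sg (m.τ b) * ((m.L a ∩ m.L b).card : K)) =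
      ∑ s, if s ∈ m.L a ∩ m.L b then single (pot a * (pot b)⁻¹) (sg (m.τ a) * sg (m.τ b))
        else 0 := fun a b => by
    rw [← sum_filter, filter_mem_eq_inter, univ_inter, sum_const, mul_comm, ← nsmul_eq_mul,
      smul_single]
  simp only [e]
  rw [← sum_product', sum_comm]
  refine sum_eq_zero fun s _ => sum_involution (fun p _ => (π s p.1, π s p.2)) (fun p hq => ?_)
    (fun p _ k k' => ?_) (fun p hq => mem_product.2 ⟨hA _ _ (mem_product.1 hq).1,
      hB _ _ (mem_product.1 hq).2⟩) fun p _ => by simp [(h s _).1]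
  · simp only [mem_inter, mem_L h]
    split_ifs with k
    · obtain ⟨a1, a2⟩ := (h s p.1).2.2 k.1
      obtain ⟨b1, b2⟩ := (h s p.2).2.2 k.2
      rw [hp _ _ a1, hp _ _ b1, a2, b2, mul_inv_rev, mul_assoc, mul_inv_cancel_left, ← single_add,
        hs s _ (mem_product.1 hq).1 _ (mem_product.1 hq).2, single_zero]
    · simp
  · refine k (if_neg fun k2 => ?_)
    exact ((h s p.1).2.2 (mem_inter.1 k2).1).1 (congrArg Prod.fst k')

open MonoidAlgebra in
theorem not_df {K T : Type} [Field K] [Fintype S] [DecidableEq S] [Fintype V] [Group G]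
    {m : Model S X V} {π : S → V → V} (h : Valid m π) {φ : S → G} (h2 : ∀ s, φ s * φ s = 1)
    (hc : ∀ v w, Walk π v w → run π v w = v → (w.map φ).prod = 1) {c0 : V}
    (h0 : ∀ w, Walk π c0 w → (w.map φ).prod = 1 → run π c0 w = c0) (ty : X → T) (t0 : T)
    (hty : ∀ s x, ty (m.act s x) = ty x) (sg : X → K)
    (hs : ∀ s x y, ty x = t0 → ty y ≠ t0 → sg x * sg y + sg (m.act s x) * sg (m.act s y) = 0)
    (k : V → K) (w w' : V) (hw : ty (m.τ w) = t0) (hw' : ty (m.τ w') ≠ t0)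
    (c1 : ty (m.τ c0) ≠ t0) (c2 : ty (m.τ c0) ≠ ty (m.τ w')) (c3 : k c0 ≠ 0)
    (hk : ∀ a b, ty (m.τ a) = t0 → ty (m.τ b) ≠ t0 → (a = w ∧ b = w' →
      k a * k b = sg (m.τ a) * sg (m.τ b) * ((m.L a ∩ m.L b).card : K) + 1) ∧ (¬(a = w ∧ b = w') →
      k a * k b = sg (m.τ a) * sg (m.τ b) * ((m.L a ∩ m.L b).card : K))) :
    ∃ a b : MonoidAlgebra K G, a * b = 1 ∧ b * a ≠ 1 := by
  classical
  obtain ⟨pot, hp⟩ := exists_pot (fun s v => (h s v).1) h2 hc
  have t1 : ∀ s v, ty (m.τ (π s v)) = ty (m.τ v) := fun s v => by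
    by_cases k : s ∈ m.L v
    · rw [((h s v).2.2 k).2, hty]
    · rw [(h s v).2.1 k]
  have t2 : ∀ w v, ty (m.τ (run π v w)) = ty (m.τ v) := fun w => by
    induction w with
    | nil => exact fun _ => rfl
    | cons s w ih => exact fun v => (ih _).trans (t1 s v)
  let A := univ.filter fun a => ty (m.τ a) = t0
  let α : MonoidAlgebra K G := ∑ a ∈ A, single (pot a) (k a)
  let β : Finset V → MonoidAlgebra K G := fun B => ∑ b ∈ B, single (pot b)⁻¹ (k b)
  have key : ∀ B : Finset V, (∀ s, ∀ v ∈ B, π s v ∈ B) → (∀ b ∈ B, ty (m.τ b) ≠ t0) →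
      α * β B = if w' ∈ B then single (pot w * (pot w')⁻¹) 1 else 0 := fun B b1 b2 => by
    have := kill h hp sg A B (fun s v hv => by simpa [A, t1] using hv) b1 fun s a ha b hb =>
      hs s _ _ (mem_filter.1 ha).2 (b2 b hb)
    have e : ∑ a ∈ A, ∑ b ∈ B, (if a = w then if b = w' then
        single (pot w * (pot w')⁻¹) (1 : K) else 0 else 0) =
        if w' ∈ B then single (pot w * (pot w')⁻¹) 1 else 0 := by
      simp only [sum_ite_irrel, sum_const_zero, sum_ite_eq']
      exact if_pos (by simpa [A] using hw)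
    rw [sum_mul_sum, ← e, ← zero_add (∑ a ∈ A, ∑ b ∈ B, ite _ _ _)]
    nth_rewrite 1 [← this]
    rw [← sum_add_distrib]
    refine sum_congr rfl fun a ha => ?_
    rw [← sum_add_distrib]
    refine sum_congr rfl fun b hb => ?_
    obtain ⟨k1, k2⟩ := hk a b (mem_filter.1 ha).2 (b2 b hb)
    rw [single_mul_single, ← ite_and]
    split_ifs with k3
    · rw [k1 k3, single_add, k3.1, k3.2]
    · rw [k2 k3, add_zero]
  have e1 := key (univ.filter fun b => ty (m.τ b) = ty (m.τ w'))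
    (fun s v hv => by simpa [t1] using hv) fun b hb => (mem_filter.1 hb).2 ▸ hw'
  rw [if_pos (by simp)] at e1
  let Cc := univ.filter fun c => ∃ u, Walk π c0 u ∧ run π c0 u = c
  have e2 := key Cc (fun s v hv => by
    obtain ⟨-, u, u1, rfl⟩ := mem_filter.1 hv
    by_cases k : π s (run π c0 u) = run π c0 u
    · rwa [k]
    · exact mem_filter.2 ⟨mem_univ _, u ++ [s], (C.walk_append _ _ _ _).2 ⟨u1, k, trivial⟩,
        C.run_append _ _ _ _⟩) fun b hb => by
    obtain ⟨-, u, -, rfl⟩ := mem_filter.1 hb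
    rwa [t2]
  rw [if_neg fun hb => by
    obtain ⟨-, u, -, u2⟩ := mem_filter.1 hb
    exact c2 (by rw [← u2, t2])] at e2
  refine ⟨single (pot w)⁻¹ 1 * α, β (univ.filter fun b => ty (m.τ b) = ty (m.τ w')) *
    single (pot w') 1, ?_, fun e => c3 ?_⟩
  · rw [mul_assoc, ← mul_assoc α, e1, single_mul_single, single_mul_single]
    simp [one_def]
  · have : β Cc = 0 := by
      rw [← one_mul (β Cc), ← e, mul_assoc, mul_assoc _ α, e2, mul_zero, mul_zero]
    have e3 := congrArg (fun x : MonoidAlgebra K G => x.coeff (pot c0)⁻¹) this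
    simp only [β, coeff_sum, coeff_single, Finsupp.finsetSum_apply, coeff_zero,
      Finsupp.zero_apply] at e3
    rw [sum_eq_single_of_mem c0 (mem_filter.2 ⟨mem_univ _, [], trivial, rfl⟩) fun b hb b1 => ?_,
      Finsupp.single_eq_same] at e3
    · exact e3
    · obtain ⟨-, u, u1, rfl⟩ := mem_filter.1 hb
      refine Finsupp.single_eq_of_ne fun k => b1 (h0 u u1 ?_)
      rw [pot_run hp u _ u1, inv_inj] at k
      exact left_eq_mul.1 k

end F

end Vale.Agent.P194
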