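import Vale.Agent.P194.Design0

/-! The design from the projective plane of order nine. -/

namespace Vale.Agent.P194

open Finset

namespace F

/-- The difference set. -/
def DD : Finset (Fin 91) := {0, 1, 3, 9, 27, 49, 56, 61, 77, 81}

def line (l : Fin 91) : Finset (Fin 91) := univ.filter fun s => s - l ∈ DD

/-- Unions of two Baer subplanes. -/
def baer (b : Bool) (s : Fin 91) : Bool :=
  if b then s.val % 7 == 1 || s.val % 7 == 3 else s.val % 7 == 2 || s.val % 7 == 4

def blk (b : Bool) : Finset (Fin 91) := univ.filter fun s => baer b s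

def cls (b : Bool) : Fin 3 × Bool := if b then (0, false) else (1, false)

def dd (x : Fin 3 × Bool) (l : Fin 91) : ℕ :=
  if x = cls true then (if baer true l then 16 else 1)
  else if x = cls false then (if baer false l then 16 else 1) else 4

def act (s : Fin 91) (x : Fin 3 × Bool) : Fin 3 × Bool :=
  (x.1, if x.1 = 0 then (baer true s == x.2) else (baer true s != x.2))

abbrev VV (N : ℕ) : Type := (Σ p : (Fin 3 × Bool) × Fin 91, Fin (N + dd p.1 p.2)) ⊕ Bool

def md (N : ℕ) : Model (Fin 91) (Fin 3 × Bool) (VV N) where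
  L := Sum.elim (fun p => line p.1.2) blk
  τ := Sum.elim (fun p => p.1.1) cls
  act := act

def ex (s : Fin 91) (x : Fin 3 × Bool) : ℕ :=
  (∑ l : Fin 91, if s - l ∈ DD then dd x l else 0) +
    ∑ b : Bool, if baer b s = true ∧ cls b = x then 1 else 0

theorem ex_spec : ∀ s x, ex s (act s x) = ex s x ∧ ex s x % 2 = 0 ∧ act s (act s x) = x := by
  decide +kernel

theorem ten : ∀ s : Fin 91, (univ.filter fun l => s - l ∈ DD).card = 10 ∧ (line s).card = 10 := by
  decide +kernel

theorem diff : ∀ e : Fin 91, (DD.filter fun a => a + e ∈ DD).card = if e = 0 then 10 else 1 := by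
  decide +kernel

theorem blk_line : ∀ b l, (blk b ∩ line l).card % 3 = 2 := by decide +kernel

theorem dd_le : ∀ x l, dd x l ≤ 16 := by decide +kernel

theorem dd_sum : ∑ p : (Fin 3 × Bool) × Fin 91, dd p.1 p.2 = 2418 := by decide +kernel

def sg (x : Fin 3 × Bool) : ZMod 3 := if x.2 then 1 else -1

theorem sg_spec : ∀ s x y, x.1 = 0 → y.1 ≠ 0 →
    sg x * sg y + sg (act s x) * sg (act s y) = 0 := by decide +kernel

theorem blk_card : ∀ b, 10 ≤ (blk b).card := by decide +kernel

theorem blk_blk : (blk true ∩ blk false).card = 0 := by decide +kernel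

end F

end Vale.Agent.P194
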