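import Vale.Agent.P194.Switch

/-! Random edge-coloured graphs of large girth have logarithmic diameter. -/

namespace Vale.Agent.P194

open Finset

namespace D

variable {S X V : Type}

open Classical in
/-- a set together with its neighbours -/
noncomputable def nb [Fintype S] (π : S → V → V) (U : Finset V) : Finset V :=
  U ∪ univ.biUnion fun s => U.image (π s)

/-- small sets expand -/
def Exp [Fintype S] (π : S → V → V) (N : ℕ) : Prop :=
  ∀ U : Finset V, U.Nonempty → 1000 * U.card ≤ N → 2 * U.card < (nb π U).card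

theorem walk_rev {π : S → V → V} (h : ∀ s v, π s (π s v) = v) (w : List S) : ∀ v,
    Walk π v w → Walk π (run π v w) w.reverse := by
  induction w with
  | nil => intro v k; exact k
  | cons s w ih =>
    intro v k
    rw [List.reverse_cons, C.walk_append, C.run_cons, C.run_rev h]
    exact ⟨ih _ k.2, by rw [h]; exact k.1.symm, trivial⟩

theorem mem_ball [Fintype S] (π : S → V → V) (u : V) (r : ℕ) : ∀ x ∈ C.ball π u r,
    ∃ w, Walk π u w ∧ run π u w = x ∧ w.length ≤ r := by
  induction r with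
  | zero => intro x hx; exact ⟨[], trivial, (mem_singleton.1 hx).symm, le_rfl⟩
  | succ r ih =>
    intro x hx
    rw [C.ball] at hx
    simp only [mem_union, mem_biUnion, mem_univ, mem_image, true_and] at hx
    rcases hx with hx | ⟨s, y, hy, rfl⟩
    · obtain ⟨w, k1, k2, k3⟩ := ih x hx
      exact ⟨w, k1, k2, by omega⟩
    · obtain ⟨w, k1, rfl, k3⟩ := ih y hy
      by_cases c : π s (run π u w) = run π u w
      · exact ⟨w, k1, c.symm, by omega⟩
      · exact ⟨w ++ [s], (C.walk_append _ _ _ _).2 ⟨k1, c, trivial⟩, C.run_append _ _ _ _,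
          by simp; omega⟩

theorem ball_big [Fintype S] {π : S → V → V} {N : ℕ} (h : Exp π N) (u : V) (r : ℕ) :
    N < 1000 * (C.ball π u r).card ∨ 2 ^ r ≤ (C.ball π u r).card := by
  induction r with
  | zero => simp [C.ball]
  | succ r ih =>
    have e : C.ball π u (r + 1) = nb π (C.ball π u r) := rfl
    have h1 : (C.ball π u r).card ≤ (C.ball π u (r + 1)).card := by
      classical
      rw [e, nb]; exact card_le_card subset_union_left
    by_cases c : N < 1000 * (C.ball π u r).card
    · left; omega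
    · have h2 := ih.resolve_left c
      have := h _ (card_pos.1 (lt_of_lt_of_le (Nat.two_pow_pos r) h2)) (not_lt.1 c)
      rw [← e] at this
      right; rw [pow_succ]; omega

theorem diam_of_exp [Fintype S] [Fintype V] {π : S → V → V} {N r : ℕ}
    (hi : ∀ s v, π s (π s v) = v) (h : Exp π N) (hV : Fintype.card V ≤ 600 * N) (hr : N ≤ 2 ^ r) :
    Diam π (10 ^ 6 * (2 * r + 1)) := by
  classical
  intro v w₀ hw₀
  have ex : ∃ n, ∃ w, Walk π v w ∧ run π v w = run π v w₀ ∧ w.length = n := ⟨_, w₀, hw₀, rfl, rfl⟩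
  obtain ⟨w, w1, w2, w3⟩ := Nat.find_spec ex
  refine ⟨w, w1, w2, ?_⟩
  by_contra c
  have mn : ∀ w', Walk π v w' → run π v w' = run π v w → w.length ≤ w'.length := fun w' k1 k2 =>
    w3 ▸ Nat.find_min' ex ⟨w', k1, k2.trans w2, rfl⟩
  let x : ℕ → V := fun i => run π v (w.take (i * (2 * r + 1)))
  have dj : ∀ i j, i < j → j < 10 ^ 6 → Disjoint (C.ball π (x i) r) (C.ball π (x j) r) := by
    intro i j hij hj
    refine disjoint_left.2 fun y y1 y2 => ?_
    obtain ⟨a, a1, a2, a3⟩ := mem_ball π _ r y y1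
    obtain ⟨b, b1, b2, b3⟩ := mem_ball π _ r y y2
    have t1 := (C.walk_append π _ _ v).1 ((List.take_append_drop (i * (2 * r + 1)) w).symm ▸ w1)
    have t2 := (C.walk_append π _ _ v).1 ((List.take_append_drop (j * (2 * r + 1)) w).symm ▸ w1)
    have e : run π (run π (x i) a) b.reverse = x j := by rw [a2, ← b2, C.run_rev hi]
    have := mn (w.take (i * (2 * r + 1)) ++ (a ++ (b.reverse ++ w.drop (j * (2 * r + 1)))))
      (by
        rw [C.walk_append, C.walk_append, C.walk_append]
        refine ⟨t1.1, a1, ?_, ?_⟩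
        · change Walk π (run π (x i) a) _
          rw [a2, ← b2]; exact walk_rev hi _ _ b1
        · change Walk π (run π (run π (x i) a) _) _
          rw [e]; exact t2.2)
      (by
        rw [C.run_append, C.run_append, C.run_append]
        change run π (run π (run π (x i) a) _) _ = _
        rw [e, ← C.run_append, List.take_append_drop])
    have l1 : (i + 1) * (2 * r + 1) ≤ j * (2 * r + 1) := Nat.mul_le_mul_right _ hij
    have l2 : j * (2 * r + 1) ≤ 10 ^ 6 * (2 * r + 1) := Nat.mul_le_mul_right _ hj.le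
    rw [Nat.succ_mul] at l1
    simp only [List.length_append, List.length_take, List.length_reverse, List.length_drop] at this
    omega
  have h1 := card_biUnion (s := range (10 ^ 6)) (t := fun i => C.ball π (x i) r)
    fun i hi' j hj' ne => (lt_or_gt_of_ne ne).elim (fun k => dj i j k (mem_range.1 hj'))
      fun k => (dj j i k (mem_range.1 hi')).symm
  have h2 := card_le_univ ((range (10 ^ 6)).biUnion fun i => C.ball π (x i) r)
  have h3 := card_nsmul_le_sum (range (10 ^ 6)) (fun i => 1000 * (C.ball π (x i) r).card) (N + 1)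
    fun i _ => by
      have := ball_big h (x i) r
      have := Nat.two_pow_pos r
      omega
  rw [← mul_sum, ← h1, card_range, smul_eq_mul] at h3
  omega

theorem choose_le (n k : ℕ) : (n.choose k : ℝ) * k ^ k ≤ (3 * n) ^ k := by
  have h1 : (n.choose k : ℝ) ≤ n ^ k / k.factorial := Nat.choose_le_pow_div k n
  have h2 := Real.pow_div_factorial_le_exp (k : ℝ) k.cast_nonneg k
  have h3 : Real.exp k ≤ 3 ^ k := by
    rw [← Real.exp_one_pow]
    exact pow_le_pow_left₀ (Real.exp_pos _).le (Real.exp_one_lt_d9.le.trans (by norm_num)) _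
  calc (n.choose k : ℝ) * k ^ k ≤ n ^ k / k.factorial * k ^ k := by gcongr
    _ = (k ^ k / k.factorial) * n ^ k := by ring
    _ ≤ 3 ^ k * n ^ k := by gcongr; exact h2.trans h3
    _ = _ := by rw [mul_pow]

theorem count_le {M N k : ℕ} (hM : M ≤ 600 * N) (hk : 1000 * k ≤ N) (k0 : 0 < k) :
    (M.choose k * (M.choose k * (10 * k * (2 * k)).choose (5 * k)) : ℝ) ≤
      (1 / 5) ^ k * (9 * N) ^ (5 * k) := by
  have k1 : (0 : ℝ) < k := by exact_mod_cast k0
  have h1 : (M.choose k : ℝ) ≤ (1800 * N / k) ^ k := by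
    rw [div_pow, le_div_iff₀ (by positivity)]
    refine (choose_le M k).trans (pow_le_pow_left₀ (by positivity) ?_ _)
    have : (M : ℝ) ≤ 600 * N := by exact_mod_cast hM
    linarith
  have h2 : ((10 * k * (2 * k)).choose (5 * k) : ℝ) ≤ (12 * k) ^ (5 * k) := by
    have := choose_le (10 * k * (2 * k)) (5 * k)
    rw [← le_div_iff₀ (by positivity), ← div_pow] at this
    refine this.trans_eq (congrArg (· ^ (5 * k)) ?_)
    push_cast
    field_simp
    norm_num
  have h3 : (1000 * k : ℝ) ≤ N := by exact_mod_cast hk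
  calc _ ≤ (1800 * N / k : ℝ) ^ k * ((1800 * N / k) ^ k * (12 * k) ^ (5 * k)) := by gcongr
    _ = ((1800 * N / k) * ((1800 * N / k) * (12 * k) ^ 5)) ^ k := by
      rw [pow_mul, ← mul_pow, ← mul_pow]
    _ ≤ (1 / 5 * (9 * N) ^ 5) ^ k := by
      refine pow_le_pow_left₀ (by positivity) ?_ _
      have e : (1800 * N / k : ℝ) * ((1800 * N / k) * (12 * k) ^ 5) =
        1800 ^ 2 * 12 ^ 5 / 1000 ^ 3 * N ^ 2 * (1000 * k) ^ 3 := by field_simp
      have h4 : ((1000 * k) ^ 3 : ℝ) ≤ N ^ 3 := by gcongr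
      rw [e]
      calc _ ≤ (1800 ^ 2 * 12 ^ 5 / 1000 ^ 3 * N ^ 2 * N ^ 3 : ℝ) := by gcongr
        _ ≤ _ := by nlinarith [pow_nonneg (N.cast_nonneg (α := ℝ)) 5]
    _ = _ := by rw [mul_pow, ← pow_mul]

theorem exists_sep [Fintype S] [Fintype V] [DecidableEq V] [DecidableEq S] {m : Model S X V}
    {π : S → V → V} (hπ : Valid m π) (L' : V → Finset S) (h1 : ∀ v, L' v ⊆ m.L v)
    (h2 : ∀ v, (L' v).card = 10) (U Z : Finset V) (hZ : nb π U ⊆ Z) :
    ∃ F ∈ powersetCard (5 * U.card) (U.biUnion fun u => {u} ×ˢ (L' u ×ˢ Z)), Sep F ∧ Has π F := by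
  let n : V → ℕ := fun v => Fintype.equivFin V v
  have ninj : ∀ u v, n u = n v → u = v := fun u v e => (Fintype.equivFin V).injective (Fin.ext e)
  let E : Finset (V × S × V) := U.biUnion fun u => (L' u).image fun s => (u, s, π s u)
  have hE : ∀ e, e ∈ E ↔ e.1 ∈ U ∧ e.2.1 ∈ L' e.1 ∧ π e.2.1 e.1 = e.2.2 := fun e => by
    simp only [E, mem_biUnion, mem_image]
    exact ⟨by rintro ⟨u, hu, s, hs, rfl⟩; exact ⟨hu, hs, rfl⟩,
      fun k => ⟨_, k.1, _, k.2.1, by rw [k.2.2]⟩⟩
  have cE : E.card = 10 * U.card := by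
    rw [card_biUnion, sum_congr rfl fun u _ => (card_image_of_injective _
      fun s t e => congrArg (·.2.1) e).trans (h2 u), sum_const, smul_eq_mul, mul_comm]
    intro u _ v _ ne
    refine disjoint_left.2 fun e a b => ne ?_
    obtain ⟨s, -, rfl⟩ := mem_image.1 a
    obtain ⟨t, -, k⟩ := mem_image.1 b
    exact (congrArg (·.1) k).symm
  have ne : ∀ e ∈ E, e.1 ≠ e.2.2 := fun e he => by
    obtain ⟨-, k2, k3⟩ := (hE e).1 he
    exact k3 ▸ ((hπ _ _).2.2 (h1 _ k2)).1.symm
  have key : ∀ p : V × S × V → Prop, ∀ [DecidablePred p], 5 * U.card ≤ (E.filter p).card →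
      (∀ u s v, p (u, s, v) → ¬ p (v, s, u)) →
      ∃ F ∈ powersetCard (5 * U.card) (U.biUnion fun u => {u} ×ˢ (L' u ×ˢ Z)), Sep F ∧ Has π F := by
    intro p _ hp hp'
    obtain ⟨F, f1, f2⟩ := exists_subset_card_eq hp
    have f3 : ∀ e ∈ F, e ∈ E := fun e he => (mem_filter.1 (f1 he)).1
    refine ⟨F, mem_powersetCard.2 ⟨fun e he => ?_, f2⟩, ⟨fun e he => ne e (f3 e he), ?_⟩,
      fun e he => ((hE e).1 (f3 e he)).2.2⟩
    · obtain ⟨k1, k2, k3⟩ := (hE e).1 (f3 e he)
      simp only [mem_biUnion, mem_product, mem_singleton]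
      refine ⟨_, k1, rfl, k2, hZ ?_⟩
      simp only [nb, mem_union, mem_biUnion, mem_univ, mem_image, true_and]
      exact Or.inr ⟨_, _, k1, k3⟩
    · rintro ⟨u, s, v⟩ he ⟨u', s', v'⟩ he' k (rfl : s = s')
      have a1 : π s u = v := ((hE _).1 (f3 _ he)).2.2
      have a2 : π s u' = v' := ((hE _).1 (f3 _ he')).2.2
      refine ⟨?_, ?_⟩
      · rintro (rfl : u = u')
        exact k (by rw [← a1, ← a2])
      · rintro (rfl : u = v')
        have a3 : v = u' := by rw [← a1, ← a2, (hπ _ _).1]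
        subst a3
        exact hp' _ _ _ (mem_filter.1 (f1 he)).2 (mem_filter.1 (f1 he')).2
  have sp := card_filter_add_card_filter_not (s := E) fun e => n e.1 < n e.2.2
  by_cases c : 5 * U.card ≤ (E.filter fun e => n e.1 < n e.2.2).card
  · exact key _ c fun u s v k => not_lt.2 k.le
  · refine key (fun e => ¬ n e.1 < n e.2.2 ∧ e.1 ≠ e.2.2) ?_ fun u s v k k' =>
      k.2 (ninj _ _ (le_antisymm (not_lt.1 k'.1) (not_lt.1 k.1)))
    rw [filter_congr (q := fun e => ¬ n e.1 < n e.2.2) fun e he => and_iff_left (ne e he)]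
    omega

end D

open D in
theorem diam_gg (h : ProbStmt) : DiamStmt := by
  intro S X V _ _ m g N r hB hL hV hN hr
  classical
  choose L' h1 h2 using fun v => exists_subset_card_eq (hL v)
  let T : Finset V → Finset V → Finset (V × S × V) := fun U W =>
    U.biUnion fun u => {u} ×ˢ (L' u ×ˢ (U ∪ W))
  let bad : ℕ → Finset (S → V → V) := fun k => (powersetCard k univ).biUnion fun U =>
    (powersetCard k univ).biUnion fun W => ((powersetCard (5 * k) (T U W)).filter Sep).biUnion
      fun F => (GG m g).filter fun π => Has π F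
  have sub : (GG m g).filter (fun π => ¬ Diam π (10 ^ 6 * (2 * r + 1))) ⊆
      (Icc 1 (N / 1000)).biUnion bad := fun π hπ => by
    obtain ⟨k1, k2⟩ := mem_filter.1 hπ
    have hv : Valid m π := (mem_filter.1 k1).2.1
    have k3 : ¬ Exp π N := fun e => k2 (diam_of_exp (fun s v => (hv s v).1) e hV hr)
    simp only [Exp, not_forall, not_lt] at k3
    obtain ⟨U, u1, u2, u3⟩ := k3
    have u4 : U ⊆ nb π U := by rw [nb]; convert subset_union_left
    obtain ⟨W, w1, w2⟩ := exists_superset_card_eq (s := nb π U \ U) (n := U.card)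
      (by rw [card_sdiff_of_subset u4]; omega) (card_le_univ U)
    obtain ⟨F, f1, f2, f3⟩ := exists_sep hv L' h1 h2 U (U ∪ W) fun x hx => by
      by_cases c : x ∈ U
      · exact mem_union_left _ c
      · exact mem_union_right _ (w1 (mem_sdiff.2 ⟨hx, c⟩))
    simp only [bad, mem_biUnion, mem_filter]
    exact ⟨U.card, mem_Icc.2 ⟨u1.card_pos, by omega⟩, U, mem_powersetCard.2 ⟨subset_univ _, rfl⟩,
      W, mem_powersetCard.2 ⟨subset_univ _, w2⟩, F, ⟨f1, f2⟩, k1, f3⟩
  have N0 : (0 : ℝ) < N := by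
    have : 0 < (Fintype.card S + 1) ^ (g + 2) := by positivity
    exact_mod_cast (by omega : 0 < N)
  have bu : ∀ {α : Type} (s : Finset α) (t : α → Finset (S → V → V)) (c : ℝ) (a : ℕ),
      s.card ≤ a → 0 ≤ c → (∀ x ∈ s, ((t x).card : ℝ) ≤ c) → ((s.biUnion t).card : ℝ) ≤ a * c := by
    intro α s t c a ha hc ht
    have e : ((s.biUnion t).card : ℝ) ≤ ∑ x ∈ s, ((t x).card : ℝ) := by
      exact_mod_cast card_biUnion_le
    refine e.trans ((sum_le_card_nsmul _ _ _ ht).trans ?_)
    rw [nsmul_eq_mul]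
    gcongr
  have hb : ∀ k ∈ Icc 1 (N / 1000), ((bad k).card : ℝ) ≤ (1 / 5) ^ k * (GG m g).card := by
    intro k hk
    obtain ⟨k1, k2⟩ := mem_Icc.1 hk
    have c0 : (0 : ℝ) ≤ (GG m g).card / (9 * N) ^ (5 * k) := by positivity
    refine (bu _ _ ((Fintype.card V).choose k * ((10 * k * (2 * k)).choose (5 * k) *
      ((GG m g).card / (9 * N) ^ (5 * k)))) ((Fintype.card V).choose k) (by simp) (by positivity)
      fun U hU => bu _ _ _ _ (by simp) (by positivity) fun W hW => bu _ _ _ _ ?_ c0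
        fun F hF => ?_).trans ?_
    · refine (card_filter_le _ _).trans ?_
      rw [card_powersetCard]
      refine Nat.choose_le_choose _ ((card_biUnion_le_card_mul _ _ (10 * (2 * k)) fun u _ => ?_).trans
        (le_of_eq (by rw [(mem_powersetCard.1 hU).2]; ring)))
      have := card_union_le U W
      rw [(mem_powersetCard.1 hU).2, (mem_powersetCard.1 hW).2] at this
      rw [card_product, card_product, card_singleton, h2, one_mul]
      omega
    · obtain ⟨f1, f2⟩ := mem_filter.1 hF
      have f3 := (mem_powersetCard.1 f1).2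
      have := h S X V m g (10 * N) (9 * N) F hB f2 (by omega)
      rw [le_div_iff₀ (by positivity), ← f3]
      exact_mod_cast this
    · have := mul_le_mul_of_nonneg_right (count_le hV (by omega) k1) c0
      simp only [mul_assoc] at this ⊢
      rwa [mul_div_cancel₀ _ (by positivity)] at this
  have geo : ∀ K : ℕ, ∑ k ∈ Icc 1 K, (1 / 5 : ℝ) ^ k ≤ 1 / 4 - 1 / 4 * (1 / 5) ^ K := fun K => by
    induction K with
    | zero => simp
    | succ K ih => rw [sum_Icc_succ_top (by omega), pow_succ]; linarith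
  have e1 : (((Icc 1 (N / 1000)).biUnion bad).card : ℝ) ≤
      ∑ k ∈ Icc 1 (N / 1000), ((bad k).card : ℝ) := by exact_mod_cast card_biUnion_le
  have e2 := e1.trans (sum_le_sum hb)
  rw [← sum_mul] at e2
  have e3 := geo (N / 1000)
  have e4 : (0 : ℝ) ≤ (1 / 5) ^ (N / 1000) := by positivity
  have e5 : (4 * ((Icc 1 (N / 1000)).biUnion bad).card : ℝ) ≤ (GG m g).card := by
    nlinarith [(GG m g).card.cast_nonneg (α := ℝ)]
  have e6 := card_le_card sub
  have e7 : 4 * ((Icc 1 (N / 1000)).biUnion bad).card ≤ (GG m g).card := by exact_mod_cast e5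
  convert (Nat.mul_le_mul_left 4 e6).trans e7

end Vale.Agent.P194
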