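import Vale.Agent.P194.Defs

/-! Switchings of edge-coloured graphs of large girth. -/

namespace Vale.Agent.P194

open Finset

namespace C

variable {S X V : Type}

theorem run_cons (π : S → V → V) (v : V) (s : S) (w : List S) :
    run π v (s :: w) = run π (π s v) w := rfl

theorem run_append (π : S → V → V) (v : V) (a b : List S) :
    run π v (a ++ b) = run π (run π v a) b := List.foldl_append

theorem walk_append (π : S → V → V) (a b : List S) : ∀ v,
    Walk π v (a ++ b) ↔ Walk π v a ∧ Walk π (run π v a) b := by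
  induction a with
  | nil => intro v; simp [Walk, run]
  | cons s a ih => intro v; simp only [List.cons_append, Walk, ih, run_cons, and_assoc]

theorem run_rev {π : S → V → V} (h : ∀ s v, π s (π s v) = v) (w : List S) : ∀ v,
    run π (run π v w) w.reverse = v := by
  induction w with
  | nil => intro v; rfl
  | cons s w ih => intro v; rw [List.reverse_cons, run_append, run_cons π v, ih]; exact h s v

/-- The two graphs agree along the word. -/
def Agree (π π' : S → V → V) : V → List S → Prop
  | _, [] => True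
  | x, t :: w => π t x = π' t x ∧ Agree π π' (π t x) w

theorem Agree.run {π π' : S → V → V} {w : List S} : ∀ {x}, Agree π π' x w →
    run π' x w = run π x w ∧ (Walk π' x w → Walk π x w) := by
  induction w with
  | nil => intro x _; exact ⟨rfl, id⟩
  | cons t w ih =>
    intro x h
    simp only [run_cons, Walk, ← h.1]
    exact ⟨(ih h.2).1, fun k => ⟨k.1, (ih h.2).2 k.2⟩⟩

theorem agree_or (π π' : S → V → V) (w : List S) : ∀ x, Agree π π' x w ∨
    ∃ a t b, w = a ++ t :: b ∧ Agree π π' x a ∧ π t (run π x a) ≠ π' t (run π x a) := by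
  induction w with
  | nil => intro x; exact Or.inl trivial
  | cons t w ih =>
    intro x
    by_cases h : π t x = π' t x
    · rcases ih (π t x) with k | ⟨a, t', b, rfl, k1, k2⟩
      · exact Or.inl ⟨h, k⟩
      · exact Or.inr ⟨t :: a, t', b, rfl, ⟨h, k1⟩, k2⟩
    · exact Or.inr ⟨[], t, w, rfl, trivial, h⟩

theorem key_abs {π π' : S → V → V} {s : S} {O : V → V → Prop} {j : ℕ}
    (hi : ∀ v, π s (π s v) = v) (hg : Girth π j)
    (f1 : ∀ y t, π t y ≠ π' t y → t = s ∧ O y (π' s y))
    (f2 : ∀ x y w, O x y ∨ O y x → w.length ≤ j → run π x w ≠ y)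
    (f3 : ∀ y z y' z', O y z → O y' z' → π s y' ≠ y' ∧ (O z y' ∨ y' = z ∨ y' = π s z))
    {x : V} {w : List S} (hr : Red w) (hw : Walk π' x w) (hc : run π' x w = x)
    (hl : w.length ≤ j + 1) : Agree π π' x w := by
  rcases agree_or π π' w x with h | ⟨a, t, b, rfl, h1, h2⟩
  · exact h
  exfalso
  obtain ⟨rfl, o1⟩ := f1 _ _ h2
  rw [run_append, run_cons, h1.run.1] at hc
  rw [walk_append, h1.run.1] at hw
  simp only [List.length_append, List.length_cons] at hl
  rcases agree_or π π' b (π' t (run π x a)) with k | ⟨c, t', d, rfl, k1, k2⟩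
  · refine f2 _ _ (b ++ a) (Or.inr o1) (by rw [List.length_append]; omega) ?_
    rw [run_append, ← k.run.1, hc]
  obtain ⟨rfl, o2⟩ := f1 _ _ k2
  simp only [List.length_append, List.length_cons] at hl
  have w1 := k1.run.2 ((walk_append _ _ _ _).1 hw.2.2).1
  have r1 : Red (t' :: (c ++ [t'])) := by
    have : a ++ t' :: (c ++ t' :: d) = a ++ ((t' :: (c ++ [t'])) ++ d) := by simp
    rw [Red, this] at hr
    exact hr.right_of_append.left_of_append
  have r2 : Red (c ++ [t']) := List.IsChain.tail r1
  obtain ⟨n1, o | o | o⟩ := f3 _ _ _ _ o1 o2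
  · exact f2 _ _ c (Or.inl o) (by omega) rfl
  · have c0 : c ≠ [] := by
      rintro rfl
      simp [Red] at r1
    have := hg _ c c0 (List.IsChain.left_of_append r2) w1 o
    omega
  · have := hg _ (c ++ [t']) (by simp) r2 ((walk_append _ _ _ _).2 ⟨w1, n1, trivial⟩) (by
      rw [run_append, o]; exact hi _)
    simp only [List.length_append, List.length_cons, List.length_nil] at this
    omega

open Classical in
/-- The ball of radius `r`. -/
noncomputable def ball [Fintype S] (π : S → V → V) (u : V) : ℕ → Finset V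
  | 0 => {u}
  | r + 1 => ball π u r ∪ univ.biUnion fun s => (ball π u r).image (π s)

theorem card_ball [Fintype S] (π : S → V → V) (u : V) (r : ℕ) :
    (ball π u r).card ≤ (Fintype.card S + 1) ^ r := by
  classical
  induction r with
  | zero => simp [ball]
  | succ r ih =>
    rw [ball]
    refine (card_union_le _ _).trans ?_
    have := card_biUnion_le_card_mul univ (fun s => (ball π u r).image (π s)) _
      fun s _ => card_image_le.trans ih
    rw [card_univ] at this
    have e : (Fintype.card S + 1) ^ (r + 1) =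
      (Fintype.card S + 1) ^ r + Fintype.card S * (Fintype.card S + 1) ^ r := by ring
    rw [e]
    convert Nat.add_le_add ih this

theorem run_mem_ball [Fintype S] (π : S → V → V) (u : V) (w : List S) : ∀ x r n,
    x ∈ ball π u r → r + w.length ≤ n → run π x w ∈ ball π u n := by
  induction w with
  | nil =>
    intro x r n hx hn
    induction n, (show r ≤ n from hn) using Nat.le_induction with
    | base => exact hx
    | succ n h ih => rw [ball]; simp [ih h]
  | cons s w ih =>
    intro x r n hx hn
    refine ih _ (r + 1) n ?_ (by simp at hn; omega)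
    rw [ball]
    simp only [mem_union, mem_biUnion, mem_univ, mem_image, true_and]
    exact Or.inr ⟨s, x, hx, rfl⟩

open Classical in
/-- The switching. -/
noncomputable def sw (π : S → V → V) (s : S) (u u' : V) : S → V → V := fun t x =>
  if t = s then Equiv.swap u u' (π s (Equiv.swap u u' x)) else π t x

theorem sw_sw (π : S → V → V) (s : S) (u u' : V) : sw (sw π s u u') s u u' = π := by
  funext t x
  by_cases h : t = s <;> simp [sw, h]

theorem sw_valid {m : Model S X V} {π : S → V → V} (h : Valid m π) {s : S} {u u' : V}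
    (hu : s ∈ m.L u) (hu' : s ∈ m.L u') (hτ : m.τ u' = m.τ u) : Valid m (sw π s u u') := by
  classical
  intro t x
  by_cases ht : t = s
  · subst ht
    have e1 : ∀ y, m.τ (Equiv.swap u u' y) = m.τ y := fun y => by
      rw [Equiv.swap_apply_def]; split_ifs <;> simp [*]
    have e2 : ∀ y, t ∈ m.L (Equiv.swap u u' y) ↔ t ∈ m.L y := fun y => by
      rw [Equiv.swap_apply_def]; split_ifs <;> simp [*]
    simp only [sw, if_true]
    refine ⟨?_, fun k => ?_, fun k => ⟨fun k' => ?_, ?_⟩⟩
    · convert Equiv.swap_apply_self u u' x using 2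
      convert (h t _).1 using 2
      convert Equiv.swap_apply_self u u' _
    · convert Equiv.swap_apply_self u u' x using 2
      convert (h t _).2.1 ((e2 x).not.2 k)
    · refine ((h t _).2.2 ((e2 x).2 k)).1 ?_
      convert congrArg (Equiv.swap u u') k'
      convert (Equiv.swap_apply_self u u' _).symm
    · have := ((h t _).2.2 ((e2 x).2 k)).2
      rw [e1 x, ← e1] at this
      convert this
  · simpa only [sw, if_neg ht] using h t x

theorem sw_eq {π : S → V → V} {s : S} {u u' : V} (hi : ∀ v, π s (π s v) = v) {y : V}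
    (h1 : y ≠ u) (h2 : y ≠ u') (h3 : y ≠ π s u) (h4 : y ≠ π s u') : sw π s u u' s y = π s y := by
  classical
  simp only [sw, if_true]
  rw [Equiv.swap_apply_of_ne_of_ne h1 h2, Equiv.swap_apply_of_ne_of_ne]
  · exact fun k => h3 (by rw [← k, hi])
  · exact fun k => h4 (by rw [← k, hi])

theorem sw_vals {π : S → V → V} {s : S} {u u' : V} (hi : ∀ v, π s (π s v) = v)
    (h1 : π s u ≠ u) (h2 : π s u' ≠ u') (h3 : π s u ≠ u') :
    sw π s u u' s u = π s u' ∧ sw π s u u' s u' = π s u ∧ sw π s u u' s (π s u) = u' ∧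
      sw π s u u' s (π s u') = u := by
  classical
  have h4 : π s u' ≠ u := fun k => h3 (by rw [← k, hi])
  simp only [sw, if_true]
  rw [Equiv.swap_apply_left, Equiv.swap_apply_right, Equiv.swap_apply_of_ne_of_ne h1 h3,
    Equiv.swap_apply_of_ne_of_ne h4 h2, hi, hi, Equiv.swap_apply_left, Equiv.swap_apply_right]
  exact ⟨rfl, rfl, rfl, rfl⟩

theorem far_ne [Fintype S] {π : S → V → V} {u u' : V} {g : ℕ} (hb : u' ∉ ball π u (g + 2))
    (w : List S) (hw : w.length ≤ g + 2) : run π u w ≠ u' := fun k =>
  hb (k ▸ run_mem_ball π u w u 0 _ (by simp [ball]) (by omega))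

theorem key [Fintype S] {m : Model S X V} {π : S → V → V} (h : Valid m π) {s : S} {u u' : V}
    (hu : s ∈ m.L u) (hu' : s ∈ m.L u') {j g : ℕ} (hj : j ≤ g) (hg : Girth π j)
    (hb : u' ∉ ball π u (g + 2)) {x : V} {w : List S} (hr : Red w)
    (hw : Walk (sw π s u u') x w) (hc : run (sw π s u u') x w = x) (hl : w.length ≤ j + 1) :
    Agree π (sw π s u u') x w := by
  have hi : ∀ t v, π t (π t v) = v := fun t v => (h t v).1
  have n1 := ((h s u).2.2 hu).1
  have n2 := ((h s u').2.2 hu').1
  obtain ⟨v1, v2, v3, v4⟩ := sw_vals (hi s) n1 n2 (far_ne hb [s] (by simp))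
  have far : ∀ x y (w : List S), (x = u ∨ x = π s u) → (y = u' ∨ y = π s u') → w.length ≤ j →
      run π x w ≠ y := by
    rintro x y w (rfl | rfl) (rfl | rfl) hw k
    · exact far_ne hb w (by omega) k
    · exact far_ne hb (w ++ [s]) (by simp; omega) (by rw [run_append, k]; exact hi _ _)
    · exact far_ne hb (s :: w) (by simp; omega) k
    · exact far_ne hb (s :: (w ++ [s])) (by simp; omega)
        (by rw [run_cons, run_append, k]; exact hi _ _)
  have far' : ∀ x y (w : List S), (x = u' ∨ x = π s u') → (y = u ∨ y = π s u) → w.length ≤ j →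
      run π x w ≠ y := fun x y w hx hy hw k =>
    far y x w.reverse hy hx (by simpa using hw) (by rw [← k, run_rev hi])
  refine key_abs (O := fun y z => ((y = u ∨ y = π s u) ∧ (z = u' ∨ z = π s u')) ∨
    ((y = u' ∨ y = π s u') ∧ (z = u ∨ z = π s u))) (hi s) hg (fun y t k => ?_)
    (fun x y w k hw => ?_) (fun y z y' z' k k' => ⟨?_, ?_⟩) hr hw hc hl
  · obtain rfl : t = s := by
      by_contra ht
      exact k (by simp [sw, ht])
    refine ⟨rfl, ?_⟩
    by_cases a1 : y = u
    · subst a1; simp [v1]
    by_cases a2 : y = u'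
    · subst a2; simp [v2]
    by_cases a3 : y = π t u
    · subst a3; simp [v3]
    by_cases a4 : y = π t u'
    · subst a4; simp [v4]
    exact absurd (sw_eq (hi t) a1 a2 a3 a4).symm k
  · rcases k with (k | k) | k | k
    exacts [far _ _ _ k.1 k.2 hw, far' _ _ _ k.1 k.2 hw, far' _ _ _ k.2 k.1 hw,
      far _ _ _ k.2 k.1 hw]
  · rcases k' with ⟨rfl | rfl, -⟩ | ⟨rfl | rfl, -⟩
    exacts [n1, by rw [hi]; exact n1.symm, n2, by rw [hi]; exact n2.symm]
  · rcases k with ⟨-, rfl | rfl⟩ | ⟨-, rfl | rfl⟩ <;>
      rcases k' with ⟨rfl | rfl, -⟩ | ⟨rfl | rfl, -⟩ <;> simp [hi]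

theorem sw_girth [Fintype S] {m : Model S X V} {π : S → V → V} (h : Valid m π) {s : S} {u u' : V}
    (hu : s ∈ m.L u) (hu' : s ∈ m.L u') {j g : ℕ} (hj : j ≤ g) (hg : Girth π j)
    (hb : u' ∉ ball π u (g + 2)) : Girth (sw π s u u') j := fun x w w0 hr hw hc => by
  by_contra hl
  have := (key h hu hu' hj hg hb hr hw hc (by omega)).run
  exact hl (hg x w w0 hr (this.2 hw) (this.1 ▸ hc))

end C

open C

theorem nonempty_gg : NonemptyStmt := by
  classical
  intro S X V _ _ m g N0 ⟨π₀, h₀⟩ hB hN
  suffices H : ∀ j ≤ g, ∃ π, Valid m π ∧ Girth π j by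
    obtain ⟨π, h⟩ := H g le_rfl
    exact ⟨π, mem_filter.2 ⟨mem_univ _, h⟩⟩
  intro j
  induction j with
  | zero => exact fun _ => ⟨π₀, h₀, fun _ w w0 _ _ _ => List.length_pos_iff.2 w0⟩
  | succ j ih =>
    intro hj
    let cl : (S → V → V) → Set (V × List S) := fun π =>
      {p | p.2.length = j + 1 ∧ Red p.2 ∧ Walk π p.1 p.2 ∧ run π p.1 p.2 = p.1}
    have fin : ∀ π, (cl π).Finite := fun π =>
      (Set.finite_univ.prod (List.finite_length_eq S (j + 1))).subset fun p hp => ⟨trivial, hp.1⟩
    obtain ⟨π, ⟨h1, h2⟩, h3⟩ := exists_minimalFor_of_wellFoundedLT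
      (fun π => Valid m π ∧ Girth π j) (fun π => (cl π).ncard) (ih (by omega))
    refine ⟨π, h1, fun u w w0 hr hw hc => ?_⟩
    by_contra hl
    have := h2 u w w0 hr hw hc
    obtain ⟨s, w, rfl⟩ := List.exists_cons_of_ne_nil w0
    have hu : s ∈ m.L u := by
      by_contra k
      exact hw.1 ((h1 s u).2.1 k)
    obtain ⟨u', a1, a2⟩ := exists_mem_notMem_of_card_lt_card (s := ball π u (g + 2))
      (lt_of_lt_of_le (by have := card_ball π u (g + 2); omega) (hB s u hu))
    obtain ⟨-, a3, a4⟩ := mem_filter.1 a1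
    have lt : (cl (sw π s u u')).ncard < (cl π).ncard := by
      refine Set.ncard_lt_ncard ⟨fun p hp => ?_, fun k => ?_⟩ (fin π)
      · have := (key h1 hu a3 (by omega) h2 a2 hp.2.1 hp.2.2.1 hp.2.2.2 hp.1.le).run
        exact ⟨hp.1, hp.2.1, this.2 hp.2.2.1, this.1 ▸ hp.2.2.2⟩
      · have hp := k (show (u, s :: w) ∈ cl π from ⟨show (s :: w).length = _ by omega, hr, hw, hc⟩)
        have e := (key h1 hu a3 (by omega) h2 a2 hp.2.1 hp.2.2.1 hp.2.2.2 hp.1.le).1
        rw [(sw_vals (fun v => (h1 s v).1) hw.1 ((h1 s u').2.2 a3).1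
          (far_ne a2 [s] (by simp))).1] at e
        refine far_ne a2 [] (by simp) ?_
        rw [← (h1 s u').1, ← e, (h1 s u).1]
        rfl
    exact lt.not_ge (h3 ⟨sw_valid h1 hu a3 a4, sw_girth h1 hu a3 (by omega) h2 a2⟩ lt.le)

theorem prob_has : ProbStmt := by
  classical
  intro S X V _ _ m g N0 Ns F hB
  induction F using Finset.induction_on with
  | empty => intro _ _; simpa using card_filter_le _ _
  | insert e F he ih =>
    intro hS hN
    obtain ⟨u, s, v⟩ := e
    rw [card_insert_of_notMem he] at hN ⊢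
    refine le_trans ?_ (ih ⟨fun e h => hS.1 e (mem_insert_of_mem h), fun e h e' h' =>
      hS.2 e (mem_insert_of_mem h) e' (mem_insert_of_mem h')⟩ (by omega))
    rw [pow_succ', ← mul_assoc]
    refine Nat.mul_le_mul_right _ ?_
    let cand : (S → V → V) → Finset V := fun π =>
      (univ.filter fun y => s ∈ m.L y ∧ m.τ y = m.τ u) \
        (ball π u (g + 2) ∪ (F.image (·.1) ∪ F.image (·.2.2)))
    have uv : u ≠ v := hS.1 _ (mem_insert_self _ _)
    have prep : ∀ π ∈ (GG m g).filter (fun π => Has π (insert (u, s, v) F)),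
        Valid m π ∧ Girth π g ∧ π s u = v ∧ s ∈ m.L u ∧ Has π F := fun π hπ => by
      obtain ⟨a1, a2⟩ := mem_filter.1 hπ
      obtain ⟨-, a3, a4⟩ := mem_filter.1 a1
      have a5 : π s u = v := a2 _ (mem_insert_self _ _)
      refine ⟨a3, a4, a5, ?_, fun e h => a2 e (mem_insert_of_mem h)⟩
      by_contra k
      exact uv (((a3 s u).2.1 k).symm.trans a5)
    have vals : ∀ π ∈ (GG m g).filter (fun π => Has π (insert (u, s, v) F)), ∀ y ∈ cand π,
        sw π s u y s v = y := fun π hπ y hy => by
      obtain ⟨a1, -, a3, a4, -⟩ := prep π hπ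
      simp only [cand, mem_sdiff, mem_filter, mem_union, not_or] at hy
      rw [← a3]
      exact (sw_vals (fun v => (a1 s v).1) ((a1 s u).2.2 a4).1 ((a1 s y).2.2 hy.1.2.1).1
        (far_ne hy.2.1 [s] (by simp))).2.2.1
    calc _ ≤ (((GG m g).filter (fun π => Has π (insert (u, s, v) F))).sigma cand).card := by
          rw [card_sigma]
          refine card_nsmul_le_sum _ _ _ fun π hπ => ?_
          have a1 := hB s u (prep π hπ).2.2.2.1
          have a2 := card_ball π u (g + 2)
          have a3 := card_union_le (ball π u (g + 2)) (F.image (·.1) ∪ F.image (·.2.2))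
          have a4 := card_union_le (F.image (·.1)) (F.image (·.2.2))
          have a5 : (F.image (·.1)).card ≤ _ := card_image_le
          have a6 : (F.image (·.2.2)).card ≤ _ := card_image_le
          refine le_trans ?_ (le_card_sdiff _ _)
          omega
      _ ≤ _ := by
          refine card_le_card_of_injOn (fun p => sw p.1 s u p.2) (fun p hp => ?_)
            fun p hp q hq e => ?_
          · obtain ⟨hπ, hy⟩ := mem_sigma.1 hp
            obtain ⟨a1, a2, a3, a4, a5⟩ := prep _ hπ
            simp only [cand, mem_sdiff, mem_filter, mem_union, not_or, mem_image, not_exists,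
              not_and] at hy
            obtain ⟨⟨-, b1, b2⟩, b3, b4, b5⟩ := hy
            refine mem_coe.2 (mem_filter.2 ⟨mem_filter.2 ⟨mem_univ _, sw_valid a1 a4 b1 b2,
              sw_girth a1 a4 b1 le_rfl a2 b3⟩, fun e hF => ?_⟩)
            rw [← a5 e hF]
            by_cases hs : e.2.1 = s
            · have c := hS.2 e (mem_insert_of_mem hF) _ (mem_insert_self _ _)
                (fun k => he (k ▸ hF)) hs
              rw [hs]
              refine sw_eq (fun v => (a1 s v).1) c.1 (b4 e hF) (a3 ▸ c.2) fun k => b5 e hF ?_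
              rw [← a5 e hF, hs, k, (a1 s _).1]
            · simp [sw, hs]
          · obtain ⟨π, y⟩ := p
            obtain ⟨π', y'⟩ := q
            have e' : sw π s u y = sw π' s u y' := e
            obtain rfl : y = y' := by
              rw [← vals π (mem_sigma.1 hp).1 y (mem_sigma.1 hp).2, e',
                vals π' (mem_sigma.1 hq).1 y' (mem_sigma.1 hq).2]
            obtain rfl : π = π' := by rw [← sw_sw π s u y, e', sw_sw]
            rfl

end Vale.Agent.P194
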