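import Vale.Agent.P194.Stm
import Vale.Agent.P194.Switch

/-! The first moment bound. -/

namespace Vale.Agent.P194

open Finset

namespace N

variable {S V : Type} {π : S → V → V} {c0 : V} {T B R h : ℕ} {cl : ℕ → S} {tl : ℕ → V}
  {nx μ : ℕ → ℕ}

theorem rep_step (c : Cfg π c0 T B R cl tl nx μ) (hπ : Invo π) (hh : 1 ≤ h)
    (hg : Girth π (2 * h)) {j : ℕ} (hj : j + 1 ≤ T) (s1 : ¬ Spc h T tl nx μ j)
    (s2 : ¬ Spc h T tl nx μ (j + 1)) :
    rep tl (j + 1) = rep tl j + 1 ∨ rep tl (j + 1) + 1 = rep tl j := by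
  have l1 := rep_le tl j
  have l2 := rep_le tl (j + 1)
  obtain ⟨a1, a2, a3, a4, a5⟩ := c.nonspc hπ hh hg (by omega) s1 (by omega) (rep_tl tl j)
  obtain ⟨-, -, b3, b4, b5⟩ := c.nonspc hπ hh hg hj s2 (by omega) (rep_tl tl (j + 1))
  rw [Nat.add_sub_cancel] at b5
  have k1 : kap h T nx μ (rep tl j) ≤ kap h T nx μ (rep tl (j + 1)) := by
    rcases b5 with b | b
    · exact b3 ▸ kap_mono (rep_le_of tl b.1)
    · exact b4 ▸ kap_mono (rep_le_of tl b.2)
  have k2 : ∀ a ≤ T, tl a = tl (j + 1) → kap h T nx μ a = kap h T nx μ (rep tl j) →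
      rep tl (j + 1) = a := fun a ha e1 e2 =>
    c.cell_inj hπ hh hg (by omega) ha (le_antisymm (kap_mono (rep_le_of tl e1)) (e2 ▸ k1))
      ((rep_tl tl _).trans e1.symm)
  rcases a5 with a | a
  · exact Or.inl (k2 _ (by omega) a.2 a4)
  · have := k2 _ (by omega) a.1 a3
    omega

abbrev YY : Type := Option (ℕ × ℕ × ℕ × ℕ × ℕ × Bool)

/-- The code of a shape. -/
noncomputable def code (T : ℕ) (tl : ℕ → V) (nx μ : ℕ → ℕ) (c0 : V) (i : ℕ) : YY :=
  if i ≤ T then some (T, rt T tl c0, if i < T then nx i else 0, if i < T then μ i else 0,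
    rep tl i, decide (rep tl (i + 1) = rep tl i + 1)) else none

def stp : YY → YY := Option.map fun p => (p.1, p.2.1, p.2.2.1 + 1, p.2.2.2.1 - 1,
  if p.2.2.2.2.2 then p.2.2.2.2.1 + 1 else p.2.2.2.2.1 - 1, p.2.2.2.2.2)

theorem code_step (c : Cfg π c0 T B R cl tl nx μ) (hπ : Invo π) (hh : 1 ≤ h)
    (hg : Girth π (2 * h)) {i : ℕ} (hi : i + 2 ≤ T) (s0 : ¬ Spc h T tl nx μ i)
    (s1 : ¬ Spc h T tl nx μ (i + 1)) (s2 : ¬ Spc h T tl nx μ (i + 2)) :
    code T tl nx μ c0 (i + 1) = stp (code T tl nx μ c0 i) := by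
  have e1 : kap h T nx μ (i + 1) = kap h T nx μ i := by
    by_contra k; exact s0 (Or.inr (Or.inr (Or.inl k)))
  have e2 : kap h T nx μ (i + 2) = kap h T nx μ (i + 1) := by
    by_contra k; exact s1 (Or.inr (Or.inr (Or.inl k)))
  obtain ⟨n1, n2⟩ := kap_nb (e2.trans e1).symm (j := i) le_rfl (by omega)
  obtain ⟨n3, -⟩ := kap_nb (e2.trans e1).symm (j := i + 1) (by omega) (by omega)
  have n4 := (n2 (by omega)).1
  have r1 := rep_step c hπ hh hg (by omega) s0 s1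
  have r2 := rep_step c hπ hh hg hi s1 s2
  have r3 : rep tl (i + 1 + 1) ≠ rep tl i := fun k => by
    have := c.cell_inj hπ hh hg hi (by omega) (e2.trans e1) ((rep_eq tl _ _).1 k)
    omega
  simp only [code, stp, if_pos (show i + 1 ≤ T by omega), if_pos (show i ≤ T by omega),
    if_pos (show i + 1 < T by omega), if_pos (show i < T by omega), Option.map_some,
    Option.some.injEq, Prod.mk.injEq, true_and, decide_eq_true_eq, decide_eq_decide]
  refine ⟨by omega, by omega, ?_, by omega⟩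
  split_ifs <;> omega

open Classical in
theorem code_brk (c : Cfg π c0 T B R cl tl nx μ) (hπ : Invo π) (hh : 1 ≤ h)
    (hg : Girth π (2 * h)) (Tm : ℕ) : ((range Tm).filter fun i =>
      code T tl nx μ c0 (i + 1) ≠ stp (code T tl nx μ c0 i)).card ≤
      12 * (T / h + 1 + R + 1) ^ 2 := by
  have := c.card_spc hπ hh hg
  set Z := (range (T + 1)).filter (Spc h T tl nx μ) with hZ
  have hm : ∀ j ≤ T, Spc h T tl nx μ j → j ∈ Z := fun j a b =>
    mem_filter.2 ⟨mem_range.2 (by omega), b⟩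
  refine (card_le_card (t := Z ∪ (Z.image (· - 1) ∪ Z.image (· - 2))) fun i hi => ?_).trans ?_
  · have k := (mem_filter.1 hi).2
    simp only [mem_union, mem_image]
    by_contra a
    push Not at a
    obtain ⟨a0, a1, a2⟩ := a
    rcases lt_or_ge T i with b | b
    · exact k (by simp [code, stp, b.not_ge, show ¬ i + 1 ≤ T by omega])
    have b0 : i ≠ T := fun e => a0 (hm i b (Or.inr (Or.inl e)))
    have b1 : i + 1 ≠ T := fun e => a1 _ (hm _ e.le (Or.inr (Or.inl e))) (by omega)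
    exact k (code_step c hπ hh hg (by omega) (fun s => a0 (hm _ b s))
      (fun s => a1 _ (hm _ (by omega) s) (by omega)) fun s => a2 _ (hm _ (by omega) s) (by omega))
  · have a1 := card_union_le Z (Z.image (· - 1) ∪ Z.image (· - 2))
    have a2 := card_union_le (Z.image (· - 1)) (Z.image (· - 2))
    have a3 : (Z.image (· - 1)).card ≤ _ := card_image_le
    have a4 : (Z.image (· - 2)).card ≤ _ := card_image_le
    omega

theorem exp_big (a d : ℕ) : ∃ h1, ∀ h, h1 ≤ h → a * h ^ d ≤ 2 ^ h := by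
  have := (tendsto_pow_const_div_const_pow_of_one_lt d (one_lt_two (α := ℝ))).eventually
    (gt_mem_nhds (show (0 : ℝ) < 1 / (a + 1) by positivity))
  obtain ⟨h1, H⟩ := Filter.eventually_atTop.1 this
  refine ⟨h1, fun h hh => ?_⟩
  have k := H h hh
  rw [div_lt_div_iff₀ (by positivity) (by positivity)] at k
  have : (a : ℝ) * h ^ d ≤ 2 ^ h := by
    have : (0 : ℝ) ≤ (h : ℝ) ^ d := by positivity
    nlinarith
  exact_mod_cast this

theorem numer {a G Ns N2 K Q E f v T B h P : ℕ} (hK : 1 ≤ K) (hN : 1 ≤ N2)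
    (h1 : a ^ K * Ns ^ E ≤ 91 ^ f * (600 ^ Q) ^ K * N2 ^ v * G ^ K) (h2 : 99 * N2 ≤ 10 * Ns)
    (h3 : v ≤ T) (h4 : T ≤ E) (h5 : 2 * f ≤ T + B + K) (h6 : 200 * B ≤ T) (h7 : h * K ≤ 10 * T)
    (h8 : 91 ^ 200 * (600 ^ Q) ^ 400 * P ^ 400 ≤ 2 ^ h) : P * a ≤ G := by
  obtain ⟨q, hq⟩ : ∃ q, q = 600 ^ Q := ⟨_, rfl⟩
  have q0 : 0 < q := hq ▸ by positivity
  rw [← hq] at h1 h8
  have a1 : a ^ K * 99 ^ T ≤ 10 ^ T * 91 ^ f * q ^ K * G ^ K := by
    refine Nat.le_of_mul_le_mul_right (c := N2 ^ T) ?_ (by positivity)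
    calc _ = a ^ K * (99 * N2) ^ T := by rw [mul_pow]; ring
      _ ≤ a ^ K * (10 * Ns) ^ T := by gcongr
      _ = 10 ^ T * (a ^ K * Ns ^ T) := by rw [mul_pow]; ring
      _ ≤ 10 ^ T * (a ^ K * Ns ^ E) := by gcongr; omega
      _ ≤ 10 ^ T * (91 ^ f * q ^ K * N2 ^ v * G ^ K) := by gcongr
      _ ≤ 10 ^ T * (91 ^ f * q ^ K * N2 ^ T * G ^ K) := by gcongr
      _ = _ := by ring
  obtain ⟨x, hx⟩ : ∃ x : ℕ, x = 91 := ⟨_, rfl⟩
  obtain ⟨y, hy⟩ : ∃ y : ℕ, y = 10 := ⟨_, rfl⟩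
  obtain ⟨z, hz⟩ : ∃ z : ℕ, z = 99 := ⟨_, rfl⟩
  obtain ⟨w, hw⟩ : ∃ w : ℕ, w = 2 := ⟨_, rfl⟩
  have a0 : w ^ 10 * (x ^ 201 * y ^ 400) ≤ z ^ 400 := by
    rw [hx, hy, hz, hw]; decide +kernel
  have x1 : 1 ≤ x := by omega
  have y1 : 1 ≤ y := by omega
  have w1 : 1 ≤ w := by omega
  rw [← hx, ← hw] at h8
  rw [← hz, ← hy, ← hx] at a1
  have a2 : (a ^ 400 * w ^ h) ^ K ≤ (x ^ 200 * q ^ 400 * G ^ 400) ^ K := by
    refine Nat.le_of_mul_le_mul_right (c := (x ^ 201 * y ^ 400) ^ T) ?_ (by positivity)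
    calc _ = (a ^ K) ^ 400 * (w ^ (h * K) * (x ^ 201 * y ^ 400) ^ T) := by
          simp only [mul_pow, ← pow_mul, mul_comm K, mul_assoc]
      _ ≤ (a ^ K) ^ 400 * (w ^ (10 * T) * (x ^ 201 * y ^ 400) ^ T) := by gcongr
      _ = (a ^ K) ^ 400 * (w ^ 10 * (x ^ 201 * y ^ 400)) ^ T := by rw [mul_pow (w ^ 10), ← pow_mul w]
      _ ≤ (a ^ K) ^ 400 * (z ^ 400) ^ T := by gcongr
      _ = (a ^ K * z ^ T) ^ 400 := by simp only [mul_pow, ← pow_mul, mul_comm T]
      _ ≤ (y ^ T * x ^ f * q ^ K * G ^ K) ^ 400 := by gcongr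
      _ = x ^ (f * 400) * (y ^ T * q ^ K * G ^ K) ^ 400 := by
          simp only [mul_pow, ← pow_mul]; ac_rfl
      _ ≤ x ^ (200 * K + 201 * T) * (y ^ T * q ^ K * G ^ K) ^ 400 := by gcongr; omega
      _ = _ := by
          simp only [mul_pow, ← pow_mul, pow_add, mul_comm K, mul_comm T]; ac_rfl
  have a3 := (Nat.pow_le_pow_iff_left (by omega)).1 a2
  refine (Nat.pow_le_pow_iff_left (n := 400) (by omega)).1 ?_
  refine Nat.le_of_mul_le_mul_left (c := x ^ 200 * q ^ 400) ?_ (by positivity)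
  rw [mul_pow, ← mul_assoc, mul_comm]
  calc _ = a ^ 400 * (x ^ 200 * q ^ 400 * P ^ 400) := rfl
    _ ≤ a ^ 400 * w ^ h := by gcongr
    _ ≤ _ := a3

end N

open N

theorem fm (hL : LayerStmt) : FMStmt := by
  classical
  intro C h0
  obtain ⟨Q, hQ⟩ : ∃ Q, Q = 4 * (10 * C + 1) ^ 2 := ⟨_, rfl⟩
  obtain ⟨c, hc⟩ : ∃ c, c = (C + 1) * (2 * (2 * C + 2) ^ 5 + 1) + 1 := ⟨_, rfl⟩
  obtain ⟨h1, H1⟩ := exp_big (91 ^ 200 * (600 ^ Q) ^ 400 * (2 * c ^ (3 * Q + 1)) ^ 400)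
    (6 * (3 * Q + 1) * 400)
  obtain ⟨h, a0, a1, a2, hh⟩ : ∃ h, h0 ≤ h ∧ h1 ≤ h ∧ C ≤ h ∧ 1 ≤ h :=
    ⟨h0 + h1 + C + 1, by omega, by omega, by omega, by omega⟩
  refine ⟨h, a0, fun X V _ m c0 N hB hF hV hN => ?_⟩
  obtain ⟨P, hP⟩ : ∃ P, P = (c * h ^ 6) ^ (3 * Q + 1) := ⟨_, rfl⟩
  have P0 : 0 < P := by rw [hP, hc]; positivity
  have H2 : 91 ^ 200 * (600 ^ Q) ^ 400 * (2 * P) ^ 400 ≤ 2 ^ h := by
    refine le_trans (le_of_eq ?_) (H1 h a1)
    rw [hP, mul_pow c, ← mul_assoc 2, mul_pow _ _ 400, ← pow_mul h, ← pow_mul h, ← mul_assoc]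
  set A := (GG m (2 * h)).filter (fun π => Bad π c0 h (C * h)) with hA
  have ex : ∀ π : Fin 91 → V → V, ∃ (T B n : ℕ) (cl : ℕ → Fin 91) (tl : ℕ → V) (nx μ : ℕ → ℕ),
      π ∈ A → Cfg π c0 T B (17 * n) cl tl nx μ ∧ 1 ≤ n ∧ (2 * h + 1) * n ≤ T ∧ 200 * B ≤ T ∧
        T ≤ C * h := fun π => by
    by_cases k : π ∈ A
    · obtain ⟨T, B, n, cl, tl, nx, μ, k'⟩ := (mem_filter.1 k).2
      exact ⟨T, B, n, cl, tl, nx, μ, fun _ => k'⟩
    · exact ⟨0, 0, 0, fun _ => 0, fun _ => c0, id, id, fun k' => absurd k' k⟩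
  choose T B n cl tl nx μ hd using ex
  have gg : ∀ π ∈ A, Invo π ∧ Girth π (2 * h) := fun π k =>
    ⟨valid_invo (mem_filter.1 (mem_filter.1 k).1).2.1, (mem_filter.1 (mem_filter.1 k).1).2.2⟩
  have kk : ∀ π ∈ A, h * (T π / h + 1 + 17 * n π) ≤ 10 * T π ∧
      4 * (T π / h + 1 + 17 * n π + 1) ^ 2 ≤ Q := fun π k => by
    obtain ⟨-, b1, b2, -, b4⟩ := hd π k
    have e1 := Nat.mul_div_le (T π) h
    have e2 : h * (T π / h + 1 + 17 * n π) ≤ 10 * T π := by nlinarith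
    refine ⟨e2, ?_⟩
    have : T π / h + 1 + 17 * n π ≤ 10 * C := Nat.le_of_mul_le_mul_left (c := h) (by nlinarith) hh
    rw [hQ]
    gcongr
  let cd : (Fin 91 → V → V) → ℕ → YY := fun π => code (T π) (tl π) (nx π) (μ π) c0
  have c1 : (A.image cd).card ≤ P := by
    let r := range (2 * (C * h) + 2)
    refine (count_simple (C * h) (3 * Q) (insertNone (r ×ˢ r ×ˢ r ×ˢ r ×ˢ r ×ˢ univ)) stp none _
      (forall_mem_image.2 fun π k i hi => if_neg (by have := (hd π k).2.2.2.2; omega))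
      (forall_mem_image.2 fun π k i hi => ?_) (forall_mem_image.2 fun π k => ?_)).trans ?_
    · obtain ⟨b0, -, -, b3, b4⟩ := hd π k
      simp only [cd, code, mem_insertNone, Option.mem_def]
      split_ifs with k1 k2
      · have := b0.nx_le i k2
        have := b0.mu_lt i k2
        have := rt_le (T π) (tl π) c0
        have := rep_le (tl π) i
        simp [r]
        omega
      · have := rt_le (T π) (tl π) c0
        have := rep_le (tl π) i
        simp [r]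
        omega
      · simp
    · have := code_brk (hd π k).1 (gg π k).1 hh (gg π k).2 (C * h)
      have := (kk π k).2
      exact (show _ ≤ 3 * Q by omega : ((range (C * h)).filter fun i =>
        code (T π) (tl π) (nx π) (μ π) c0 (i + 1) ≠
          stp (code (T π) (tl π) (nx π) (μ π) c0 i)).card ≤ _)
    · rw [hP]
      refine Nat.pow_le_pow_left ?_ _
      simp only [card_insertNone, card_product, r, card_range, card_univ, Fintype.card_bool]
      have e1 : C * h + 1 ≤ (C + 1) * h := by nlinarith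
      have e2 : 2 * (C * h) + 2 ≤ (2 * C + 2) * h := by nlinarith
      have e3 : 1 ≤ h ^ 5 := Nat.one_le_pow _ _ hh
      have e4 : 1 ≤ h ^ 6 := Nat.one_le_pow _ _ hh
      calc _ = (C * h + 1) * (2 * (2 * (C * h) + 2) ^ 5 + 1) + 1 := by ring
        _ ≤ (C + 1) * h * (2 * ((2 * C + 2) * h) ^ 5 + h ^ 5) + h ^ 6 := by gcongr
        _ = _ := by rw [hc]; ring
  have c2 : ∀ f ∈ A.image cd, (A.filter fun π => cd π = f).card ≤
      (GG m (2 * h)).card / (2 * P) := forall_mem_image.2 fun π₀ k₀ => by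
    obtain ⟨b0, b1, b2, b3, b4⟩ := hd π₀ k₀
    obtain ⟨F, Vt, Fr, Ir, ρ, d1, d2, d3, d4, d5⟩ := hL _ _ _ _ _ _ _ h _ _ _ _ b0 (gg _ k₀).1 hh
      (gg _ k₀).2
    obtain ⟨W, hW⟩ : ∃ W, W = 92 ^ (2 * h + 2) := ⟨_, rfl⟩
    have w1 : C * h ≤ W ∧ 92 ≤ W := by
      have e1 : h ≤ 92 ^ h := (Nat.lt_pow_self (by norm_num)).le
      have e2 : W = 92 ^ h * 92 ^ h * 92 ^ 2 := by rw [hW]; ring
      have e3 : C * h ≤ 92 ^ h * 92 ^ h := Nat.mul_le_mul (a2.trans e1) e1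
      have e4 : 1 ≤ 92 ^ h * 92 ^ h := Nat.mul_pos (by omega) (by omega)
      omega
    rw [← hW] at hN
    rw [Nat.le_div_iff_mul_le (by omega), mul_comm]
    refine numer (K := T π₀ / h + 1 + 17 * n π₀) (Ns := 10 * N - 2 * W - 2 * (C * h))
      (N2 := N + 17) (Nat.le_add_right_of_le (Nat.le_add_left _ _)) (by omega) ?_ (by omega) d4 d2 d3 b3 (kk _ k₀).1 H2
    have pt : ∀ k, (A.filter fun π => cd π = cd π₀).card *
        (10 * N - 2 * W - 2 * (C * h)) ^ (F k).card ≤ 91 ^ ((F k).filter (· ∈ Fr)).card *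
        600 ^ Q * (N + 17) ^ (Vt k).card * (GG m (2 * h)).card := fun k => by
      have f1 : (F k).card ≤ T π₀ :=
        (card_le_card fun j hj => mem_range.2 ((d1 k).F_lt j hj)).trans_eq (card_range _)
      refine (pattern prob_has m c0 (by omega) hB hF (d1 k) (by
        rw [Fintype.card_fin, ← hW]; omega) _ ((filter_subset _ _).trans (filter_subset _ _))
        fun π k => ?_).trans ?_
      · obtain ⟨k1, k2⟩ := mem_filter.1 k
        have e0 := congrFun k2 0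
        simp only [cd, code, if_pos (Nat.zero_le _), Option.some.injEq, Prod.mk.injEq] at e0
        have dr := (hd π k1).1.drawn
        rw [e0.2.1, e0.1] at dr
        have e : ∀ j ≤ T π₀, (j < T π₀ → nx π j = nx π₀ j ∧ μ π j = μ π₀ j) ∧
            rep (tl π) j = rep (tl π₀) j := fun j hj => by
          have e1 := congrFun k2 j
          simp only [cd, code, e0.1, if_pos hj, Option.some.injEq, Prod.mk.injEq] at e1
          exact ⟨fun k => by simpa [k] using And.intro e1.2.2.1 e1.2.2.2.1, e1.2.2.2.2.1⟩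
        exact ⟨_, _, dr.congr (fun j hj => ((e j hj.le).1 hj).1) (fun j hj => ((e j hj.le).1 hj).2)
          fun j hj => (e j hj).2⟩
      · rw [Fintype.card_fin, ← card_filter_add_card_filter_not (s := Vt k) (· ∈ Ir), pow_add,
          ← mul_assoc, mul_assoc _ (600 ^ Q)]
        have f2 : ((Vt k).filter (· ∈ Ir)).card ≤ Q :=
          (card_le_card fun j hj => (mem_filter.1 hj).2).trans (d5.trans (kk _ k₀).2)
        gcongr
        calc _ ≤ (600 * (N + 17)) ^ ((Vt k).filter (· ∈ Ir)).card :=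
              Nat.pow_le_pow_left (by omega) _
          _ ≤ _ := by rw [mul_pow]; gcongr; norm_num
    have := prod_le_prod' (s := range (T π₀ / h + 1 + 17 * n π₀)) fun k _ => pt k
    simpa only [prod_mul_distrib, prod_const, card_range, prod_pow_eq_pow_sum] using this
  calc _ ≤ 2 * ((GG m (2 * h)).card / (2 * P) * P) := by
        gcongr
        exact (card_le_mul_card_image A _ c2).trans (Nat.mul_le_mul_left _ c1)
    _ = (GG m (2 * h)).card / (2 * P) * (2 * P) := by ring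
    _ ≤ _ := Nat.div_mul_le_self _ _

end Vale.Agent.P194
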