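import Vale.Agent.P194.Layer0

namespace Vale.Agent.P194

open Finset

theorem rho_lt {T a b j j' : ℕ} (hj : j < T) (h : a * (T + 1) + j' < b * (T + 1) + j) : a ≤ b := by
  by_contra k
  have : (b + 1) * (T + 1) ≤ a * (T + 1) := Nat.mul_le_mul_right _ (by omega)
  rw [add_mul] at this; omega

theorem rho_inj {T a b j j' : ℕ} (hj : j < T) (hj' : j' < T)
    (h : a * (T + 1) + j' = b * (T + 1) + j) : j' = j := by
  have := congrArg (· % (T + 1)) h
  simp only [Nat.mul_add_mod_of_lt (show j < T + 1 by omega),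
    Nat.mul_add_mod_of_lt (show j' < T + 1 by omega)] at this
  exact this

theorem layers : LayerStmt := by
  classical
  intro S V π c0 T B R h cl tl nx μ c hπ hh hg
  set K := T / h + 1 + R with hK
  let e := ed tl nx
  let m : ℕ → ℕ := fun j => mul T tl nx (e j)
  have mK : ∀ j, m j ≤ K := fun j => c.mul_K hπ hh hg j
  let A : Finset ℕ := (range T).filter (fun j => rep e j = j)
  let F : ℕ → Finset ℕ := fun k => A.filter (fun j => k < m j)
  let ρ : ℕ → ℕ := fun j => (K - m j) * (T + 1) + j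
  let Con : ℕ → Prop := fun j => ∃ j1 < T, μ j1 < T ∧ e j = e j1 ∧ ρ (rep e (μ j1)) < ρ j
  let Fr : Finset ℕ := (range T).filter (fun j => ¬ Con j)
  let A' : Finset ℕ := (range (T + 1)).filter (fun i => rep tl i = i ∧ tl i ≠ c0)
  let Vt : ℕ → Finset ℕ := fun k => A'.filter (fun i => ∃ j ∈ F k, tl i ∈ e j)
  let Ir : Finset ℕ := (range (T + 1)).filter (Spc h T tl nx μ)
  have mF : ∀ k j, j ∈ F k ↔ j < T ∧ rep e j = j ∧ k < m j := fun k j => by
    simp only [F, A, mem_filter, mem_range, and_assoc]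
  have mV : ∀ k i, i ∈ Vt k ↔ i ≤ T ∧ rep tl i = i ∧ tl i ≠ c0 ∧ ∃ j ∈ F k, tl i ∈ e j :=
    fun k i => by simp only [Vt, A', mem_filter, mem_range, and_assoc, Nat.lt_succ_iff]
  have rF : ∀ k j, j < T → k < m j → rep e j ∈ F k := fun k j a b =>
    (mF k _).2 ⟨lt_of_le_of_lt (rep_le e j) a, rep_rep e j, by simp only [m]; rwa [rep_tl e j]⟩
  have rV : ∀ k i j, i ≤ T → j ∈ F k → tl i ∈ e j →
      (∃ i' ∈ Vt k, rep tl i' = rep tl i ∧ i' ≤ i) ∨ rep tl i = rt T tl c0 := by
    intro k i j a b d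
    by_cases q : tl i = c0
    · exact Or.inr ((rep_rt tl c0 a).2 q)
    · exact Or.inl ⟨rep tl i, (mV k _).2 ⟨(rep_le tl i).trans a, rep_rep tl i,
        by rwa [rep_tl tl i], j, b, by rwa [rep_tl tl i]⟩, rep_rep tl i, rep_le tl i⟩
  have fib : ∀ (P : ℕ → Prop) [DecidablePred P], ∑ j ∈ A.filter P, m j =
      ((range T).filter (fun j => P (rep e j))).card := by
    intro P _
    rw [card_eq_sum_card_fiberwise (f := rep e) (t := A.filter P)]
    · refine sum_congr rfl (fun j hj => ?_)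
      simp only [A, mem_filter, mem_range] at hj
      simp only [m, mul]
      congr 1
      ext x
      simp only [mem_filter, mem_range]
      constructor
      · rintro ⟨a, b⟩
        have : rep e x = j := ((rep_eq e x j).2 b).trans hj.1.2
        exact ⟨⟨a, this ▸ hj.2⟩, this⟩
      · rintro ⟨⟨a, -⟩, b⟩
        exact ⟨a, (rep_eq e x j).1 (b.trans hj.1.2.symm)⟩
    · intro j hj
      simp only [A, coe_filter, mem_filter, mem_range, Set.mem_setOf_eq] at hj ⊢
      exact ⟨⟨lt_of_le_of_lt (rep_le e j) hj.1, rep_rep e j⟩, hj.2⟩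
  refine ⟨F, Vt, Fr, Ir, ρ, fun k => ⟨fun j hj => ((mF k j).1 hj).1, ?_, ?_,
    fun i hi => ((mV k i).1 hi).1, ?_, ?_⟩, ?_, ?_, ?_, c.card_spc hπ hh hg⟩
  · intro j hj j' hj' s
    rw [← ((mF k j).1 hj).2.1, ← ((mF k j').1 hj').2.1]
    exact (rep_eq e j j').2 (se_iff.1 s)
  · intro j hj fr
    obtain ⟨a, b, d⟩ := (mF k j).1 hj
    have : Con j := by
      by_contra q; exact fr (mem_filter.2 ⟨mem_range.2 a, q⟩)
    obtain ⟨j1, p1, p2, p3, p4⟩ := this
    refine ⟨j1, p1, p2, se_iff.2 p3, rep e (μ j1), rF k _ p2 ?_, se_iff.2 (rep_tl e _), p4⟩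
    have q1 := rho_lt a p4
    have q2 := mK j
    have q3 := mK (μ j1)
    have q4 : m (rep e (μ j1)) = m (μ j1) := by simp only [m]; rw [rep_tl e]
    omega
  · intro j hj
    have a := ((mF k j).1 hj).1
    exact ⟨(rV k j j a.le hj (Sym2.mem_mk_left _ _)).imp_left (fun ⟨i, p, q, _⟩ => ⟨i, p, q⟩),
      (rV k (nx j) j (c.nx_le j a) hj (Sym2.mem_mk_right _ _)).imp_left
        (fun ⟨i, p, q, _⟩ => ⟨i, p, q⟩)⟩
  · intro i hi ir
    obtain ⟨a, b, d, j0, f0, g0⟩ := (mV k i).1 hi
    have hs : ¬ Spc h T tl nx μ i := fun q => ir (mem_filter.2 ⟨mem_range.2 (by omega), q⟩)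
    obtain ⟨n1, n2, n3, n4, n5⟩ := c.reg_ne hπ hh hg a hs
    have mm := c.reg_mul hπ hh hg a hs
    obtain ⟨f1, -, f2⟩ := (mF k j0).1 f0
    obtain ⟨j', -, -, -, -, w⟩ := c.reg_dart hπ hh hg a hs f1 (Sym2.mem_iff.1 g0)
    have km : k < mul T tl nx s(tl i, tl (i - 1)) := by
      rcases w with w | w
      · rw [← w.1]; exact f2
      · rw [mm, ← w.1]; exact f2
    have r1 := rF k (i - 1) (by omega) (by simp only [m, e]; rwa [n4])
    have r2 := rF k i n3 (by simp only [m, e]; rwa [n5, ← mm])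
    have e1 : ed tl nx (rep e (i - 1)) = s(tl i, tl (i - 1)) := (rep_tl e (i - 1)).trans n4
    have e2 : ed tl nx (rep e i) = s(tl i, tl (i + 1)) := (rep_tl e i).trans n5
    refine ⟨_, r1, _, r2, fun q => n1 (by rw [← e1, ← e2, q]), ?_, i - 1, by omega, ?_, ?_⟩
    · rw [rep_eq, rep_eq]
      exact Sym2.mem_iff.1 (show tl i ∈ ed tl nx (rep e i) from e2 ▸ Sym2.mem_mk_left _ _)
    · rw [rep_eq, rep_eq, rep_eq, rep_eq]
      rcases Sym2.eq_iff.1 e1 with q | q
      · exact Or.inl ⟨q.1.symm, q.2.symm⟩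
      · exact Or.inr ⟨q.2.symm, q.1.symm⟩
    · rcases rV k (i - 1) _ (by omega) r1
        (show tl (i - 1) ∈ ed tl nx (rep e (i - 1)) from e1 ▸ Sym2.mem_mk_right _ _) with
        ⟨u, p, q, r⟩ | q
      · exact Or.inr ⟨u, p, q, by omega⟩
      · exact Or.inl q
  · rw [layer_sum A m K (fun j _ => mK j)]
    have := fib (fun _ => True)
    simp only [filter_true, card_range] at this
    exact this.ge
  · have : ∀ k, (F k).filter (· ∈ Fr) = (A.filter (· ∈ Fr)).filter (fun j => k < m j) :=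
      fun k => filter_comm _ _ _
    simp only [this]
    rw [layer_sum _ m K (fun j _ => mK j), fib (· ∈ Fr)]
    set D := (range T).filter (fun j => rep e j ∈ Fr) with hD
    have u1 : ((range T).filter (fun j => T ≤ μ j)).card ≤ B := by
      refine le_trans (card_le_card_of_injOn (t := Ico T (T + B)) μ (fun j hj => ?_) ?_) (by simp)
      · simp only [coe_filter, mem_range, Set.mem_setOf_eq] at hj
        exact mem_coe.2 (mem_Ico.2 ⟨hj.2, c.mu_lt j hj.1⟩)
      · intro i hi j hj q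
        simp only [coe_filter, mem_range, Set.mem_setOf_eq] at hi hj
        rw [← c.inv i hi.1, q, c.inv j hj.1]
    have u2 := c.wasted hπ hh hg
    have u3 : (D.filter (fun j => μ j < T ∧ e (μ j) ≠ e j)).card ≤ (range T \ D).card := by
      refine card_le_card_of_injOn μ (fun j hj => ?_) ?_
      · simp only [hD, Fr, coe_filter, mem_filter, mem_range, Set.mem_setOf_eq, coe_sdiff,
          Set.mem_diff, mem_coe] at hj ⊢
        obtain ⟨⟨a1, a2, a3⟩, a4, a5⟩ := hj
        refine ⟨a4, fun ⟨_, b2, b3⟩ => ?_⟩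
        have x1 : ¬ ρ (rep e (μ j)) < ρ (rep e j) := fun q => a3 ⟨j, a1, a4, rep_tl e j, q⟩
        have x2 : ¬ ρ (rep e j) < ρ (rep e (μ j)) := fun q => b3 ⟨μ j, a4,
          by rwa [c.inv j a1], rep_tl e _, by rwa [c.inv j a1]⟩
        exact a5 ((rep_eq e _ _).1 (rho_inj a2 b2 (show ρ (rep e (μ j)) = ρ (rep e j) by omega)))
      · intro i hi j hj q
        simp only [hD, coe_filter, mem_filter, mem_range, Set.mem_setOf_eq] at hi hj
        rw [← c.inv i hi.1.1, q, c.inv j hj.1.1]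
    have u4 : D ⊆ ((range T).filter (fun j => T ≤ μ j) ∪
        (range T).filter (fun j => μ j < T ∧ ed tl nx (μ j) = ed tl nx j)) ∪
        D.filter (fun j => μ j < T ∧ e (μ j) ≠ e j) := by
      intro j hj
      have a := (mem_filter.1 hj).1
      by_cases k1 : T ≤ μ j
      · exact mem_union_left _ (mem_union_left _ (mem_filter.2 ⟨a, k1⟩))
      · by_cases k2 : e (μ j) = e j
        · exact mem_union_left _ (mem_union_right _ (mem_filter.2 ⟨a, by omega, k2⟩))
        · exact mem_union_right _ (mem_filter.2 ⟨hj, by omega, k2⟩)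
    have u5 := (card_le_card u4).trans ((card_union_le _ _).trans
      (Nat.add_le_add_right (card_union_le _ _) _))
    have u6 := card_sdiff_add_card_eq_card (show D ⊆ range T from filter_subset _ _)
    rw [card_range] at u6
    omega
  · have s1 : ∀ k, (Vt k).card ≤ (A'.filter (fun i => k < cnt T tl nx (tl i))).card := by
      intro k
      refine card_le_card (fun i hi => ?_)
      obtain ⟨a, j, b, d⟩ := mem_filter.1 hi
      exact mem_filter.2 ⟨a, lt_of_lt_of_le ((mF k j).1 b).2.2 (c.mul_le hπ hh hg d)⟩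
    refine le_trans (sum_le_sum (fun k _ => s1 k)) ?_
    rw [layer_sum A' (fun i => cnt T tl nx (tl i)) K (fun i _ => c.cnt_le hπ hh hg _)]
    have s2 : ((crn T nx).filter (fun i => tl i ≠ c0)).card ≤ T := by
      by_cases q : ∃ j < T, nx j = T
      · obtain ⟨i, p1, p2⟩ := c.endp q
        refine le_trans (card_le_card (t := (range (T + 1)).erase i) (fun x hx => ?_)) ?_
        · simp only [crn, mem_filter] at hx
          exact mem_erase.2 ⟨fun r => hx.2 (r ▸ p2), hx.1.1⟩
        · rw [card_erase_of_mem (mem_range.2 (by omega)), card_range]; omega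
      · refine le_trans (card_le_card (t := range T) (fun x hx => ?_)) (card_range T).le
        simp only [crn, mem_filter] at hx
        exact mem_range.2 (hx.1.2.resolve_right q)
    refine le_trans ?_ s2
    rw [card_eq_sum_card_fiberwise (f := rep tl) (t := A')]
    · refine sum_le_sum (fun i hi => card_le_card (fun x hx => ?_))
      simp only [A', mem_filter] at hi hx ⊢
      exact ⟨⟨hx.1, hx.2 ▸ hi.2.2⟩, ((rep_eq tl x i).2 hx.2).trans hi.2.1⟩
    · intro x hx
      simp only [A', crn, coe_filter, mem_filter, mem_range, Set.mem_setOf_eq] at hx ⊢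
      exact ⟨lt_of_le_of_lt (rep_le tl x) hx.1.1, rep_rep tl x, by rw [rep_tl tl x]; exact hx.2⟩

end Vale.Agent.P194
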