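import Vale.Agent.P194.Defs

/-! Group algebras of residually finite groups are directly finite. -/

namespace Vale.Agent.P194

theorem rf_df : RFStmt := by
  intro K G _ _ h a b hab
  classical
  by_contra c
  set x := b * a - 1 with hx
  have x0 : x.coeff ≠ 0 := fun e => c (sub_eq_zero.1 (MonoidAlgebra.coeff_injective e))
  let I := {p : G × G // p ∈ (x.coeff.support ×ˢ x.coeff.support).filter fun p => p.1 ≠ p.2}
  have hI : ∀ i : I, i.1.1⁻¹ * i.1.2 ≠ 1 := fun i e =>
    (Finset.mem_filter.1 i.2).2 (inv_mul_eq_one.1 e)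
  choose F _ _ f hf using fun i : I => h _ (hI i)
  let φ : G →* (∀ i, F i) := MonoidHom.pi f
  have inj : Set.InjOn φ x.coeff.support := fun g hg g' hg' e => by
    by_contra ne
    let i : I := ⟨(g, g'), Finset.mem_filter.2 ⟨Finset.mem_product.2 ⟨hg, hg'⟩, ne⟩⟩
    refine hf i ?_
    rw [map_mul, map_inv, inv_mul_eq_one]
    exact congrFun e i
  let ψ := MonoidAlgebra.mapDomainRingHom K φ
  have : Finite I := Finset.finite_toSet _
  have : Finite (∀ i, F i) := Pi.finite
  have : IsArtinianRing (MonoidAlgebra K (∀ i, F i)) := IsArtinianRing.of_finite K _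
  have e1 : ψ b * ψ a = 1 := mul_eq_one_comm.1 (by rw [← map_mul, hab, map_one])
  have e2 : ψ x = 0 := by rw [hx, map_sub, map_mul, e1, map_one, sub_self]
  obtain ⟨g, hg⟩ := Finsupp.support_nonempty_iff.2 x0
  have e3 := Finsupp.mapDomain_apply' _ x.coeff subset_rfl inj hg
  have e4 : Finsupp.mapDomain φ x.coeff = 0 := congrArg MonoidAlgebra.coeff e2
  rw [e4] at e3
  exact Finsupp.mem_support_iff.1 hg e3.symm

end Vale.Agent.P194
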