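import Vale.Agent.P194.Main
import Vale.Agent.P194.Layer
import Vale.Agent.P194.FM
import Vale.Agent.P194.RF

namespace Vale.Agent.P194

theorem final : MainStmt := main (fm layers)

theorem cayley_eq {G : Type} [Group G] (T : Set G) : cayley T = SimpleGraph.mulCayley T := by
  ext g h
  rw [SimpleGraph.mulCayley_adj]
  rfl

theorem not_rf : ∃ (G : Type) (_ : Group G), IsHyperbolic G ∧ ¬ Group.ResiduallyFinite G := by
  obtain ⟨G, _, h, a, b, p, q⟩ := final
  refine ⟨G, inferInstance, h, fun r => q (rf_df (ZMod 3) G (fun g hg => ?_) a b p)⟩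
  obtain ⟨H, k⟩ := Group.exists_finiteIndexNormalSubgroup_notMem g hg
  exact ⟨G ⧸ H.toSubgroup, inferInstance, inferInstance, QuotientGroup.mk' _,
    fun e => k ((QuotientGroup.eq_one_iff g).1 e)⟩

end Vale.Agent.P194
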