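import Mathlib

/-! Thin hexagons from an area inequality for loops. -/

namespace Vale.Agent.P194.H

open Finset

variable {V : Type} {d : V → V → ℕ}

/-- `σ` is a geodesic on the interval `[a, b]` -/
def Geo (d : V → V → ℕ) (σ : ℕ → V) (a b : ℕ) : Prop :=
  a ≤ b ∧ ∀ i j, a ≤ i → i ≤ j → j ≤ b → d (σ i) (σ j) = j - i

theorem Geo.sub {σ : ℕ → V} {a b a' b' : ℕ} (h : Geo d σ a b) (h1 : a ≤ a') (h2 : a' ≤ b')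
    (h3 : b' ≤ b) : Geo d σ a' b' :=
  ⟨h2, fun i j k1 k2 k3 => h.2 i j (h1.trans k1) k2 (k3.trans h3)⟩

/-- paths with their lengths and the integral of `f dg` along them -/
structure Loop (d : V → V → ℕ) (D : ℕ) (f g : V → ℤ) (P : V → V → ℕ → ℤ → Prop) : Prop where
  nil : ∀ u, P u u 0 0
  edge : ∀ u v, d u v = 1 → P u v 1 ((f u + f v) * (g v - g u))
  trans : ∀ {u v w n m I J}, P u v n I → P v w m J → P u w (n + m) (I + J)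
  closed : ∀ {u n I}, P u u n I → I ≤ D * n

/-- a geodesic integer metric with a linear bound for the area form -/
structure Met (d : V → V → ℕ) (D : ℕ) : Prop where
  self : ∀ u, d u u = 0
  symm : ∀ u v, d u v = d v u
  tri : ∀ u v w, d u w ≤ d u v + d v w
  geo : ∀ u v, ∃ σ : ℕ → V, σ 0 = u ∧ σ (d u v) = v ∧ Geo d σ 0 (d u v)
  loop : ∀ f g : V → ℤ, (∀ u v, d u v = 1 → f u ≤ f v + 1) → (∀ u v, d u v = 1 → g u ≤ g v + 1) →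
    ∃ P, Loop d D f g P

theorem Loop.geo {D : ℕ} {f g : V → ℤ} {P : V → V → ℕ → ℤ → Prop} (h : Loop d D f g P)
    {σ : ℕ → V} {a b : ℕ} (hσ : Geo d σ a b) (c : ℤ)
    (hc : ∀ i, a ≤ i → i < b → c ≤ (f (σ i) + f (σ (i + 1))) * (g (σ (i + 1)) - g (σ i))) :
    ∃ I, c * (b - a : ℕ) ≤ I ∧ P (σ a) (σ b) (b - a) I := by
  obtain ⟨hab, hσ⟩ := hσ
  induction b, hab using Nat.le_induction with
  | base => exact ⟨0, by simp, by simpa using h.nil _⟩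
  | succ b hab ih =>
    obtain ⟨I, i1, i2⟩ := ih (fun i k1 k2 => hc i k1 (by omega))
      fun i j k1 k2 k3 => hσ i j k1 k2 (by omega)
    have e : b + 1 - a = b - a + 1 := by omega
    refine ⟨_, ?_, e ▸ h.trans i2 (h.edge _ _ (by rw [hσ b (b + 1) hab (by omega) le_rfl]; omega))⟩
    have := hc b hab (by omega)
    rw [e]
    push_cast
    linarith

/-- three geodesics whose consecutive ends are close -/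
structure Hex (d : V → V → ℕ) (k : ℕ) (σ₁ : ℕ → V) (a₁ b₁ : ℕ) (σ₂ : ℕ → V) (a₂ b₂ : ℕ)
    (σ₃ : ℕ → V) (a₃ b₃ : ℕ) : Prop where
  g1 : Geo d σ₁ a₁ b₁
  g2 : Geo d σ₂ a₂ b₂
  g3 : Geo d σ₃ a₃ b₃
  c1 : d (σ₁ b₁) (σ₂ a₂) ≤ k
  c2 : d (σ₂ b₂) (σ₃ a₃) ≤ k
  c3 : d (σ₃ b₃) (σ₁ a₁) ≤ k

variable {D k : ℕ} {σ₁ σ₂ σ₃ : ℕ → V} {a₁ b₁ a₂ b₂ a₃ b₃ : ℕ}

theorem Hex.rot (h : Hex d k σ₁ a₁ b₁ σ₂ a₂ b₂ σ₃ a₃ b₃) : Hex d k σ₂ a₂ b₂ σ₃ a₃ b₃ σ₁ a₁ b₁ :=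
  ⟨h.g2, h.g3, h.g1, h.c2, h.c3, h.c1⟩

theorem side (hm : Met d D) (h : Hex d k σ₁ a₁ b₁ σ₂ a₂ b₂ σ₃ a₃ b₃)
    (f2 : ∀ i, a₁ < i → i < b₁ → ∀ j, a₂ ≤ j → j ≤ b₂ → k ≤ d (σ₁ i) (σ₂ j))
    (f3 : ∀ i, a₁ < i → i < b₁ → ∀ j, a₃ ≤ j → j ≤ b₃ → k ≤ d (σ₁ i) (σ₃ j)) :
    k * (b₁ - a₁) ≤ D * ((b₁ - a₁) + (b₂ - a₂) + (b₃ - a₃) + 3 * k) + 6 * k * k + k := by
  by_cases l1 : b₁ - a₁ ≤ 1
  · have := Nat.mul_le_mul_left k l1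
    omega
  let Y : Set V := {y | (∃ j, a₂ ≤ j ∧ j ≤ b₂ ∧ y = σ₂ j) ∨ ∃ j, a₃ ≤ j ∧ j ≤ b₃ ∧ y = σ₃ j}
  let T : V → Set ℕ := fun v => {n | n = k ∨ ∃ y ∈ Y, n = d v y}
  let F : V → ℕ := fun v => sInf (T v)
  have F1 : ∀ v, F v ≤ k := fun v => Nat.sInf_le (Or.inl rfl)
  have F2 : ∀ v, ∀ y ∈ Y, F v ≤ d v y := fun v y hy => Nat.sInf_le (Or.inr ⟨y, hy, rfl⟩)
  have F3 : ∀ v, F v = k ∨ ∃ y ∈ Y, F v = d v y := fun v =>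
    Nat.sInf_mem (s := T v) ⟨k, Or.inl rfl⟩
  have F4 : ∀ u v, d u v = 1 → (F u : ℤ) ≤ F v + 1 := fun u v e => by
    rcases F3 v with c | ⟨y, hy, c⟩
    · have := F1 u; omega
    · have := F2 u y hy; have := hm.tri u v y; omega
  have F5 : ∀ y ∈ Y, F y = 0 := fun y hy => by have := F2 y y hy; rw [hm.self] at this; omega
  have F6 : ∀ i, a₁ < i → i < b₁ → F (σ₁ i) = k := fun i k1 k2 => by
    have := F1 (σ₁ i)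
    rcases F3 (σ₁ i) with c | ⟨y, ⟨j, j1, j2, rfl⟩ | ⟨j, j1, j2, rfl⟩, c⟩
    · exact c
    · have := f2 i k1 k2 j j1 j2; omega
    · have := f3 i k1 k2 j j1 j2; omega
  have G1 : ∀ u v, d u v = 1 → (d (σ₁ a₁) u : ℤ) ≤ d (σ₁ a₁) v + 1 := fun u v e => by
    have := hm.tri (σ₁ a₁) v u; rw [hm.symm v u] at this; omega
  obtain ⟨P, hP⟩ := hm.loop (fun v => F v) (fun v => d (σ₁ a₁) v) F4 G1
  have conn : ∀ u v, d u v ≤ k → ∃ n I, n ≤ k ∧ -(2 * k * k : ℤ) ≤ I ∧ P u v n I := fun u v e => by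
    obtain ⟨σ, s1, s2, s3⟩ := hm.geo u v
    obtain ⟨I, i1, i2⟩ := hP.geo s3 (-(2 * k)) fun i _ hi => by
      have e1 : d (σ i) (σ (i + 1)) = 1 := by rw [s3.2 i (i + 1) (by omega) (by omega) hi]; omega
      have e2 := G1 _ _ e1
      have e3 : (F (σ i) : ℤ) ≤ k := by exact_mod_cast F1 _
      have e4 : (F (σ (i + 1)) : ℤ) ≤ k := by exact_mod_cast F1 _
      nlinarith [Int.natCast_nonneg (F (σ i)), Int.natCast_nonneg (F (σ (i + 1)))]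
    rw [s1, s2, Nat.sub_zero] at i2
    refine ⟨_, I, e, le_trans ?_ i1, i2⟩
    have : ((d u v - 0 : ℕ) : ℤ) ≤ k := by exact_mod_cast e
    nlinarith [Int.natCast_nonneg k]
  obtain ⟨I1, i1, p1⟩ := hP.geo h.g1 k fun i k1 k2 => by
    rw [h.g1.2 a₁ i le_rfl k1 k2.le, h.g1.2 a₁ (i + 1) le_rfl (by omega) k2]
    have e : ((i + 1 - a₁ : ℕ) : ℤ) - (i - a₁ : ℕ) = 1 := by omega
    rw [e, mul_one]
    by_cases c : a₁ < i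
    · have := F6 i c k2; omega
    · have := F6 (i + 1) (by omega) (by omega); omega
  obtain ⟨I2, i2, p2⟩ := hP.geo h.g2 0 fun i k1 k2 => by
    rw [F5 _ (Or.inl ⟨i, k1, k2.le, rfl⟩), F5 _ (Or.inl ⟨i + 1, by omega, k2, rfl⟩)]; simp
  obtain ⟨I3, i3, p3⟩ := hP.geo h.g3 0 fun i k1 k2 => by
    rw [F5 _ (Or.inr ⟨i, k1, k2.le, rfl⟩), F5 _ (Or.inr ⟨i + 1, by omega, k2, rfl⟩)]; simp
  obtain ⟨n1, J1, j1, j1', q1⟩ := conn _ _ h.c1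
  obtain ⟨n2, J2, j2, j2', q2⟩ := conn _ _ h.c2
  obtain ⟨n3, J3, j3, j3', q3⟩ := conn _ _ h.c3
  have e := hP.closed (hP.trans (hP.trans (hP.trans (hP.trans (hP.trans p1 q1) p2) q2) p3) q3)
  have e2 : D * (b₁ - a₁ + n1 + (b₂ - a₂) + n2 + (b₃ - a₃) + n3) ≤
      D * ((b₁ - a₁) + (b₂ - a₂) + (b₃ - a₃) + 3 * k) := Nat.mul_le_mul_left _ (by omega)
  generalize b₁ - a₁ = l₁ at *
  generalize b₂ - a₂ = l₂ at *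
  generalize b₃ - a₃ = l₃ at *
  zify at e2 ⊢
  push_cast at e
  nlinarith [Int.natCast_nonneg k]

theorem thin (hm : Met d D) (hk : k = 6 * D + 1) (n : ℕ) : ∀ (σ₁ σ₂ σ₃ : ℕ → V)
    (a₁ b₁ a₂ b₂ a₃ b₃ t : ℕ), (b₁ - a₁) + (b₂ - a₂) + (b₃ - a₃) < n →
    Hex d k σ₁ a₁ b₁ σ₂ a₂ b₂ σ₃ a₃ b₃ → a₁ ≤ t → t ≤ b₁ → ∃ j,
      (a₂ ≤ j ∧ j ≤ b₂ ∧ d (σ₁ t) (σ₂ j) ≤ 40 * k + 6) ∨
      (a₃ ≤ j ∧ j ≤ b₃ ∧ d (σ₁ t) (σ₃ j) ≤ 40 * k + 6) := by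
  induction n with
  | zero => intro _ _ _ _ _ _ _ _ _ _ h; omega
  | succ n ih =>
    intro σ₁ σ₂ σ₃ a₁ b₁ a₂ b₂ a₃ b₃ t hn h t1 t2
    have l1 := h.g1.1
    have l2 := h.g2.1
    have l3 := h.g3.1
    by_cases A : ∃ s j, a₂ ≤ s ∧ s ≤ b₂ ∧ a₃ ≤ j ∧ j ≤ b₃ ∧ (s < b₂ ∨ a₃ < j) ∧
        d (σ₂ s) (σ₃ j) ≤ k
    · obtain ⟨s, j, k1, k2, k3, k4, k5, k6⟩ := A
      obtain ⟨i, hi⟩ := ih σ₁ σ₂ σ₃ a₁ b₁ a₂ s j b₃ t (by omega)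
        ⟨h.g1, h.g2.sub le_rfl k1 k2, h.g3.sub k3 k4 le_rfl, h.c1, k6, h.c3⟩ t1 t2
      exact ⟨i, hi.imp (fun c => ⟨c.1, by omega, c.2.2⟩) fun c => ⟨by omega, c.2⟩⟩
    by_cases B : ∃ s j, t ≤ s ∧ s ≤ b₁ ∧ a₂ ≤ j ∧ j ≤ b₂ ∧ (s < b₁ ∨ a₂ < j) ∧
        d (σ₁ s) (σ₂ j) ≤ k
    · obtain ⟨s, j, k1, k2, k3, k4, k5, k6⟩ := B
      obtain ⟨i, hi⟩ := ih σ₁ σ₂ σ₃ a₁ s j b₂ a₃ b₃ t (by omega)
        ⟨h.g1.sub le_rfl (by omega) k2, h.g2.sub k3 k4 le_rfl, h.g3, k6, h.c2, h.c3⟩ t1 k1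
      exact ⟨i, hi.imp (fun c => ⟨by omega, c.2⟩) id⟩
    by_cases B' : ∃ s j, a₁ ≤ s ∧ s ≤ t ∧ a₂ ≤ j ∧ j ≤ b₂ ∧ (a₁ < s ∨ j < b₂) ∧
        d (σ₁ s) (σ₂ j) ≤ k
    · obtain ⟨s, j, k1, k2, k3, k4, k5, k6⟩ := B'
      obtain ⟨i, hi⟩ := ih σ₁ σ₂ σ₂ s b₁ a₂ j j j t (by omega)
        ⟨h.g1.sub k1 (by omega) le_rfl, h.g2.sub le_rfl k3 k4, h.g2.sub k3 le_rfl k4, h.c1,
          by rw [hm.self]; omega, by rwa [hm.symm]⟩ k2 t2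
      exact ⟨i, Or.inl (hi.elim (fun c => ⟨c.1, by omega, c.2.2⟩)
        fun c => ⟨by omega, by omega, c.2.2⟩)⟩
    by_cases C : ∃ s j, a₁ ≤ s ∧ s ≤ t ∧ a₃ ≤ j ∧ j ≤ b₃ ∧ (a₁ < s ∨ j < b₃) ∧
        d (σ₁ s) (σ₃ j) ≤ k
    · obtain ⟨s, j, k1, k2, k3, k4, k5, k6⟩ := C
      obtain ⟨i, hi⟩ := ih σ₁ σ₂ σ₃ s b₁ a₂ b₂ a₃ j t (by omega)
        ⟨h.g1.sub k1 (by omega) le_rfl, h.g2, h.g3.sub le_rfl k3 k4, h.c1, h.c2,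
          by rwa [hm.symm]⟩ k2 t2
      exact ⟨i, hi.imp id fun c => ⟨c.1, by omega, c.2.2⟩⟩
    by_cases C' : ∃ s j, t ≤ s ∧ s ≤ b₁ ∧ a₃ ≤ j ∧ j ≤ b₃ ∧ (s < b₁ ∨ a₃ < j) ∧
        d (σ₁ s) (σ₃ j) ≤ k
    · obtain ⟨s, j, k1, k2, k3, k4, k5, k6⟩ := C'
      obtain ⟨i, hi⟩ := ih σ₁ σ₃ σ₃ a₁ s j j j b₃ t (by omega)
        ⟨h.g1.sub le_rfl (by omega) k2, h.g3.sub k3 le_rfl k4, h.g3.sub k3 k4 le_rfl, k6,
          by rw [hm.self]; omega, h.c3⟩ t1 k1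
      exact ⟨i, Or.inr (hi.elim (fun c => ⟨by omega, by omega, c.2.2⟩)
        fun c => ⟨by omega, c.2⟩)⟩
    push Not at A B B' C C'
    have s1 := side hm h (fun i k1 k2 j k3 k4 => (le_total t i).elim
        (fun c => (B i j c k2.le k3 k4 (Or.inl k2)).le) fun c => (B' i j k1.le c k3 k4 (Or.inl k1)).le)
      fun i k1 k2 j k3 k4 => (le_total t i).elim
        (fun c => (C' i j c k2.le k3 k4 (Or.inl k2)).le) fun c => (C i j k1.le c k3 k4 (Or.inl k1)).le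
    have s2 := side hm h.rot (fun i k1 k2 j k3 k4 => (A i j k1.le k2.le k3 k4 (Or.inl k2)).le)
      fun i k1 k2 j k3 k4 => hm.symm _ _ ▸ (le_total t j).elim
        (fun c => (B j i c k4 k1.le k2.le (Or.inr k1)).le)
        fun c => (B' j i k3 c k1.le k2.le (Or.inr k2)).le
    have s3 := side hm h.rot.rot (fun i k1 k2 j k3 k4 => hm.symm _ _ ▸ (le_total t j).elim
        (fun c => (C' j i c k4 k1.le k2.le (Or.inr k1)).le)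
        fun c => (C j i k3 c k1.le k2.le (Or.inr k2)).le)
      fun i k1 k2 j k3 k4 => hm.symm _ _ ▸ (A j i k3 k4 k1.le k2.le (Or.inr k1)).le
    have e1 := h.g1.2 t b₁ t1 t2 le_rfl
    have e2 := hm.tri (σ₁ t) (σ₁ b₁) (σ₂ a₂)
    have e3 := h.c1
    have e4 : b₁ - a₁ ≤ 39 * k + 6 := by
      generalize b₁ - a₁ = l₁ at *
      generalize b₂ - a₂ = l₂ at *
      generalize b₃ - a₃ = l₃ at *
      have : k * (l₁ + l₂ + l₃) ≤ k * (39 * k + 6) := by subst hk; nlinarith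
      have := Nat.le_of_mul_le_mul_left this (by omega)
      omega
    exact ⟨a₂, Or.inl ⟨le_rfl, l2, by omega⟩⟩

end Vale.Agent.P194.H
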