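import Vale.Agent.P194.L2G
import Vale.Agent.P194.Hyp0
import Vale.Agent.P194.RF

/-! A linear isoperimetric inequality implies hyperbolicity. -/

namespace Vale.Agent.P194

namespace H

variable {S G : Type} [Group G] (φ : S → G) (f g : G → ℤ)

/-- the integral of `f dg` along the word `w` read from `u` -/
def Om : G → List S → ℤ
  | _, [] => 0
  | u, s :: w => (f u + f (u * φ s)) * (g (u * φ s) - g u) + Om (u * φ s) w

theorem Om_append (a b : List S) : ∀ u, Om φ f g u (a ++ b) =
    Om φ f g u a + Om φ f g (u * (a.map φ).prod) b := by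
  induction a with
  | nil => simp [Om]
  | cons s a ih => intro u; simp [Om, ih, mul_assoc, add_assoc]

variable {φ f g}

theorem Om_face (hf : ∀ u s, |f (u * φ s) - f u| ≤ 1) (hg : ∀ u s, |g (u * φ s) - g u| ≤ 1)
    (c : ℤ) (w : List S) : ∀ (u : G) (B : ℤ), |f u - c| ≤ B →
    |Om φ f g u w - 2 * c * (g (u * (w.map φ).prod) - g u)| ≤ 2 * (B + w.length) * w.length := by
  induction w with
  | nil => simp [Om]
  | cons s w ih =>
    intro u B hB
    have h1 : |f (u * φ s) - c| ≤ B + 1 := by
      have := abs_sub_le (f (u * φ s)) (f u) c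
      linarith [hf u s]
    have h2 := ih _ _ h1
    have h3 : |(f u - c + (f (u * φ s) - c)) * (g (u * φ s) - g u)| ≤ (B + (B + 1)) * 1 := by
      rw [abs_mul]
      exact mul_le_mul ((abs_add_le _ _).trans (add_le_add hB h1)) (hg u s) (abs_nonneg _)
        (by linarith [abs_nonneg (f u - c)])
    have h4 := (abs_add_le _ _).trans (add_le_add h3 h2)
    simp only [Om, List.map_cons, List.prod_cons, List.length_cons, ← mul_assoc]
    push_cast
    refine le_trans (le_of_eq (congrArg _ (by ring))) (h4.trans ?_)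
    nlinarith [Int.natCast_nonneg w.length]

theorem Om_le {A : List S → ℕ → Prop} {L : ℕ} (h : AreaAx A L) (h2 : ∀ s, φ s * φ s = 1)
    (h1 : ∀ w n, A w n → (w.map φ).prod = 1) (hf : ∀ u s, |f (u * φ s) - f u| ≤ 1)
    (hg : ∀ u s, |g (u * φ s) - g u| ≤ 1) (n : ℕ) :
    ∀ (w : List S) (u : G), A w n → Om φ f g u w ≤ 2 * L * L * n := by
  induction n using Nat.strong_induction_on with
  | _ n ihn =>
  intro w
  induction hl : w.length using Nat.strong_induction_on generalizing w with
  | _ l ihl =>
  intro u hw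
  have ih : ∀ w' n', n' ≤ n → w'.length < l → A w' n' → ∀ u, Om φ f g u w' ≤ 2 * L * L * n' :=
    fun w' n' k1 k2 k3 u => by
      rcases k1.eq_or_lt with rfl | k1
      · exact ihl _ k2 w' rfl u k3
      · exact ihn n' k1 w' u k3
  cases w with
  | nil => simp only [Om]; positivity
  | cons x c =>
    rcases h.first hw with ⟨b, c', n1, n2, rfl, e2, e3, e4⟩ | ⟨r, m, -, e2, e3, e4, e5⟩
    · have i1 := ih b n1 (by omega) (by simp at hl; omega) e3 (u * φ x)
      have i2 := ih c' n2 (by omega) (by simp at hl; omega) e4 u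
      have e5 : (2 * L * L * (n1 + n2 : ℕ) : ℤ) ≤ 2 * L * L * n := by gcongr
      simp only [Om, Om_append, h1 b n1 e3, mul_one, mul_assoc u, h2]
      push_cast at e5
      nlinarith
    · have i1 := ihn m (by omega) _ u e5
      have p1 : (r.map φ).prod = φ x := by
        have := h1 _ _ e4
        rw [List.map_cons, List.prod_cons, ← h2 x] at this
        exact mul_left_cancel this
      have i2 := Om_face hf hg (f u) (r ++ [x]) u 0 (by simp)
      simp only [List.map_append, List.prod_append, p1, List.map_cons, List.map_nil,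
        List.prod_cons, List.prod_nil, mul_one, h2, sub_self, mul_zero, sub_zero, zero_add,
        Om_append, Om, add_zero, mul_assoc u, List.length_append, List.length_singleton] at i2
      rw [Om_append, p1] at i1
      have e6 : ((r.length + 1 : ℕ) : ℤ) ≤ L := by exact_mod_cast e2
      have e7 : (2 * L * L * (m + 1 : ℕ) : ℤ) ≤ 2 * L * L * n := by gcongr
      have e8 : (2 * (r.length + 1 : ℕ) * (r.length + 1 : ℕ) : ℤ) ≤ 2 * L * L := by gcongr
      have e9 := (abs_le.1 (i2.trans e8)).1
      simp only [Om]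
      push_cast at e7
      nlinarith

theorem geo_walk {V : Type} {Γ : SimpleGraph V} (hc : Γ.Connected) {x y : V} (p : Γ.Walk x y)
    (hp : p.length = Γ.dist x y) : Geo Γ.dist p.getVert 0 p.length := by
  have up : ∀ i j, i ≤ j → j ≤ p.length → Γ.dist (p.getVert i) (p.getVert j) ≤ j - i := by
    intro i j hij
    induction j, hij using Nat.le_induction with
    | base => simp
    | succ j hij ih =>
      intro hj
      have h1 := ih (by omega)
      have h2 := SimpleGraph.dist_eq_one_iff_adj.2 (p.adj_getVert_succ (i := j) hj)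
      have h3 := hc.dist_triangle (u := p.getVert i) (v := p.getVert j) (w := p.getVert (j + 1))
      omega
  refine ⟨Nat.zero_le _, fun i j _ k2 k3 => le_antisymm (up i j k2 k3) ?_⟩
  have h1 := up 0 i (Nat.zero_le _) (by omega)
  have h2 := up j p.length k3 le_rfl
  rw [p.getVert_zero] at h1
  rw [p.getVert_length] at h2
  have h3 := hc.dist_triangle (u := x) (v := p.getVert i) (w := y)
  have h4 := hc.dist_triangle (u := p.getVert i) (v := p.getVert j) (w := y)
  omega

end H

open H in
theorem hyp_of_lin : HypStmt := by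
  intro S G _ _ φ A L C h2 hgen h h1 hlin
  set Γ := cayley (Set.range φ) with hΓ
  have inv : ∀ s, (φ s)⁻¹ = φ s := fun s => inv_eq_of_mul_eq_one_right (h2 s)
  have adj : ∀ u v, Γ.Adj u v → ∃ s, v = u * φ s := by
    rintro u v ⟨-, ⟨s, hs⟩ | ⟨s, hs⟩⟩
    · exact ⟨s, by rw [hs, mul_inv_cancel_left]⟩
    · exact ⟨s, by rw [← inv, hs]; group⟩
  have adj' : ∀ u s, u * φ s = u ∨ Γ.Adj u (u * φ s) := fun u s => by
    by_cases c : u * φ s = u
    · exact Or.inl c
    · exact Or.inr ⟨Ne.symm c, Or.inl ⟨s, by group⟩⟩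
  have reach : ∀ g ∈ Subgroup.closure (Set.range φ), ∀ u, Γ.Reachable u (u * g) := by
    intro g hg
    induction hg using Subgroup.closure_induction with
    | mem x hx =>
      obtain ⟨s, rfl⟩ := hx
      exact fun u => (adj' u s).elim (fun c => by rw [c]) fun c => c.reachable
    | one => intro u; rw [mul_one]
    | mul x y _ _ ix iy => intro u; rw [← mul_assoc]; exact (ix u).trans (iy _)
    | inv x _ ix => intro u; simpa using (ix (u * x⁻¹)).symm
  have hc : Γ.Connected := ⟨fun u v => by simpa using reach (u⁻¹ * v) (hgen ▸ trivial) u⟩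
  have lip : ∀ f : G → ℤ, (∀ u v, Γ.dist u v = 1 → f u ≤ f v + 1) →
      ∀ u s, |f (u * φ s) - f u| ≤ 1 := fun f hf u s => by
    rcases adj' u s with c | c
    · simp [c]
    · have k1 := hf _ _ (SimpleGraph.dist_eq_one_iff_adj.2 c)
      have k2 := hf _ _ (SimpleGraph.dist_eq_one_iff_adj.2 c.symm)
      exact abs_le.2 ⟨by linarith, by linarith⟩
  have hm : Met Γ.dist (2 * L * L * C) := by
    refine ⟨fun u => SimpleGraph.dist_self, fun u v => SimpleGraph.dist_comm,
      fun u v w => hc.dist_triangle, fun u v => ?_, fun f g hf hg => ?_⟩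
    · obtain ⟨p, hp⟩ := hc.exists_walk_length_eq_dist u v
      exact ⟨p.getVert, p.getVert_zero, hp ▸ p.getVert_length, hp ▸ geo_walk hc p hp⟩
    · refine ⟨fun u v n I => ∃ w : List S, u * (w.map φ).prod = v ∧ w.length = n ∧
        Om φ f g u w = I, fun u => ⟨[], by simp, rfl, rfl⟩, fun u v e => ?_, ?_, ?_⟩
      · obtain ⟨s, rfl⟩ := adj u v (SimpleGraph.dist_eq_one_iff_adj.1 e)
        exact ⟨[s], by simp, rfl, by simp [Om]⟩
      · rintro u v w n m I J ⟨a, rfl, rfl, rfl⟩ ⟨b, rfl, rfl, rfl⟩
        exact ⟨a ++ b, by simp [mul_assoc], by simp, Om_append _ _ _ _ _ _⟩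
      · rintro u n I ⟨w, e, rfl, rfl⟩
        obtain ⟨a, ha⟩ := (h1 w).1 (by simpa using e)
        obtain ⟨b, -, hb⟩ := B.exists_area ha
        refine (Om_le h h2 (fun w n k => (h1 w).2 ⟨n, k⟩) (lip f hf) (lip g hg) b w u hb.1).trans ?_
        have : (b : ℤ) ≤ C * w.length := by exact_mod_cast hlin w b hb
        push_cast
        rw [mul_assoc _ (C : ℤ)]
        gcongr
  refine ⟨Set.range φ, Set.finite_range φ, hgen, 40 * (6 * (2 * L * L * C) + 1) + 6,
    fun x y z p q r hp hq hr u hu => ?_⟩
  obtain ⟨t, rfl, ht⟩ := SimpleGraph.Walk.mem_support_iff_exists_getVert.1 hu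
  obtain ⟨j, hj⟩ := thin hm rfl _ p.getVert q.getVert r.getVert 0 p.length 0 q.length 0 r.length t
    (Nat.lt_succ_self _) ⟨geo_walk hc p hp, geo_walk hc q hq, geo_walk hc r hr, by simp, by simp,
      by simp⟩ (Nat.zero_le _) ht
  rcases hj with c | c
  · exact ⟨_, Or.inl (q.getVert_mem_support j), c.2.2⟩
  · exact ⟨_, Or.inr (r.getVert_mem_support j), c.2.2⟩

end Vale.Agent.P194
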