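import Vale.Agent.P194.L2G0

/-! The local-to-global principle for the linear isoperimetric inequality. -/

namespace Vale.Agent.P194

namespace B

variable {S : Type} {A : List S → ℕ → Prop} {L : ℕ} {w : List S} {N B a : ℕ} {es : List (Ent S)}

/-- number of core letters whose corner path is long -/
def far (B : ℕ) (es : List (Ent S)) : ℕ := es.countP fun e => e.y.isSome ∧ B < e.t.length

theorem far_append (x y : List (Ent S)) : far B (x ++ y) = far B x + far B y := by simp [far]

theorem far_cons_le (e : Ent S) (y : List (Ent S)) : far B y ≤ far B (e :: y) :=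
  List.Sublist.countP_le (List.sublist_cons_self _ _)

theorem far_none (ω t : List S) (p : ℕ) (y : List (Ent S)) :
    far B (⟨none, ω, t, p⟩ :: y) = far B y := by simp [far]

theorem far_eq (k : ∀ e ∈ es, e.y.isSome → B < e.t.length) : far B es = (word es).length := by
  induction es with
  | nil => rfl
  | cons e es ih =>
    have h1 := ih fun e he => k e (List.mem_cons_of_mem _ he)
    have h2 := k e List.mem_cons_self
    rcases e with ⟨_ | y, _, _, _⟩ <;> simp_all [far]

theorem Pre.norm (h : AreaAx A L) {ω t : List S} {p : ℕ} (k : Pre A w N B (⟨none, ω, t, p⟩ :: es) a)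
    (hs : Small N es) (hp : 8 * p ≤ 7 * N) :
    Cut A w N (2 * B) ∨ Small N (⟨none, ω, t, p⟩ :: es) := by
  by_cases c : 8 * p < N
  · exact Or.inr (List.forall_mem_cons.2 ⟨c, hs⟩)
  · left
    simpa using Pre.cut h (x := [⟨none, ω, t, p⟩]) k (by simpa using c) (by simpa using hp)

theorem layer (h : AreaAx A L) (hN : 2 ≤ N) (T μ : ℕ) : ∀ (es : List (Ent S)) (a : ℕ),
    L * a + (word es).length < μ → Pre A w N (B + L) es a → Small N es → far B es + L * a ≤ T →
    Cut A w N (2 * (B + L)) ∨ ∃ es' a', Pre A w N (B + L) es' a' ∧ Small N es' ∧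
      (word es').length + L * a' ≤ T := by
  induction μ with
  | zero => intro es a k; omega
  | succ μ ih =>
    intro es a hμ k hs hT
    by_cases c : ∀ e ∈ es, e.y.isSome → B < e.t.length
    · exact Or.inr ⟨es, a, k, hs, by rwa [← far_eq c]⟩
    push Not at c
    obtain ⟨e, he, he1, he2⟩ := c
    obtain ⟨x, y, rfl⟩ := List.append_of_mem he
    obtain ⟨z, hz⟩ := Option.isSome_iff_exists.1 he1
    have k' : Pre A w N (B + L) (e :: (y ++ x)) a := k.rot h
    obtain ⟨rest, hr⟩ : ∃ rest, rest = y ++ x := ⟨_, rfl⟩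
    have s0 : 8 * e.p < N := hs e he
    have s1 : Small N rest := fun e he => hs e (by rw [hr] at he; simp at he ⊢; tauto)
    have t1 : far B rest + L * a ≤ T := by
      have := far_cons_le (B := B) e y
      rw [far_append] at hT
      rw [hr, far_append]
      omega
    have m1 : L * a + (word rest).length < μ := by
      simp [hr, hz] at hμ ⊢
      omega
    rw [← hr] at k'
    clear hr hT hμ hs k he
    have core := k'.core
    rw [word_cons, hz] at core
    rcases h.first core with ⟨b, c', n1, n2, e1, e2, e3, e4⟩ | ⟨r, m, -, e2, e3, e4, e5⟩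
    · obtain ⟨eb, l2, rfl, rfl, e6⟩ := List.filterMap_eq_append_iff.1 e1
      obtain ⟨l1, e', ec, rfl, e7, e8, rfl⟩ := List.filterMap_eq_cons_iff.1 e6
      have w1 : word l1 = [] := List.filterMap_eq_nil_iff.2 e7
      change A (word eb) n1 at e3
      change A (word ec) n2 at e4
      have tot := k'.tot
      have s2 : 8 * e'.p < N := s1 e' (by simp)
      have sb : Small N (eb ++ l1) := fun e he => s1 e (by simp at he ⊢; tauto)
      have sc : Small N ec := fun e he => s1 e (by simp [he])
      have fb : far B (eb ++ l1) + far B ec + L * a ≤ T := by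
        have := far_cons_le (B := B) e' ec
        simp only [far_append] at t1 ⊢
        omega
      have l1' : L * n1 ≤ L * a := Nat.mul_le_mul_left _ (by omega)
      have l2' : L * n2 ≤ L * a := Nat.mul_le_mul_left _ (by omega)
      simp only [wt_cons, wt_append, word_append, word_cons, List.length_append] at tot m1
      by_cases hb : N ≤ 8 * (n1 + wt (eb ++ l1))
      · have k2 : Pre A w N (B + L) ((e' :: ec ++ [e]) ++ (eb ++ l1)) a := by
          simpa using Pre.rot h (x := e :: (eb ++ l1)) (y := e' :: ec) (by simpa using k')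
        obtain ⟨t, k3⟩ := k2.collapse h (n := n2) (n' := n1)
          (by simpa [hz, e8] using h.ins (a := [z]) (c := [z]) e4 (h.dbl z))
          (by simpa [w1] using e3) (by omega)
        rcases k3.norm h sb (by simp at hb ⊢; omega) with c | c
        · exact Or.inl c
        · exact ih _ _ (by simp; omega) k3 c (by rw [far_none]; omega)
      · have k2 : Pre A w N (B + L) ((e :: (eb ++ l1) ++ [e']) ++ ec) a := by simpa using k'
        obtain ⟨t, k3⟩ := k2.collapse h (n := n1) (n' := n2)
          (by simpa [hz, e8, w1] using h.ins (a := [z]) (c := [z]) e3 (h.dbl z)) e4 (by omega)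
        rcases k3.norm h sc (by simp at hb ⊢; omega) with c | c
        · exact Or.inl c
        · exact ih _ _ (by simp; omega) k3 c (by rw [far_none]; omega)
    · have k3 := k'.face h hz (by omega) e4 e5 e3
      obtain ⟨-, f2, -, -, f5, f6⟩ := fan_spec h (B := B + L) e.t r (by omega)
      have l1' : L * (m + 1) ≤ L * a := Nat.mul_le_mul_left _ e3
      have f7 : far B (fan e.t r) ≤ r.length := f5 ▸ List.countP_le_length
      rw [Nat.mul_succ] at l1'
      rcases k3.norm h (fun e he => (List.mem_append.1 he).elim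
        (fun c => by rw [f6 e c]; omega) (s1 e)) (by omega) with c | c
      · exact Or.inl c
      · exact ih _ _ (by simp [f2]; omega) k3 c (by rw [far_none, far_append]; omega)

theorem init (h : AreaAx A L) (hw : A w N) (hN : 1 ≤ N) :
    ∃ es, Pre A w N 0 es N ∧ Small N es := by
  have key : ∀ u : List S, Ch A 0 [] (u.map fun x => (⟨some x, [x], [], 0⟩ : Ent S)) [] ∧
      word (u.map fun x => (⟨some x, [x], [], 0⟩ : Ent S)) = u ∧
      om (u.map fun x => (⟨some x, [x], [], 0⟩ : Ent S)) = u ∧
      wt (u.map fun x => (⟨some x, [x], [], 0⟩ : Ent S)) = 0 := fun u => by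
    induction u with
    | nil => simp [Ch]
    | cons x u ih =>
      obtain ⟨i1, i2, i3, i4⟩ := ih
      exact ⟨⟨le_rfl, R.refl h [x], i1⟩, by simp [i2], by simp [i3], by simp [i4]⟩
  obtain ⟨i1, i2, i3, i4⟩ := key w
  refine ⟨_, ⟨⟨_, i1⟩, by rwa [i2], by omega, by simp [i3], by rw [i3]⟩, fun e he => ?_⟩
  obtain ⟨x, -, rfl⟩ := List.mem_map.1 he
  exact hN

theorem peel (h : AreaAx A L) (hw : A w N) (hN : 2 ≤ N) {m : ℕ} (hm : N < m * m) :
    Cut A w N (2 * (m * L)) ∨ ∃ es a, Pre A w N (m * L) es a ∧ Small N es ∧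
      (word es).length ≤ m * L ∧ (word es).length + L * a ≤ L * N := by
  have key : ∀ j ≤ m, (Cut A w N (2 * (m * L)) ∨ ∃ es a, Pre A w N (m * L) es a ∧ Small N es ∧
      (word es).length ≤ m * L ∧ (word es).length + L * a ≤ L * N) ∨
      ∃ es a, Pre A w N (j * L) es a ∧ Small N es ∧ a + j * m ≤ N := by
    intro j
    induction j with
    | zero =>
      obtain ⟨es, k1, k2⟩ := init h hw (by omega)
      exact fun _ => Or.inr ⟨es, N, by simpa using k1, k2, by simp⟩
    | succ j ih =>
      intro hj
      rcases ih (by omega) with c | ⟨es, a, k1, k2, k3⟩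
      · exact Or.inl c
      have hB : j * L + L ≤ m * L := by rw [← Nat.succ_mul]; exact Nat.mul_le_mul_right _ hj
      have f0 : far (j * L) es = 0 := by
        obtain ⟨s, hs⟩ := k1.ch
        exact List.countP_eq_zero.2 fun e he => by simpa using fun _ => hs.end_le e he
      rcases layer h hN (L * a) _ es a (Nat.lt_succ_self _) (k1.mono (Nat.le_add_right _ L)) k2
        (by rw [f0, zero_add]) with c | ⟨es', a', g1, g2, g3⟩
      · exact Or.inl (Or.inl (c.mono (by omega)))
      by_cases c : (word es').length ≤ m * L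
      · exact Or.inl (Or.inr ⟨es', a', g1.mono hB, g2, c,
          g3.trans (Nat.mul_le_mul_left _ (by omega))⟩)
      · refine Or.inr ⟨es', a', by rwa [Nat.succ_mul], g2, ?_⟩
        have : L * (a' + m) < L * a := by rw [mul_add, mul_comm L m]; omega
        have := Nat.lt_of_mul_lt_mul_left this
        rw [Nat.succ_mul]
        omega
  rcases key m le_rfl with c | ⟨es, a, -, -, k3⟩
  · exact c
  · omega

theorem exists_prefix (hs : Small N es) : ∀ c, 8 * c < N → N ≤ 8 * (c + wt es) →
    ∃ x y, es = x ++ y ∧ N ≤ 8 * (c + wt x) ∧ 8 * (c + wt x) ≤ 2 * N := by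
  induction es with
  | nil => intro c h1 h2; simp at h2; omega
  | cons e es ih =>
    intro c h1 h2
    have s0 := hs e List.mem_cons_self
    by_cases k : 8 * (c + e.p) < N
    · obtain ⟨x, y, rfl, g1, g2⟩ := ih (fun e he => hs e (List.mem_cons_of_mem _ he)) (c + e.p) k
        (by simpa [add_assoc] using h2)
      exact ⟨e :: x, y, rfl, by simpa [add_assoc] using g1, by simpa [add_assoc] using g2⟩
    · exact ⟨[e], es, rfl, by simpa using k, by simp; omega⟩

theorem exists_area {u : List S} (k : A u a) : ∃ b ≤ a, IsArea A u b := by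
  classical
  exact ⟨Nat.find ⟨a, k⟩, Nat.find_min' _ k, Nat.find_spec (⟨a, k⟩ : ∃ n, A u n),
    fun m hm => Nat.find_min' _ hm⟩

theorem cut_or (h : AreaAx A L) (hw : IsArea A w N) (hN : 2 ≤ N) {m : ℕ}
    (hm : N < m * m) : Cut A w N (3 * (m * L)) ∨
      ∃ v b, IsArea A v b ∧ b < N ∧ 7 * N < 8 * b ∧ v.length ≤ m * L := by
  rcases peel h hw.1 hN hm with c | ⟨es, a, k1, k2, k3, k4⟩
  · exact Or.inl (c.mono (by omega))
  by_cases c : N ≤ 8 * wt es
  · obtain ⟨x, y, rfl, g1, g2⟩ := exists_prefix k2 0 (by omega) (by simpa using c)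
    simp only [word_append, List.length_append] at k3
    exact Or.inl ((k1.cut h (by omega) (by omega)).mono (by omega))
  · obtain ⟨b, b1, b2⟩ := exists_area k1.core
    have := hw.2 _ (k1.fill h b2.1)
    refine Or.inr ⟨_, b, b2, ?_, by omega, k3⟩
    by_contra c'
    have h1 : L * N ≤ L * a := Nat.mul_le_mul_left _ (by omega)
    have h2 : word es = [] := List.length_eq_zero_iff.1 (by omega)
    have := b2.2 0 (h2 ▸ h.nil)
    omega

end B

open B in
theorem l2g : L2GStmt := by
  intro q
  refine ⟨8 * (200 * q + 1) ^ 2, fun S A L hL h hq => ?_⟩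
  have key : ∀ n w, IsArea A w n → (200 * q + 1) ^ 2 ≤ n →
      (L * n + 200 * q * L * √n : ℝ) ≤ 2 * q * w.length := by
    intro n
    induction n using Nat.strong_induction_on with
    | _ n ih =>
    intro w hw hn
    have L1 : (1 : ℝ) ≤ L := by exact_mod_cast hL
    have q0 : (0 : ℝ) ≤ q := q.cast_nonneg
    have s0 := Real.sqrt_nonneg (n : ℝ)
    have s1 : √(n : ℝ) * √n = n := Real.mul_self_sqrt n.cast_nonneg
    by_cases c : n ≤ 8 * (200 * q + 1) ^ 2
    · have h1 : (L * n : ℝ) ≤ q * w.length := by exact_mod_cast hq w n hw c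
      have h2 : (200 * q + 1 : ℝ) ≤ √n := Real.le_sqrt_of_sq_le (by exact_mod_cast hn)
      have h3 : 200 * q * √(n : ℝ) ≤ n := by nlinarith
      nlinarith
    have n8 : 8 < n := by
      have : 1 ≤ (200 * q + 1) ^ 2 := Nat.one_le_pow _ _ (by omega)
      omega
    have m1 : ((n.sqrt + 1 : ℕ) : ℝ) ≤ 3 / 2 * √n := by
      have h1 : (n.sqrt : ℝ) ≤ √n := Real.nat_sqrt_le_real_sqrt
      have h2 : (2 : ℝ) ≤ √n := Real.le_sqrt_of_sq_le (by exact_mod_cast (by omega : 2 ^ 2 ≤ n))
      push_cast
      linarith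
    rcases cut_or h hw (by omega) (Nat.lt_succ_sqrt n) with
      ⟨u1, u2, a1, a2, k1, k2, k3, k4, k5, k6, k7⟩ | ⟨v, b, k1, k2, k3, k4⟩
    · obtain ⟨b1, c1, d1⟩ := exists_area k1
      obtain ⟨b2, c2, d2⟩ := exists_area k2
      have e := hw.2 _ (k7 _ _ d1.1 d2.1)
      have i1 := ih b1 (by omega) u1 d1 (by omega)
      have i2 := ih b2 (by omega) u2 d2 (by omega)
      have g1 : (n : ℝ) ≤ 8 * b1 := by exact_mod_cast (by omega : n ≤ 8 * b1)
      have g2 : (n : ℝ) ≤ 8 * b2 := by exact_mod_cast (by omega : n ≤ 8 * b2)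
      have g3 : (n : ℝ) ≤ b1 + b2 := by exact_mod_cast e
      have g4 : (u1.length + u2.length : ℝ) ≤ w.length + 2 * (3 * ((n.sqrt + 1 : ℕ) * L)) := by
        exact_mod_cast k6
      have r1 := Real.sqrt_nonneg (b1 : ℝ)
      have r2 := Real.sqrt_nonneg (b2 : ℝ)
      have t1 : √(b1 : ℝ) * √b1 = b1 := Real.mul_self_sqrt b1.cast_nonneg
      have t2 : √(b2 : ℝ) * √b2 = b2 := Real.mul_self_sqrt b2.cast_nonneg
      have t3 : (n : ℝ) / 8 ≤ √b1 * √b2 := by
        rw [← Real.sqrt_mul b1.cast_nonneg]
        exact Real.le_sqrt_of_sq_le (by nlinarith)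
      have t4 : 109 / 100 * √(n : ℝ) ≤ √b1 + √b2 :=
        abs_le_of_sq_le_sq' (by nlinarith) (by positivity) |>.2
      have qL : 0 ≤ (q : ℝ) * L := by positivity
      have u1' := mul_le_mul_of_nonneg_left g4 q0
      have u2' := mul_le_mul_of_nonneg_left t4 qL
      have u3' := mul_le_mul_of_nonneg_left m1 qL
      have u4' := mul_le_mul_of_nonneg_left g3 (zero_le_one.trans L1)
      nlinarith
    · exfalso
      have i1 := ih b k2 v k1 (by omega)
      have g1 : (7 * n : ℝ) < 8 * b := by exact_mod_cast k3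
      have g2 : (v.length : ℝ) ≤ (n.sqrt + 1 : ℕ) * L := by exact_mod_cast k4
      have g3 : √(n : ℝ) / 2 ≤ √b := Real.le_sqrt_of_sq_le (by nlinarith)
      have qL : 0 ≤ (q : ℝ) * L := by positivity
      have u1' := mul_le_mul_of_nonneg_left g2 q0
      have u2' := mul_le_mul_of_nonneg_left g3 qL
      have u3' := mul_le_mul_of_nonneg_left m1 qL
      have u4' : (0 : ℝ) < L * b := mul_pos (by linarith) (by linarith [n.cast_nonneg (α := ℝ)])
      nlinarith [mul_nonneg qL s0]
  intro w n hw
  by_cases c : (200 * q + 1) ^ 2 ≤ n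
  · have h1 := key n w hw c
    have h2 : (0 : ℝ) ≤ 200 * q * L * √n := by positivity
    have : (L * n : ℝ) ≤ 2 * q * w.length := by linarith
    exact_mod_cast this
  · have := hq w n hw (by omega)
    nlinarith

end Vale.Agent.P194
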