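import Vale.Agent.P194.Defs

/-! Peeling a filling from its boundary: pockets, cores and cuts. -/

namespace Vale.Agent.P194.B

variable {S : Type} {A : List S → ℕ → Prop} {L : ℕ}

theorem canc_word (h : AreaAx A L) (g : List S) :
    ∀ (a c : List S) (n : ℕ), A (a ++ (g ++ (g.reverse ++ c))) n → A (a ++ c) n := by
  induction g with
  | nil => intro a c n k; simpa using k
  | cons x g ih =>
    intro a c n k
    refine h.canc (x := x) ?_
    have := ih (a ++ [x]) (x :: c) n (by simpa using k)
    simpa using this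

theorem triv (h : AreaAx A L) (g : List S) : A (g ++ g.reverse) 0 := by
  induction g with
  | nil => simpa using h.nil
  | cons x g ih => simpa using h.ins (a := [x]) (c := [x]) ih (h.dbl x)

theorem glue (h : AreaAx A L) {a g b : List S} {n m : ℕ} (h1 : A (a ++ g) n)
    (h2 : A (g.reverse ++ b) m) : A (a ++ b) (n + m) :=
  canc_word h g a b _ (by simpa using h.ins (a := []) h1 h2)

/-- `u` and `v` are homotopic through at most `n` faces -/
def R (A : List S → ℕ → Prop) (u v : List S) (n : ℕ) : Prop := A (u ++ v.reverse) n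

theorem R.refl (h : AreaAx A L) (u : List S) : R A u u 0 := triv h u

theorem R.trans (h : AreaAx A L) {u v t : List S} {n m : ℕ} (h1 : R A u v n) (h2 : R A v t m) :
    R A u t (n + m) :=
  glue h h1 (by rw [List.reverse_reverse]; exact h2)

theorem R.app (h : AreaAx A L) {u v u' v' : List S} {n m : ℕ} (h1 : R A u v n)
    (h2 : R A u' v' m) : R A (u ++ u') (v ++ v') (m + n) := by
  have := h.ins h2 h1
  simpa [R] using this

theorem R.of (u : List S) {n : ℕ} (k : A u n) : R A u [] n := by simpa [R] using k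

/-- a pocket between the boundary and the core -/
structure Ent (S : Type) where
  y : Option S
  ω : List S
  t : List S
  p : ℕ

/-- boundary word of the core -/
def word (es : List (Ent S)) : List S := es.filterMap (·.y)

/-- outer boundary word -/
def om (es : List (Ent S)) : List S := es.flatMap (·.ω)

/-- total area of the pockets -/
def wt (es : List (Ent S)) : ℕ := (es.map (·.p)).sum

@[simp] theorem word_nil : word ([] : List (Ent S)) = [] := rfl
@[simp] theorem om_nil : om ([] : List (Ent S)) = [] := rfl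
@[simp] theorem wt_nil : wt ([] : List (Ent S)) = 0 := rfl
@[simp] theorem word_cons (e : Ent S) (es : List (Ent S)) :
    word (e :: es) = e.y.toList ++ word es := by
  rcases e with ⟨_ | y, _, _, _⟩ <;> simp [word]
@[simp] theorem om_cons (e : Ent S) (es : List (Ent S)) : om (e :: es) = e.ω ++ om es := by
  simp [om]
@[simp] theorem wt_cons (e : Ent S) (es : List (Ent S)) : wt (e :: es) = e.p + wt es := by
  simp [wt]
@[simp] theorem word_append (a b : List (Ent S)) : word (a ++ b) = word a ++ word b := by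
  simp [word]
@[simp] theorem om_append (a b : List (Ent S)) : om (a ++ b) = om a ++ om b := by simp [om]
@[simp] theorem wt_append (a b : List (Ent S)) : wt (a ++ b) = wt a + wt b := by simp [wt]

/-- consecutive pockets from the corner path `s` to the corner path `t` -/
def Ch (A : List S → ℕ → Prop) (B : ℕ) : List S → List (Ent S) → List S → Prop
  | s, [], t => s = t ∧ s.length ≤ B
  | s, e :: es, t => s.length ≤ B ∧ R A (e.ω ++ e.t) (s ++ e.y.toList) e.p ∧ Ch A B e.t es t

theorem Ch.left {B : ℕ} {s t : List S} {es : List (Ent S)} (k : Ch A B s es t) : s.length ≤ B := by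
  cases es with
  | nil => exact k.2
  | cons e es => exact k.1

theorem Ch.split {B : ℕ} {a b : List (Ent S)} : ∀ {s t : List S}, Ch A B s (a ++ b) t →
    ∃ m, Ch A B s a m ∧ Ch A B m b t := by
  induction a with
  | nil => exact fun {s t} k => ⟨s, ⟨rfl, k.left⟩, k⟩
  | cons e a ih =>
    intro s t k
    obtain ⟨m, k1, k2⟩ := ih k.2.2
    exact ⟨m, ⟨k.1, k.2.1, k1⟩, k2⟩

theorem Ch.join {B : ℕ} {a b : List (Ent S)} : ∀ {s m t : List S}, Ch A B s a m → Ch A B m b t →
    Ch A B s (a ++ b) t := by
  induction a with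
  | nil => intro s m t k1 k2; rw [k1.1]; exact k2
  | cons e a ih => exact fun k1 k2 => ⟨k1.1, k1.2.1, ih k1.2.2 k2⟩

theorem Ch.mono {B B' : ℕ} (hB : B ≤ B') {es : List (Ent S)} : ∀ {s t : List S}, Ch A B s es t →
    Ch A B' s es t := by
  induction es with
  | nil => exact fun k => ⟨k.1, k.2.trans hB⟩
  | cons e a ih => exact fun k => ⟨k.1.trans hB, k.2.1, ih k.2.2⟩

theorem Ch.end_le {B : ℕ} {es : List (Ent S)} : ∀ {s t : List S}, Ch A B s es t →
    ∀ e ∈ es, e.t.length ≤ B := by
  induction es with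
  | nil => simp
  | cons e a ih =>
    intro s t k e' he'
    rcases List.mem_cons.1 he' with rfl | c
    · exact k.2.2.left
    · exact ih k.2.2 e' c

theorem Ch.merge (h : AreaAx A L) {B : ℕ} {es : List (Ent S)} : ∀ {s t : List S}, Ch A B s es t →
    R A (om es ++ t) (s ++ word es) (wt es) := by
  induction es with
  | nil => intro s t k; rw [k.1]; simpa using R.refl h t
  | cons e a ih =>
    intro s t k
    have h1 := (R.refl h e.ω).app h (ih k.2.2)
    have h2 := k.2.1.app h (R.refl h (word a))
    rw [List.append_assoc] at h2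
    have := h1.trans h h2
    simpa [Nat.add_comm] using this

/-- the letters of a new face, seen from the corner path `t` -/
def fan (t : List S) : List S → List (Ent S)
  | [] => []
  | z :: r => ⟨some z, [], t ++ r.reverse, 0⟩ :: fan t r

theorem fan_spec (h : AreaAx A L) {B : ℕ} (t r : List S) (hB : t.length + r.length ≤ B) :
    Ch A B (t ++ r.reverse) (fan t r) t ∧ word (fan t r) = r ∧ om (fan t r) = [] ∧
      wt (fan t r) = 0 ∧ (fan t r).length = r.length ∧ ∀ e ∈ fan t r, e.p = 0 := by
  induction r with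
  | nil => simpa [fan, Ch] using hB
  | cons z r ih =>
    obtain ⟨i1, i2, i3, i4, i5, i6⟩ := ih (by simp at hB; omega)
    refine ⟨⟨by simpa using hB, ?_, i1⟩, by simp [fan, i2], by simp [fan, i3], by simp [fan, i4],
      by simp [fan, i5], by simpa [fan] using i6⟩
    have := (R.refl h (t ++ r.reverse)).app h (show R A [] [z, z] 0 by simpa [R] using h.dbl z)
    simpa using this

variable (A) (w : List S) (N : ℕ)

/-- a decomposition of a filling of `w` into a core and pockets -/
structure Pre (B : ℕ) (es : List (Ent S)) (a : ℕ) : Prop where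
  ch : ∃ s, Ch A B s es s
  core : A (word es) a
  tot : a + wt es ≤ N
  eqv : ∀ n, A (om es) n → A w n
  len : (om es).length ≤ w.length

/-- a balanced cut of length at most `l` -/
def Cut (l : ℕ) : Prop := ∃ u1 u2 a1 a2, A u1 a1 ∧ A u2 a2 ∧ a1 + a2 ≤ N ∧ 8 * a1 ≤ 7 * N ∧
  8 * a2 ≤ 7 * N ∧ u1.length + u2.length ≤ w.length + 2 * l ∧
  ∀ b1 b2, A u1 b1 → A u2 b2 → A w (b1 + b2)

/-- all pockets are small -/
def Small (es : List (Ent S)) : Prop := ∀ e ∈ es, 8 * e.p < N

variable {A w N} {B a : ℕ} {es : List (Ent S)}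

theorem Cut.mono {l l' : ℕ} (k : Cut A w N l) (hl : l ≤ l') : Cut A w N l' := by
  obtain ⟨u1, u2, a1, a2, k1, k2, k3, k4, k5, k6, k7⟩ := k
  exact ⟨u1, u2, a1, a2, k1, k2, k3, k4, k5, by omega, k7⟩

theorem Pre.mono {B' : ℕ} (k : Pre A w N B es a) (hB : B ≤ B') : Pre A w N B' es a :=
  ⟨k.ch.imp fun _ c => c.mono hB, k.core, k.tot, k.eqv, k.len⟩

theorem Pre.rot (h : AreaAx A L) {x y : List (Ent S)} (k : Pre A w N B (x ++ y) a) :
    Pre A w N B (y ++ x) a := by
  obtain ⟨⟨s, k1⟩, k2, k3, k4, k5⟩ := k
  obtain ⟨m, c1, c2⟩ := k1.split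
  simp only [word_append, om_append, wt_append, List.length_append] at *
  exact ⟨⟨m, c2.join c1⟩, by simpa using h.rot k2, by simp; omega,
    fun n hn => k4 n (h.rot (by simpa using hn)), by simp; omega⟩

theorem Pre.fill (h : AreaAx A L) (k : Pre A w N B es a) {b : ℕ} (hb : A (word es) b) :
    A w (wt es + b) := by
  obtain ⟨s, k1⟩ := k.ch
  have h1 := (k1.merge h).trans h ((R.refl h s).app h (R.of _ hb))
  refine k.eqv _ ?_
  have := canc_word h s (om es) [] _ (by simpa [R] using h1)
  simpa using this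

theorem Pre.cut (h : AreaAx A L) {x y : List (Ent S)} (k : Pre A w N B (x ++ y) a)
    (h1 : N ≤ 8 * wt x) (h2 : 8 * wt x ≤ 7 * N) : Cut A w N (2 * B + (word x).length) := by
  obtain ⟨⟨s, k1⟩, k2, k3, k4, k5⟩ := k
  obtain ⟨m, c1, c2⟩ := k1.split
  simp only [word_append, om_append, wt_append, List.length_append] at *
  have e1 := c1.merge h
  have e2 := ((c2.merge h).app h (R.refl h (word x))).trans h
    (by simpa using (R.refl h m).app h (R.of _ (h.rot k2)))
  have l1 := c1.left
  have l2 := c2.left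
  refine ⟨om x ++ (m ++ (s ++ word x).reverse), (m ++ (s ++ word x).reverse).reverse ++ om y,
    wt x, 0 + wt y + a, by simpa [R] using e1, h.rot (by simpa [R] using e2), by omega, h2,
    by omega, by simp; omega, fun b1 b2 g1 g2 => k4 _ (glue h g1 g2)⟩

theorem Pre.collapse (h : AreaAx A L) {x y : List (Ent S)} (k : Pre A w N B (x ++ y) a)
    {n n' : ℕ} (h1 : A (word x) n) (h2 : A (word y) n') (h3 : n + n' ≤ a) :
    ∃ t, Pre A w N B (⟨none, om x, t, wt x + n⟩ :: y) n' := by
  obtain ⟨⟨s, k1⟩, -, k3, k4, k5⟩ := k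
  obtain ⟨m, c1, c2⟩ := k1.split
  simp only [om_append, wt_append] at *
  refine ⟨m, ⟨s, c1.left, ?_, c2⟩, by simpa using h2, by simp; omega, by simpa using k4,
    by simpa using k5⟩
  simpa using (c1.merge h).trans h ((R.refl h s).app h (R.of _ h1))

theorem Pre.face (h : AreaAx A L) {e : Ent S} {x : S} {r : List S} {m : ℕ}
    (k : Pre A w N B (e :: es) a) (he : e.y = some x) (hB : e.t.length + r.length ≤ B)
    (h1 : A (x :: r) 1) (h2 : A (r ++ word es) m) (h3 : m + 1 ≤ a) :
    Pre A w N B (⟨none, e.ω, e.t ++ r.reverse, e.p + 1⟩ :: (fan e.t r ++ es)) m := by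
  obtain ⟨⟨s, c1, c2, c3⟩, -, k3, k4, k5⟩ := k
  obtain ⟨f1, f2, f3, f4, -⟩ := fan_spec h e.t r hB
  simp only [om_cons, wt_cons] at *
  refine ⟨⟨s, c1, ?_, f1.join c3⟩, by simpa [f2] using h2, by simp [f4]; omega,
    by simpa [f3] using k4, by simpa [f3] using k5⟩
  have e1 := c2.app h (R.refl h r.reverse)
  have e2 : A (x :: r.reverse) 1 := h.rot (a := r.reverse) (b := [x]) (by simpa using h.rev h1)
  rw [he] at e1
  have := e1.trans h (by simpa using (R.refl h s).app h (R.of _ e2))
  simpa using this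

end Vale.Agent.P194.B
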