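import Vale.Agent.P194.Stm

namespace Vale.Agent.P194

open Finset

variable {S V : Type} {π : S → V → V} {c0 : V} {T B R h : ℕ} {cl : ℕ → S} {tl : ℕ → V}
  {nx μ : ℕ → ℕ}

/-- the edge of a dart -/
def ed (tl : ℕ → V) (nx : ℕ → ℕ) (j : ℕ) : Sym2 V := s(tl j, tl (nx j))

theorem ed_iff {j j' : ℕ} : ed tl nx j = ed tl nx j' ↔
    (tl j = tl j' ∧ tl (nx j) = tl (nx j')) ∨ (tl j = tl (nx j') ∧ tl (nx j) = tl j') :=
  Sym2.eq_iff

theorem se_iff {j j' : ℕ} : SE nx (rep tl) j j' ↔ ed tl nx j = ed tl nx j' := by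
  rw [ed_iff, SE, rep_eq, rep_eq, rep_eq, rep_eq]

theorem rep_rep {α : Type} (f : ℕ → α) (i : ℕ) : rep f (rep f i) = rep f i :=
  (rep_eq f _ _).2 (rep_tl f i)

open Classical in
/-- multiplicity of an edge -/
noncomputable def mul (T : ℕ) (tl : ℕ → V) (nx : ℕ → ℕ) (e : Sym2 V) : ℕ :=
  ((range T).filter (fun j => ed tl nx j = e)).card

open Classical in
/-- corners that are used -/
noncomputable def crn (T : ℕ) (nx : ℕ → ℕ) : Finset ℕ :=
  (range (T + 1)).filter (fun i => i < T ∨ ∃ j < T, nx j = T)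

open Classical in
/-- multiplicity of a vertex -/
noncomputable def cnt (T : ℕ) (tl : ℕ → V) (nx : ℕ → ℕ) (v : V) : ℕ :=
  ((crn T nx).filter (fun i => tl i = v)).card

theorem Cfg.ed_col (c : Cfg π c0 T B R cl tl nx μ) (hπ : Invo π) (hh : 1 ≤ h)
    (hg : Girth π (2 * h)) {j j' : ℕ} (a : j < T) (b : j' < T)
    (e : ed tl nx j = ed tl nx j') : cl j = cl j' :=
  c.drawn.se_col hπ hg (by omega) a b (se_iff.2 e)

theorem Cfg.cnt_le (c : Cfg π c0 T B R cl tl nx μ) (hπ : Invo π) (hh : 1 ≤ h)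
    (hg : Girth π (2 * h)) (v : V) : cnt T tl nx v ≤ T / h + 1 + R := by
  classical
  unfold cnt crn
  refine le_trans (card_le_card_of_injOn (t := Icc 1 (T / h + 1 + R)) (kap h T nx μ)
    (fun i hi => ?_) ?_) (by simp)
  · simp only [coe_filter, mem_filter, mem_range, Set.mem_setOf_eq] at hi
    exact mem_coe.2 (mem_Icc.2 ⟨kap_pos i, c.kap_le hh (by omega)⟩)
  · intro i hi j hj e
    simp only [coe_filter, mem_filter, mem_range, Set.mem_setOf_eq] at hi hj
    exact c.cell_inj hπ hh hg (by omega) (by omega) e (hi.2.trans hj.2.symm)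

theorem Cfg.mul_le (c : Cfg π c0 T B R cl tl nx μ) (hπ : Invo π) (hh : 1 ≤ h)
    (hg : Girth π (2 * h)) {e : Sym2 V} {v : V} (hv : v ∈ e) :
    mul T tl nx e ≤ cnt T tl nx v := by
  classical
  unfold mul cnt crn
  refine card_le_card_of_injOn (fun j => if tl j = v then j else nx j) (fun j hj => ?_) ?_
  · simp only [coe_filter, mem_filter, mem_range, Set.mem_setOf_eq] at hj ⊢
    obtain ⟨a, rfl⟩ := hj
    have b := c.nx_le j a
    by_cases k : tl j = v
    · rw [if_pos k]; exact ⟨⟨by omega, Or.inl a⟩, k⟩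
    · rw [if_neg k]
      refine ⟨⟨by omega, ?_⟩, ?_⟩
      · rcases b.lt_or_eq with q | q
        · exact Or.inl q
        · exact Or.inr ⟨j, a, q⟩
      · rcases Sym2.mem_iff.1 hv with q | q
        · exact absurd q.symm k
        · exact q.symm
  · intro i hi j hj e
    simp only [coe_filter, mem_range, Set.mem_setOf_eq] at hi hj
    have ee := hi.2.trans hj.2.symm
    have cc := c.ed_col hπ hh hg hi.1 hj.1 ee
    by_cases k : tl i = v <;> by_cases k' : tl j = v
    · simpa [k, k'] using e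
    · simp only [if_pos k, if_neg k'] at e
      exact absurd (e ▸ cc) (c.red j hj.1 (e ▸ hi.1))
    · simp only [if_neg k, if_pos k'] at e
      exact absurd (e ▸ cc.symm) (c.red i hi.1 (e ▸ hj.1))
    · simp only [if_neg k, if_neg k'] at e
      exact c.inj i hi.1 j hj.1 e

theorem Cfg.mul_K (c : Cfg π c0 T B R cl tl nx μ) (hπ : Invo π) (hh : 1 ≤ h)
    (hg : Girth π (2 * h)) (j : ℕ) : mul T tl nx (ed tl nx j) ≤ T / h + 1 + R :=
  (c.mul_le hπ hh hg (Sym2.mem_mk_left _ _)).trans (c.cnt_le hπ hh hg _)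

/-- darts at a regular vertex -/
theorem Cfg.reg_dart (c : Cfg π c0 T B R cl tl nx μ) (hπ : Invo π) (hh : 1 ≤ h)
    (hg : Girth π (2 * h)) {i : ℕ} (hi : i ≤ T) (hs : ¬ Spc h T tl nx μ i) {j : ℕ} (hj : j < T)
    (e : tl i = tl j ∨ tl i = tl (nx j)) :
    ∃ j', j' < T ∧ j' = (if j ≤ T ∧ rep tl j = rep tl i then j - 1 else j + 1) ∧
      (rep tl j = rep tl i → 0 < j ∧ tl (j - 1) ≠ tl i) ∧ (rep tl j ≠ rep tl i → tl (j + 1) = tl i) ∧
      ((ed tl nx j = s(tl i, tl (i - 1)) ∧ ed tl nx j' = s(tl i, tl (i + 1))) ∨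
      (ed tl nx j = s(tl i, tl (i + 1)) ∧ ed tl nx j' = s(tl i, tl (i - 1)))) := by
  by_cases k : tl j = tl i
  · obtain ⟨a1, a2, a3, a4, a5⟩ := c.nonspc hπ hh hg hi hs hj.le k
    have n1 := (kap_nb a4.symm le_rfl (Nat.lt_succ_self j)).1
    have n2 := (kap_nb a3 le_rfl (show j - 1 < j by omega)).1
    rw [Nat.sub_add_cancel a1] at n2
    have st := (c.step (j - 1) (by omega)).2
    rw [n2, k] at st
    refine ⟨j - 1, by omega, by rw [if_pos ⟨hj.le, (rep_eq tl _ _).2 k⟩],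
      fun _ => ⟨a1, st.symm⟩, fun q => absurd ((rep_eq tl _ _).2 k) q, ?_⟩
    unfold ed
    rw [n1, n2, k]
    rcases a5 with ⟨p, q⟩ | ⟨p, q⟩
    · rw [p, q]; exact Or.inr ⟨rfl, Sym2.eq_swap⟩
    · rw [p, q]; exact Or.inl ⟨rfl, Sym2.eq_swap⟩
  · have k2 : tl (nx j) = tl i := by
      rcases e with e | e
      · exact absurd e.symm k
      · exact e.symm
    obtain ⟨a1, a2, a3, a4, a5⟩ := c.nonspc hπ hh hg hi hs (c.nx_le j hj) k2
    have n1 := (kap_nb a4.symm le_rfl (Nat.lt_succ_self (nx j))).1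
    have n2 := (kap_nb a3 le_rfl (show nx j - 1 < nx j by omega)).1
    rw [Nat.sub_add_cancel a1] at n2
    have n3 := c.inj _ (by omega) j hj n2
    have n4 : nx j = j + 1 := by omega
    rw [n3] at a5
    rw [n4] at a5 n1 a2 k2
    refine ⟨j + 1, a2, by rw [if_neg (fun q => k ((rep_eq tl _ _).1 q.2))],
      fun q => absurd ((rep_eq tl _ _).1 q) k, fun _ => k2, ?_⟩
    unfold ed
    rw [n1, n4, k2]
    rcases a5 with ⟨p, q⟩ | ⟨p, q⟩
    · rw [p, q]; exact Or.inl ⟨Sym2.eq_swap, rfl⟩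
    · rw [p, q]; exact Or.inr ⟨Sym2.eq_swap, rfl⟩

theorem Cfg.reg_ne (c : Cfg π c0 T B R cl tl nx μ) (hπ : Invo π) (hh : 1 ≤ h)
    (hg : Girth π (2 * h)) {i : ℕ} (hi : i ≤ T) (hs : ¬ Spc h T tl nx μ i) :
    (s(tl i, tl (i - 1)) : Sym2 V) ≠ s(tl i, tl (i + 1)) ∧ 0 < i ∧ i < T ∧
      ed tl nx (i - 1) = s(tl i, tl (i - 1)) ∧ ed tl nx i = s(tl i, tl (i + 1)) := by
  obtain ⟨a1, a2, a3, a4, -⟩ := c.nonspc hπ hh hg hi hs hi rfl
  have n1 := (kap_nb a4.symm le_rfl (Nat.lt_succ_self i)).1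
  have n2 := (kap_nb a3 le_rfl (show i - 1 < i by omega)).1
  rw [Nat.sub_add_cancel a1] at n2
  refine ⟨fun e => ?_, a1, a2, by unfold ed; rw [n2]; exact Sym2.eq_swap, by unfold ed; rw [n1]⟩
  have := c.cell_inj hπ hh hg (by omega) (by omega) (a3.trans a4.symm) (Sym2.congr_right.1 e)
  omega

theorem Cfg.reg_mul (c : Cfg π c0 T B R cl tl nx μ) (hπ : Invo π) (hh : 1 ≤ h)
    (hg : Girth π (2 * h)) {i : ℕ} (hi : i ≤ T) (hs : ¬ Spc h T tl nx μ i) :
    mul T tl nx s(tl i, tl (i - 1)) = mul T tl nx s(tl i, tl (i + 1)) := by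
  classical
  have ne := (c.reg_ne hπ hh hg hi hs).1
  have gen : ∀ x y : V, ((x = tl (i - 1) ∧ y = tl (i + 1)) ∨ (x = tl (i + 1) ∧ y = tl (i - 1))) →
      mul T tl nx s(tl i, x) ≤ mul T tl nx s(tl i, y) := by
    intro x y hxy
    unfold mul
    have inc : ∀ j, ed tl nx j = s(tl i, x) → tl i = tl j ∨ tl i = tl (nx j) := fun j e =>
      Sym2.mem_iff.1 (show tl i ∈ ed tl nx j from e ▸ Sym2.mem_mk_left _ _)
    refine card_le_card_of_injOn
      (fun j => if j ≤ T ∧ rep tl j = rep tl i then j - 1 else j + 1) (fun j hj => ?_) ?_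
    · simp only [coe_filter, mem_range, Set.mem_setOf_eq] at hj ⊢
      obtain ⟨j', b1, b2, -, -, b3⟩ := c.reg_dart hπ hh hg hi hs hj.1 (inc j hj.2)
      rw [← b2]
      refine ⟨b1, ?_⟩
      rcases hxy with ⟨rfl, rfl⟩ | ⟨rfl, rfl⟩ <;> rcases b3 with ⟨p, q⟩ | ⟨p, q⟩
      · exact q
      · exact absurd (hj.2.symm.trans p) ne
      · exact absurd (p.symm.trans hj.2) ne
      · exact q
    · intro a ha b hb e
      simp only [coe_filter, mem_range, Set.mem_setOf_eq] at ha hb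
      obtain ⟨-, -, -, a1, a2, -⟩ := c.reg_dart hπ hh hg hi hs ha.1 (inc a ha.2)
      obtain ⟨-, -, -, b1, b2, -⟩ := c.reg_dart hπ hh hg hi hs hb.1 (inc b hb.2)
      by_cases k : rep tl a = rep tl i <;> by_cases k' : rep tl b = rep tl i
      · simp only [k, k', ha.1.le, hb.1.le, and_self, if_true] at e
        have := (a1 k).1; have := (b1 k').1; omega
      · simp only [k, k', ha.1.le, and_self, and_false, if_true, if_false] at e
        exact absurd (e ▸ b2 k') (a1 k).2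
      · simp only [k, k', hb.1.le, and_self, and_false, if_true, if_false] at e
        exact absurd (e ▸ a2 k) (b1 k').2
      · simp only [k, k', and_false, if_false] at e
        omega
  exact le_antisymm (gen _ _ (Or.inl ⟨rfl, rfl⟩)) (gen _ _ (Or.inr ⟨rfl, rfl⟩))

open Classical in
theorem Cfg.wasted (c : Cfg π c0 T B R cl tl nx μ) (hπ : Invo π) (hh : 1 ≤ h)
    (hg : Girth π (2 * h)) :
    ((range T).filter (fun j => μ j < T ∧ ed tl nx (μ j) = ed tl nx j)).card ≤ T / h + 1 + R := by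
  have dir : ∀ j < T, μ j < T → ed tl nx (μ j) = ed tl nx j → tl (μ j) = tl j := by
    intro j a b e
    rcases ed_iff.1 e with q | q
    · exact q.1
    · exact absurd q.1 (c.orig j a b).2
  have key : ∀ j j', j < j' → j' < T → μ j < T → tl (μ j) = tl j → tl (μ j') = tl j' →
      kap h T nx μ j ≠ kap h T nx μ j' := by
    intro j j' a b m1 d1 d2 e
    have lt := kap_lt hh e
    have mu : ∀ t, j + t ≤ j' → μ j = μ (j + t) + t := by
      intro t
      induction t with
      | zero => intro _; rfl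
      | succ t ih =>
        intro k
        have := ((kap_nb e (j := j + t) (by omega) (by omega)).2 (by omega)).1
        rw [ih (by omega), this, add_assoc j t 1]; omega
    have m2 := mu (j' - j) (by omega)
    rw [Nat.add_sub_cancel' a.le] at m2
    have nxm : ∀ i, μ j' ≤ i → i < μ j' + (j' - j) → nx i = i + 1 := by
      intro i x y
      have p := (kap_nb e (j := j + (μ j - i - 1)) (by omega) (by omega)).2 (by omega)
      have q := mu (μ j - i - 1) (by omega)
      have r : μ (j + (μ j - i - 1) + 1) = i := by omega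
      rw [r] at p; omega
    have cm := (c.cmp hπ hg (a := j) (d := j' - j) (a' := μ j') (d' := j' - j) (by omega)
      (fun i x y => (kap_nb e x (by omega)).1) (by omega) nxm (by omega)).2
      (by rw [← m2, d1]) (by rw [Nat.add_sub_cancel' a.le, d2])
    have t1 := cm.2.2 1 (by omega)
    obtain ⟨n1, n2⟩ := kap_nb e (j := j) le_rfl a
    obtain ⟨n2, n3⟩ := n2 (by omega)
    rw [← m2, show μ j - 1 = μ (j + 1) by omega] at t1
    have e2 : ed tl nx (μ (j + 1)) = ed tl nx j := by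
      unfold ed; rw [n3, n1, d1, ← t1]; exact Sym2.eq_swap
    have c1 := c.ed_col hπ hh hg (by omega) (by omega) e2
    have c2 := (c.orig (j + 1) (by omega) (by omega)).1
    have c3 := c.red j (by omega) (by omega)
    rw [n1] at c3
    exact c3 (c2.symm.trans c1)
  refine le_trans (card_le_card_of_injOn (t := Icc 1 (T / h + 1 + R)) (kap h T nx μ)
    (fun i hi => ?_) ?_) (by simp)
  · simp only [coe_filter, mem_range, Set.mem_setOf_eq] at hi
    exact mem_coe.2 (mem_Icc.2 ⟨kap_pos i, c.kap_le hh (by omega)⟩)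
  · intro i hi j hj e
    simp only [coe_filter, mem_range, Set.mem_setOf_eq] at hi hj
    rcases lt_trichotomy i j with k | k | k
    · exact absurd e (key i j k hj.1 hi.2.1 (dir i hi.1 hi.2.1 hi.2.2) (dir j hj.1 hj.2.1 hj.2.2))
    · exact k
    · exact absurd e.symm
        (key j i k hi.1 hj.2.1 (dir j hj.1 hj.2.1 hj.2.2) (dir i hi.1 hi.2.1 hi.2.2))

theorem layer_sum (A : Finset ℕ) (m : ℕ → ℕ) (K : ℕ) (hm : ∀ j ∈ A, m j ≤ K) :
    ∑ k ∈ range K, (A.filter (fun j => k < m j)).card = ∑ j ∈ A, m j := by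
  simp only [card_filter]
  rw [sum_comm]
  refine sum_congr rfl (fun j hj => ?_)
  rw [← card_filter]
  have : (range K).filter (fun k => k < m j) = range (m j) := by
    ext k; have := hm j hj; simp only [mem_filter, mem_range]; omega
  rw [this, card_range]

end Vale.Agent.P194
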