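import Vale.Agent.P194.Walk
import Vale.Agent.P194.Arc

namespace Vale.Agent.P194

variable {S V : Type} {π : S → V → V}

/-- letters carrying colour, tail vertex, identifier and identifier of the next letter -/
def lf (π : S → V → V) : V → ℕ → ℕ → List S → List (S × V × ℕ × ℕ)
  | _, _, _, [] => []
  | u, i, e, [s] => [(s, u, i, e)]
  | u, i, e, s :: s' :: l => (s, u, i, i + 1) :: lf π (π s u) (i + 1) e (s' :: l)

/-- successor relation of marked letters -/
def Nx (π : S → V → V) (p q : S × V × ℕ × ℕ) : Prop :=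
  q.2.1 = π p.1 p.2.1 ∧ q.2.1 ≠ p.2.1 ∧ q.2.2.1 = p.2.2.2 ∧ q.1 ≠ p.1

theorem lf_col : ∀ (l : List S) (u : V) (i e : ℕ), (lf π u i e l).map Prod.fst = l
  | [], _, _, _ => rfl
  | [_], _, _, _ => rfl
  | s :: s' :: l, u, i, e => by simp [lf, lf_col (s' :: l)]

theorem lf_id : ∀ (l : List S) (u : V) (i e : ℕ),
    (lf π u i e l).map (fun p => p.2.2.1) = List.range' i l.length
  | [], _, _, _ => rfl
  | [_], _, _, _ => rfl
  | s :: s' :: l, u, i, e => by simp [lf, lf_id (s' :: l), List.range'_succ]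

theorem lf_cnt : ∀ (l : List S) (u : V) (i e : ℕ),
    (lf π u i e l).countP (fun p => decide (p.2.2.2 ≠ p.2.2.1 + 1)) ≤ 1
  | [], _, _, _ => by simp [lf]
  | [_], _, _, _ => by simp only [lf]; exact List.countP_le_length
  | s :: s' :: l, u, i, e => by
    have := lf_cnt (s' :: l) (π s u) (i + 1) e
    simpa [lf, List.countP_cons] using this

theorem lf_chain : ∀ (l : List S) (u : V) (i e : ℕ) (q : S × V × ℕ × ℕ), l ≠ [] → Walk π u l →
    Red (l ++ [q.1]) → q.2.1 = run π u l → q.2.2.1 = e →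
    List.IsChain (Nx π) (lf π u i e l ++ [q])
  | [], _, _, _, _, h, _, _, _, _ => absurd rfl h
  | [s], u, i, e, q, _, h1, h2, h3, h4 => by
    simp only [lf, List.cons_append, List.nil_append, List.isChain_pair]
    simp only [Red, List.cons_append, List.nil_append, List.isChain_pair] at h2
    exact ⟨h3, by rw [h3]; exact h1.1, h4, h2.symm⟩
  | s :: s' :: l, u, i, e, q, _, h1, h2, h3, h4 => by
    have ih := lf_chain (s' :: l) (π s u) (i + 1) e q (by simp) h1.2 h2.tail h3 h4
    have hs : s ≠ s' := (List.isChain_cons_cons.1 h2).1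
    rcases l with _ | ⟨s'', l⟩
    · simp only [lf, List.cons_append, List.isChain_cons_cons] at ih ⊢
      exact ⟨⟨rfl, h1.1, rfl, hs.symm⟩, ih⟩
    · simp only [lf, List.cons_append, List.isChain_cons_cons] at ih ⊢
      exact ⟨⟨rfl, h1.1, rfl, hs.symm⟩, ih⟩

theorem lf_face {y : S} {r : List S} (h : CW π (y :: r)) (hr : CRed (y :: r)) (t : ℕ) :
    ∃ (y' : S × V × ℕ × ℕ) (r' : List (S × V × ℕ × ℕ)), y'.1 = y ∧ r'.map Prod.fst = r ∧
      Cycle.Chain (Nx π) ((y' :: r' : List _) : Cycle _) ∧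
      (y' :: r').map (fun p => p.2.2.1) = List.range' t (r.length + 1) ∧
      (y' :: r').countP (fun p => decide (p.2.2.2 ≠ p.2.2.1 + 1)) ≤ 1 := by
  obtain ⟨u, h1, h2⟩ := h
  rcases r with _ | ⟨s, r⟩
  · exact absurd h2 h1.1
  · refine ⟨(y, u, t, t + 1), lf π (π y u) (t + 1) t (s :: r), rfl, lf_col _ _ _ _, ?_,
      lf_id (y :: s :: r) u t t, lf_cnt (y :: s :: r) u t t⟩
    rw [Cycle.chain_coe_cons]
    refine lf_chain (y :: s :: r) u t t (y, u, t, t + 1) (by simp) h1 ?_ h2.symm rfl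
    have a := hr _ (List.IsRotated.refl _)
    have b := hr ((s :: r) ++ [y]) (List.isRotated_append (l := [y]) (l' := s :: r))
    exact List.isChain_cons_cons.2 ⟨(List.isChain_cons_cons.1 a).1, b⟩

theorem Der.lift {w : List S} {U : Multiset S} {n : ℕ} {M : Multiset (Sym2 S)}
    (d : Der id (fun l => CW π l ∧ CRed l) w U n M) :
    ∀ (v : List (S × V × ℕ × ℕ)) (t : ℕ), v.map Prod.fst = w →
      ∃ U' M', Der Prod.fst (fun l => Cycle.Chain (Nx π) (l : Cycle _)) v U' n M' ∧
        U'.map (fun p => p.2.2.1) = (List.range' t (Multiset.card U) : Multiset ℕ) ∧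
        U'.countP (fun p => p.2.2.2 ≠ p.2.2.1 + 1) ≤ n := by
  induction d with
  | nil =>
    intro v t e
    obtain rfl := List.map_eq_nil_iff.1 e
    exact ⟨0, 0, Der.nil, by simp, by simp⟩
  | mat a0 b0 c0 x y U1 n1 M1 U2 n2 M2 hc h1 h2 ih1 ih2 =>
    intro v t e
    obtain ⟨a, v1, rfl, ea, e⟩ := List.map_eq_append_iff.1 e
    obtain ⟨x', v2, rfl, ex, e⟩ := List.map_eq_cons_iff.1 e
    obtain ⟨b, v3, rfl, eb, e⟩ := List.map_eq_append_iff.1 e
    obtain ⟨y', c, rfl, ey, ec⟩ := List.map_eq_cons_iff.1 e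
    obtain ⟨U3, M3, p1, p2, p3⟩ := ih1 b t eb
    obtain ⟨U4, M4, q1, q2, q3⟩ := ih2 (a ++ c) (t + Multiset.card U1) (by simp [ea, ec])
    refine ⟨_, _, Der.mat a b c x' y' _ _ _ _ _ _ (by rw [ex, ey]; exact hc) p1 q1, ?_, ?_⟩
    · rw [Multiset.map_add, p2, q2, Multiset.card_add, Multiset.coe_add]
      congr 1
      simpa using List.range'_append (s := t) (m := Multiset.card U1) (n := Multiset.card U2)
        (step := 1)
    · rw [Multiset.countP_add]; omega
  | opn a0 r c0 x y U n M hc hv h ih =>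
    intro v t e
    obtain ⟨a, v1, rfl, ea, e⟩ := List.map_eq_append_iff.1 e
    obtain ⟨x', c, rfl, ex, ec⟩ := List.map_eq_cons_iff.1 e
    obtain ⟨y', r', e1, e2, e3, e4, e5⟩ := lf_face hv.1 hv.2 t
    obtain ⟨U3, M3, p1, p2, p3⟩ := ih (a ++ (r' ++ c)) (t + (r.length + 1)) (by simp [ea, ec, e2])
    refine ⟨_, _, Der.opn a r' c x' y' _ _ _ (by rw [ex, e1]; exact hc) e3 p1, ?_, ?_⟩
    · rw [Multiset.map_add, p2, Multiset.map_coe, e4, Multiset.card_add, Multiset.coe_add,
        Multiset.coe_card]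
      congr 1
      simpa using List.range'_append (s := t) (m := r.length + 1) (n := Multiset.card U)
        (step := 1)
    · rw [Multiset.countP_add, Multiset.coe_countP]; omega

theorem cyc_rot {Λ : Type} {r : Λ → Λ → Prop} (a b : List Λ)
    (h : Cycle.Chain r ((a ++ b : List Λ) : Cycle Λ)) :
    Cycle.Chain r ((b ++ a : List Λ) : Cycle Λ) := by
  rwa [Cycle.coe_eq_coe.2 (List.isRotated_append (l := b) (l' := a))]

theorem cyc_nbr {Λ : Type} {r : Λ → Λ → Prop} {l : List Λ} (h : Cycle.Chain r (l : Cycle Λ))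
    {p : Λ} (hp : p ∈ l) : (∃ q ∈ l, r p q) ∧ ∃ q ∈ l, r q p := by
  obtain ⟨a, b, rfl⟩ := List.append_of_mem hp
  have h' := cyc_rot _ _ h
  rw [List.cons_append, Cycle.chain_coe_cons] at h'
  constructor
  · rcases e : b ++ a with _ | ⟨q, c⟩
    · rw [e] at h'
      exact ⟨p, by simp, by simpa using h'⟩
    · rw [e] at h'
      have : q ∈ b ++ a := by rw [e]; simp
      exact ⟨q, by simp at this ⊢; tauto, (List.isChain_cons_cons.1 h').1⟩
  · rcases List.eq_nil_or_concat (b ++ a) with e | ⟨c, q, e⟩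
    · rw [e] at h'
      exact ⟨p, by simp, by simpa using h'⟩
    · rw [e] at h'
      have : q ∈ b ++ a := by rw [e]; simp
      refine ⟨q, by simp at this ⊢; tauto, ?_⟩
      have h2 : List.IsChain r ((p :: c) ++ q :: p :: []) := by simpa using h'
      exact (List.isChain_cons_cons.1 h2.right_of_append).1

theorem Der.nbr {Λ : Type} {col : Λ → S} {Val : List Λ → Prop} {r : Λ → Λ → Prop}
    (hv : ∀ l, Val l → Cycle.Chain r (l : Cycle Λ))
    {w : List Λ} {U : Multiset Λ} {n : ℕ} {M : Multiset (Sym2 Λ)} (d : Der col Val w U n M) :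
    ∀ p ∈ U, (∃ q ∈ U, r p q) ∧ ∃ q ∈ U, r q p := by
  induction d with
  | nil => simp
  | mat a0 b0 c0 x y U1 n1 M1 U2 n2 M2 hc h1 h2 ih1 ih2 =>
    intro p hp
    rcases Multiset.mem_add.1 hp with k | k
    · obtain ⟨⟨q, a, b⟩, ⟨q', a', b'⟩⟩ := ih1 p k
      exact ⟨⟨q, by simp [a], b⟩, ⟨q', by simp [a'], b'⟩⟩
    · obtain ⟨⟨q, a, b⟩, ⟨q', a', b'⟩⟩ := ih2 p k
      exact ⟨⟨q, by simp [a], b⟩, ⟨q', by simp [a'], b'⟩⟩
  | opn a0 r c0 x y U n M hc hv' h ih =>
    intro p hp
    rcases Multiset.mem_add.1 hp with k | k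
    · obtain ⟨⟨q, a, b⟩, ⟨q', a', b'⟩⟩ := cyc_nbr (hv _ hv') (Multiset.mem_coe.1 k)
      exact ⟨⟨q, Multiset.mem_add.2 (Or.inl (Multiset.mem_coe.2 a)), b⟩,
        ⟨q', Multiset.mem_add.2 (Or.inl (Multiset.mem_coe.2 a')), b'⟩⟩
    · obtain ⟨⟨q, a, b⟩, ⟨q', a', b'⟩⟩ := ih p k
      exact ⟨⟨q, by simp [a], b⟩, ⟨q', by simp [a'], b'⟩⟩

theorem lf_get : ∀ (l : List S) (u : V) (i : ℕ) (p : S × V × ℕ × ℕ),
    p ∈ lf π u i (i + l.length) l → p.2.2.2 = p.2.2.1 + 1 ∧ i ≤ p.2.2.1 ∧
      p.2.1 = run π u (l.take (p.2.2.1 - i))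
  | [], _, _, _, h => by simp [lf] at h
  | [s], u, i, p, h => by
    simp only [lf, List.mem_singleton] at h
    subst h; simp
  | s :: s' :: l, u, i, p, h => by
    simp only [lf, List.mem_cons] at h
    rcases h with rfl | h
    · simp
    · obtain ⟨a, b, c⟩ := lf_get (s' :: l) (π s u) (i + 1) p (by
        have : i + (s :: s' :: l).length = i + 1 + (s' :: l).length := by simp; omega
        rw [← this]; simpa using h)
      refine ⟨a, by omega, ?_⟩
      rw [c, show p.2.2.1 - i = (p.2.2.1 - (i + 1)) + 1 by omega]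
      rfl

theorem toNat {w : List S} {U : Multiset S} {n : ℕ} {M : Multiset (Sym2 S)}
    (d : Der id (fun l => CW π l ∧ CRed l) w U n M) (u0 : V) (s0 : S) :
    ∃ (cl : ℕ → S) (tl : ℕ → V) (nx : ℕ → ℕ) (M' : Multiset (Sym2 ℕ)),
      Der cl (fun l => Cycle.Chain (fun p q => q = nx p) (l : Cycle ℕ))
        (List.range' (Multiset.card U) w.length) (Multiset.range (Multiset.card U)) n M' ∧
      (List.range' (Multiset.card U) w.length).map cl = w ∧
      (∀ i < Multiset.card U, nx i < Multiset.card U ∧ π (cl i) (tl i) = tl (nx i) ∧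
        tl (nx i) ≠ tl i ∧ cl (nx i) ≠ cl i) ∧
      (∀ i < Multiset.card U, ∀ j < Multiset.card U, nx i = nx j → i = j) ∧
      ((Finset.range (Multiset.card U)).filter (fun i => nx i ≠ i + 1)).card ≤ n ∧
      (∀ i, Multiset.card U ≤ i → nx i = i + 1) ∧
      (∀ k ≤ w.length, tl (Multiset.card U + k) = run π u0 (w.take k)) ∧
      cl (Multiset.card U + w.length) = s0 := by
  classical
  set T := Multiset.card U with hT
  obtain ⟨U', M', d', p2, p3⟩ := d.lift (lf π u0 T (T + w.length) w) 0 (lf_col _ _ _ _)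
  set v := lf π u0 T (T + w.length) w with hv
  have hid : v.map (fun p => p.2.2.1) = List.range' T w.length := lf_id _ _ _ _
  rw [← hT] at p2
  have hnd : (((v : Multiset (S × V × ℕ × ℕ)) + U').map (fun p => p.2.2.1)).Nodup := by
    rw [Multiset.map_add, Multiset.map_coe, hid, p2, add_comm, Multiset.coe_add,
      Multiset.coe_nodup]
    have := List.range'_append (s := 0) (m := T) (n := w.length) (step := 1)
    simp only [one_mul, zero_add] at this
    rw [this]; exact List.nodup_range' ..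
  have hinj := Multiset.inj_on_of_nodup_map hnd
  let F : ℕ → S × V × ℕ × ℕ := fun i =>
    if h : ∃ p ∈ (v : Multiset (S × V × ℕ × ℕ)) + U', p.2.2.1 = i then h.choose
    else (s0, run π u0 w, i, i + 1)
  have hF : ∀ p, (p ∈ v ∨ p ∈ U') → F p.2.2.1 = p := by
    intro p hp
    have hp' : p ∈ (v : Multiset (S × V × ℕ × ℕ)) + U' := by simpa using hp
    have h : ∃ q ∈ (v : Multiset (S × V × ℕ × ℕ)) + U', q.2.2.1 = p.2.2.1 := ⟨p, hp', rfl⟩
    simp only [F, dif_pos h]
    exact hinj _ h.choose_spec.1 _ hp' h.choose_spec.2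
  have hU : ∀ i < T, ∃ p ∈ U', p.2.2.1 = i := by
    intro i hi
    have : i ∈ U'.map (fun p => p.2.2.1) := by rw [p2]; simp [hi]
    simpa using this
  have hU' : ∀ p ∈ U', p.2.2.1 < T := by
    intro p hp
    have : p.2.2.1 ∈ U'.map (fun p => p.2.2.1) := Multiset.mem_map_of_mem _ hp
    rw [p2] at this; simpa using this
  have hV : ∀ i, T ≤ i → i < T + w.length → ∃ p ∈ v, p.2.2.1 = i := by
    intro i h1 h2
    have : i ∈ v.map (fun p => p.2.2.1) := by rw [hid]; simp [h1, h2]
    simpa using this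
  have hout : ∀ i, T + w.length ≤ i → F i = (s0, run π u0 w, i, i + 1) := by
    intro i hi
    have h : ¬ ∃ p ∈ (v : Multiset (S × V × ℕ × ℕ)) + U', p.2.2.1 = i := by
      rintro ⟨p, hp, rfl⟩
      rcases Multiset.mem_add.1 hp with k | k
      · have : p.2.2.1 ∈ v.map (fun p => p.2.2.1) := List.mem_map_of_mem (Multiset.mem_coe.1 k)
        rw [hid] at this; simp at this; omega
      · have := hU' p k; omega
    simp only [F, dif_neg h]
  have nb := d'.nbr (r := Nx π) (fun _ h => h)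
  have hstep : ∀ i < T, (F i).2.2.2 < T ∧ π (F i).1 (F i).2.1 = (F (F i).2.2.2).2.1 ∧
      (F (F i).2.2.2).2.1 ≠ (F i).2.1 ∧ (F (F i).2.2.2).1 ≠ (F i).1 := by
    intro i hi
    obtain ⟨p, hp, rfl⟩ := hU i hi
    obtain ⟨⟨q, hq, a, b, c, e⟩, -⟩ := nb p hp
    rw [hF p (Or.inr hp), ← c, hF q (Or.inr hq)]
    exact ⟨hU' q hq, a.symm, b, e⟩
  refine ⟨fun i => (F i).1, fun i => (F i).2.1, fun i => (F i).2.2.2,
    M'.map (Sym2.map (fun p => p.2.2.1)), ?_, ?_, hstep, ?_, ?_, ?_, ?_,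
    by simp only [hout _ le_rfl]⟩
  · refine (d'.map (fun p => p.2.2.1) (fun p hp => by rw [hF p hp]) (fun l hl hm => ?_)).cast
      hid (by rw [p2, ← List.range_eq_range']; rfl) rfl rfl
    rw [← Cycle.map_coe, Cycle.chain_map]
    rcases l with _ | ⟨y, r⟩
    · trivial
    · rw [Cycle.chain_coe_cons] at hl ⊢
      refine (List.IsChain.iff_mem.1 hl).imp ?_
      rintro p q ⟨k1, -, k3⟩
      have : p ∈ U' := hm p (by simp at k1 ⊢; tauto)
      beta_reduce
      rw [hF p (Or.inr this)]; exact k3.2.2.1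
  · rw [← hid, List.map_map, ← lf_col (π := π) w u0 T (T + w.length)]
    exact List.map_congr_left (fun p hp => by simp [hF p (Or.inl hp)])
  · have := Finset.injOn_of_surjOn_of_card_le (s := Finset.range T) (t := Finset.range T)
      (fun i => (F i).2.2.2) (fun i hi => by simpa using (hstep i (by simpa using hi)).1)
      (fun j hj => by
        obtain ⟨p, hp, rfl⟩ := hU j (by simpa using hj)
        obtain ⟨-, q, hq, a, b, c, e⟩ := nb p hp
        exact ⟨q.2.2.1, by simpa using hU' q hq, by simp only [hF q (Or.inr hq), c]⟩) le_rfl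
    intro i hi j hj e
    exact this (by simpa using hi) (by simpa using hj) e
  · refine le_trans (le_of_eq ?_) p3
    have e1 : Multiset.countP (fun p : S × V × ℕ × ℕ => p.2.2.2 ≠ p.2.2.1 + 1) U' =
        Multiset.countP (fun i => (F i).2.2.2 ≠ i + 1) (U'.map (fun p => p.2.2.1)) := by
      rw [Multiset.countP_map, ← Multiset.countP_eq_card_filter]
      exact Multiset.countP_congr rfl (fun p hp => by rw [hF p (Or.inr hp)])
    rw [e1, p2, ← List.range_eq_range', Multiset.countP_eq_card_filter]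
    rfl
  · intro i hi
    by_cases h : i < T + w.length
    · obtain ⟨p, hp, rfl⟩ := hV i hi h
      simp only [hF p (Or.inl hp)]
      exact (lf_get w u0 T p hp).1
    · simp only [hout i (by omega)]
  · intro k hk
    rcases hk.lt_or_eq with h | rfl
    · obtain ⟨p, hp, e⟩ := hV (T + k) (by omega) (by omega)
      have := (lf_get w u0 T p hp).2.2
      rw [e, Nat.add_sub_cancel_left] at this
      simp only [← e, hF p (Or.inl hp)]
      exact this
    · simp only [hout _ le_rfl, List.take_length]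

end Vale.Agent.P194
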