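import Vale.Agent.P194.Stm
import Vale.Agent.P194.L2G
import Vale.Agent.P194.Switch
import Vale.Agent.P194.Diam
import Vale.Agent.P194.Design
import Vale.Agent.P194.Hyp

namespace Vale.Agent.P194

variable {S V : Type} {π : S → V → V}

/-- area with short faces -/
def AL (π : S → V → V) (L : ℕ) (w : List S) (n : ℕ) : Prop := ∃ t, Ar (CWL π L) w t n

theorem al_ax (hπ : Invo π) (L : ℕ) : AreaAx (AL π L) L :=
  areaAx CWL.rot (CWL.rev hπ) L (fun _ h => h.2) (fun _ ⟨⟨_, a, b⟩, _⟩ => a.1 b)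

theorem AL.cw {L n : ℕ} {w : List S} (h : AL π L w n) : Ar (CW π) w (L * n) n := by
  obtain ⟨t, U, m, M, p, q, d⟩ := h
  have := d.map (col' := id) (Val' := CW π) id (fun _ _ => rfl) (fun l a _ => by simpa using a.1)
  simp only [List.map_id, Multiset.map_id] at this
  exact ⟨U, m, _, (d.face_mem L (fun _ h => h.2)).trans (Nat.mul_le_mul_left _ q), q, this⟩

theorem Ar.al (hπ : Invo π) {D : ℕ} (hD : 1 ≤ D) (hd : Diam π D) {w : List S} {t n : ℕ}
    (h : Ar (CW π) w t n) : ∃ m, AL π (3 * D) w m ∧ D * m ≤ t + D * n := by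
  obtain ⟨U, m, M, p, q, d⟩ := h
  obtain ⟨t', m', a, b⟩ := d.transfer CWL.rot (CWL.rev hπ) D (chop hπ hD hd)
  exact ⟨m', ⟨t', a⟩, b.trans (Nat.add_le_add p (Nat.mul_le_mul_left _ q))⟩

theorem Ar.prod_one {w : List S} {t n : ℕ} (h : Ar (CW π) w t n) :
    (w.map (gen π)).prod = 1 := by
  obtain ⟨U, m, M, -, -, d⟩ := h
  exact d.prod_one

theorem exists_red {A : List S → ℕ → Prop} {L : ℕ} (hA : AreaAx A L) : ∀ (N : ℕ) (w : List S),
    w.length ≤ N → ∃ w', Red w' ∧ w'.length ≤ w.length ∧ ∀ n, A w n ↔ A w' n := by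
  intro N
  induction N with
  | zero =>
    intro w h
    obtain rfl : w = [] := List.length_eq_zero_iff.1 (by omega)
    exact ⟨[], List.isChain_nil, le_rfl, fun _ => Iff.rfl⟩
  | succ N ih =>
    intro w h
    by_cases k : Red w
    · exact ⟨w, k, le_rfl, fun _ => Iff.rfl⟩
    · obtain ⟨a, x, c, rfl⟩ := not_red k
      obtain ⟨w', p, q, r⟩ := ih (a ++ c) (by simp at h ⊢; omega)
      refine ⟨w', p, by simp at q ⊢; omega, fun n => ?_⟩
      rw [← r]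
      exact ⟨hA.canc, fun z => by simpa using hA.ins (hA.dbl x) z⟩

theorem exists_area {A : List S → ℕ → Prop} {w : List S} {n : ℕ} (h : A w n) :
    ∃ m, IsArea A w m := by
  classical
  exact ⟨Nat.find ⟨n, h⟩, Nat.find_spec (⟨n, h⟩ : ∃ n, A w n), fun _ k => Nat.find_min' _ k⟩

theorem local_ineq [Nontrivial S] (hπ : Invo π) (c0 : V) {h D Λ K Tm : ℕ} (hh : 1 ≤ h)
    (hg : Girth π (2 * h)) (hd : Diam π D) (h1 : 1 ≤ D) (h2 : D ≤ Λ * h) (h3 : 2 ≤ Λ)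
    (hT : 3 * D * K ≤ Tm) (hb : ¬ Bad π c0 h Tm) (w : List S) (n : ℕ)
    (hn : IsArea (AL π (3 * D)) w n) (hK : n ≤ K) : 3 * D * n ≤ 600 * Λ * w.length := by
  classical
  obtain ⟨w', r, l, e⟩ := exists_red (al_ax hπ (3 * D)) _ w le_rfl
  by_cases k : w' = []
  · subst k
    have := hn.2 0 ((e 0).2 (al_ax hπ _).nil)
    obtain rfl : n = 0 := by omega
    simp
  have a := ((e n).1 hn.1).cw
  have ex : ∃ t, ∃ m, Ar (CW π) w' t m := ⟨_, _, a⟩
  obtain ⟨m, hm⟩ := Nat.find_spec ex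
  have mn : ∀ t' m', Ar (CW π) w' t' m' → Nat.find ex ≤ t' := fun t' m' q =>
    Nat.find_min' ex ⟨m', q⟩
  have le := mn _ _ a
  generalize Nat.find ex = t at *
  obtain ⟨n', cl, tl, nx, μ, c, b1, b2, b3⟩ := cfg_unrooted hπ hg c0 k r hm mn
  have lt : t < 200 * w'.length := by
    by_contra q
    exact hb ⟨t, _, n', cl, tl, nx, μ, c, b1, b2, by omega,
      le.trans ((Nat.mul_le_mul_left _ hK).trans hT)⟩
  obtain ⟨m', p, q⟩ := b3.al hπ h1 hd
  have z := hn.2 m' ((e m').2 p)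
  have z1 : D * n ≤ D * m' := Nat.mul_le_mul_left _ z
  have z2 : D * n' ≤ Λ * h * n' := Nat.mul_le_mul_right _ h2
  have z3 : Λ * (2 * (h * n')) ≤ Λ * t := Nat.mul_le_mul_left _ (by nlinarith)
  have z4 : 2 * t ≤ Λ * t := Nat.mul_le_mul_right _ h3
  have z5 : Λ * t ≤ Λ * (200 * w.length) := Nat.mul_le_mul_left _ (by omega)
  nlinarith

theorem isolated [Nontrivial S] (hπ : Invo π) (c0 : V) {h D q Tm : ℕ}
    (hg : Girth π (2 * h)) (hd : Diam π D) (h1 : 1 ≤ D)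
    (hq : ∀ w n, IsArea (AL π (3 * D)) w n → 3 * D * n ≤ q * w.length)
    (hT : (q + 1) * D ≤ Tm) (hb : ¬ Bad π c0 h Tm) (w : List S) (hw : Walk π c0 w)
    (e : (w.map (gen π)).prod = 1) : run π c0 w = c0 := by
  classical
  by_contra ne
  obtain ⟨p0, a1, a2, a3⟩ := hd c0 w hw
  have rv := walk_reverse hπ w c0 hw
  have cw : CW π (p0 ++ w.reverse) :=
    ⟨c0, by rw [walk_append, a2]; exact ⟨a1, rv.1⟩, by rw [run_append, a2, rv.2]⟩
  obtain ⟨t1, n1, b1⟩ := complete hπ e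
  have e0 : (p0.map (gen π)).prod = 1 := by
    have x := gen_cw cw
    have y := (b1.rev CW.rot (CW.rev hπ)).prod_one
    rwa [List.map_append, List.prod_append, y, mul_one] at x
  obtain ⟨t2, n2, b2⟩ := complete hπ e0
  obtain ⟨m, b3, -⟩ := b2.al hπ h1 hd
  obtain ⟨n0, b4⟩ := exists_area b3
  have b5 := hq p0 n0 b4
  have ex : ∃ s, ∃ p t m, Walk π c0 p ∧ run π c0 p = run π c0 w ∧ Ar (CW π) p t m ∧
      t + p.length = s := ⟨_, p0, _, _, a1, a2, b4.1.cw, rfl⟩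
  have mn : ∀ p t m, Walk π c0 p → run π c0 p = run π c0 w → Ar (CW π) p t m →
      Nat.find ex ≤ t + p.length := fun p t m x y z => Nat.find_min' ex ⟨p, t, m, x, y, z, rfl⟩
  obtain ⟨p, t, m', d1, d2, d3, d4⟩ := Nat.find_spec ex
  rw [← d4] at mn
  have le := mn _ _ _ a1 a2 b4.1.cw
  have pn : p ≠ [] := by rintro rfl; exact ne d2.symm
  have pr : Red p := by
    by_contra k
    obtain ⟨a, x, c, rfl⟩ := not_red k
    rw [walk_append] at d1
    rw [run_append] at d2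
    simp only [walk_cons, run_cons, hπ x _] at d1 d2
    have := mn (a ++ c) t m' ((walk_append _ _ _).2 ⟨d1.1, d1.2.2.2⟩) (by rw [run_append, d2])
      (d3.canc CW.rot)
    simp at this
  obtain ⟨n, cl, tl, nx, μ, c, f1, f2⟩ := cfg_rooted hπ hg c0 pn pr d1 d3
    (fun p' t' m'' x y z => mn p' t' m'' x (y.trans d2) z)
  have : q * p0.length ≤ q * D := Nat.mul_le_mul_left _ a3
  exact hb ⟨_, 0, n, cl, tl, nx, μ, c, f1, by omega, by omega, by rw [add_mul] at hT; omega⟩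

theorem main (hF : FMStmt) : MainStmt := by
  classical
  obtain ⟨Λ, hΛ⟩ : ∃ Λ : ℕ, Λ = 71 * 10 ^ 6 := ⟨_, rfl⟩
  obtain ⟨K, hK⟩ := l2g (600 * Λ)
  obtain ⟨h, hh, hF⟩ := hF (3 * Λ * K + (2 * (600 * Λ) + 1) * Λ) 1
  obtain ⟨N, hN⟩ : ∃ N, N = 100 * 92 ^ (2 * h + 2) := ⟨_, rfl⟩
  have pos : 1 ≤ 92 ^ (2 * h + 2) := Nat.one_le_pow _ _ (by norm_num)
  obtain ⟨V, _, m, c0, v1, v2, v3, v4, v5, v6⟩ := design N ⟨50 * 92 ^ (2 * h + 2), by omega⟩
    (by omega)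
  have g1 := nonempty_gg _ _ _ m (2 * h) _ v1 v2
    (by rw [Fintype.card_fin, show 91 + 1 = 92 from rfl]; omega)
  have g2 := diam_gg prob_has _ _ _ m (2 * h) N (14 * h + 21) v2 v4 v5
    (by rw [Fintype.card_fin, show 91 + 1 = 92 from rfl]; omega) (by
      have : 92 ^ (2 * h + 2) ≤ 128 ^ (2 * h + 2) := Nat.pow_le_pow_left (by norm_num) _
      have e : 2 ^ (14 * h + 21) = 128 * 128 ^ (2 * h + 2) := by
        rw [show (128 : ℕ) = 2 ^ 7 by norm_num, ← pow_mul, ← pow_add]; congr 1; omega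
      omega)
  have g3 := hF _ _ m c0 N v2 v3 v5 hN.ge
  obtain ⟨D, hD⟩ : ∃ D, D = 10 ^ 6 * (2 * (14 * h + 21) + 1) := ⟨_, rfl⟩
  rw [← hD] at g2
  have ex : ∃ π ∈ GG m (2 * h), Diam π D ∧
      ¬ Bad π c0 h ((3 * Λ * K + (2 * (600 * Λ) + 1) * Λ) * h) := by
    by_contra k
    push Not at k
    have sub : GG m (2 * h) ⊆ (GG m (2 * h)).filter (fun π => ¬ Diam π D) ∪ (GG m (2 * h)).filter
        (fun π => Bad π c0 h ((3 * Λ * K + (2 * (600 * Λ) + 1) * Λ) * h)) := by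
      intro π hπ
      by_cases d : Diam π D
      · exact Finset.mem_union_right _ (Finset.mem_filter.2 ⟨hπ, k π hπ d⟩)
      · exact Finset.mem_union_left _ (Finset.mem_filter.2 ⟨hπ, d⟩)
    have := (Finset.card_le_card sub).trans (Finset.card_union_le _ _)
    have := g1.card_pos
    omega
  obtain ⟨π, hm, hd, hb⟩ := ex
  obtain ⟨hv, hg⟩ : Valid m π ∧ Girth π (2 * h) := by simpa [GG] using hm
  have hπ := valid_invo hv
  have d1 : 1 ≤ D := by omega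
  have d2 : D ≤ Λ * h := by rw [hΛ]; omega
  have gl := hK _ _ (3 * D) (by omega) (al_ax hπ (3 * D))
    (local_ineq hπ c0 hh hg hd d1 d2 (by omega) (by
      have := Nat.mul_le_mul_right K d2
      nlinarith [Nat.zero_le ((2 * (600 * Λ) + 1) * Λ * h)]) hb)
  refine ⟨Grp π, inferInstance, hyp_of_lin _ _ (gen π) (AL π (3 * D)) (3 * D) (2 * (600 * Λ))
    gen_sq gen_closure (al_ax hπ _) (fun w => ⟨fun e => ?_, fun ⟨n, a⟩ => a.cw.prod_one⟩)
    (fun w n a => le_trans (Nat.le_mul_of_pos_left _ (by omega)) (gl w n a)),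
    v6 π hv (Grp π) (gen π) gen_sq (fun v w a b => gen_cw ⟨v, a, b⟩)
      (isolated hπ c0 hg hd d1 gl ?_ hb)⟩
  · obtain ⟨t, n, a⟩ := complete hπ e
    obtain ⟨m', b, -⟩ := a.al hπ d1 hd
    exact ⟨m', b⟩
  · have := Nat.mul_le_mul_left (2 * (600 * Λ) + 1) d2
    nlinarith [Nat.zero_le (3 * Λ * K * h)]

end Vale.Agent.P194
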