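import Vale.Agent.P194.Lift

namespace Vale.Agent.P194

variable {Λ S V : Type} {π : S → V → V} {cl : Λ → S} {tl : Λ → V} {nx : Λ → Λ}

/-- a list of marked letters that is a path from `u` to `u'` -/
def Pth (π : S → V → V) (cl : Λ → S) (tl : Λ → V) : List Λ → V → V → Prop
  | [], u, u' => u = u'
  | p :: l, u, u' => tl p = u ∧ π (cl p) u ≠ u ∧ Pth π cl tl l (π (cl p) u) u'

theorem pth_append (a b : List Λ) : ∀ u u'' : V,
    Pth π cl tl (a ++ b) u u'' ↔ ∃ u', Pth π cl tl a u u' ∧ Pth π cl tl b u' u'' := by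
  induction a with
  | nil => simp [Pth]
  | cons p a ih => intro u u''; simp [Pth, ih, and_assoc]

theorem pth_walk (l : List Λ) : ∀ u u' : V, Pth π cl tl l u u' →
    Walk π u (l.map cl) ∧ run π u (l.map cl) = u' := by
  induction l with
  | nil => intro u u' h; exact ⟨trivial, h⟩
  | cons p l ih => intro u u' h; exact ⟨⟨h.2.1, (ih _ _ h.2.2).1⟩, (ih _ _ h.2.2).2⟩

/-- the letter `p` is an edge from its tail to the tail of the next letter -/
def Step (π : S → V → V) (cl : Λ → S) (tl : Λ → V) (nx : Λ → Λ) (p : Λ) : Prop :=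
  π (cl p) (tl p) = tl (nx p) ∧ tl (nx p) ≠ tl p

theorem chain_pth (z : Λ) : ∀ (l : List Λ) (p : Λ), (∀ q ∈ p :: l, Step π cl tl nx q) →
    List.IsChain (fun p q => q = nx p) (p :: (l ++ [z])) → Pth π cl tl (p :: l) (tl p) (tl z) := by
  intro l
  induction l with
  | nil =>
    intro p hs h
    obtain ⟨a, b⟩ := hs p (by simp)
    have e : z = nx p := by simpa using h
    exact ⟨rfl, by rw [a]; exact b, by rw [a, e]; rfl⟩
  | cons q l ih =>
    intro p hs h
    obtain ⟨a, b⟩ := hs p (by simp)
    rw [List.cons_append, List.isChain_cons_cons] at h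
    refine ⟨rfl, by rw [a]; exact b, ?_⟩
    rw [a, ← h.1]
    exact ih q (fun q' k => hs q' (List.mem_cons_of_mem _ k)) h.2

/-- faces are cyclic chains of the successor function -/
abbrev ValN (nx : Λ → Λ) : List Λ → Prop := fun l => Cycle.Chain (fun p q => q = nx p) (l : Cycle Λ)

theorem face_pth {y : Λ} {r : List Λ} (h : ValN nx (y :: r))
    (hs : ∀ q ∈ y :: r, Step π cl tl nx q) : Pth π cl tl (y :: r) (tl y) (tl y) :=
  chain_pth y r y hs h

theorem Der.toPlain [Nonempty V] {v : List Λ} {U : Multiset Λ} {n : ℕ} {M : Multiset (Sym2 Λ)}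
    (d : Der cl (ValN nx) v U n M) (hs : ∀ q ∈ U, Step π cl tl nx q) :
    Ar (CW π) (v.map cl) (Multiset.card U) n := by
  have := (d.map (col' := id) (Val' := CW π) cl (fun _ _ => rfl) (fun l hl hm => by
    rcases l with _ | ⟨y, r⟩
    · exact ⟨Classical.arbitrary V, trivial, rfl⟩
    · exact ⟨tl y, pth_walk _ _ _ (face_pth hl (fun q hq => hs q (hm q hq)))⟩)).ar
  rwa [Multiset.card_map] at this

theorem split_uniq {a b a' b' : List Λ} {x : Λ} (hn : (a ++ x :: b).Nodup)
    (e : a ++ x :: b = a' ++ x :: b') : a = a' ∧ b = b' := by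
  have hn' := hn
  rw [e] at hn'
  rw [List.nodup_append] at hn hn'
  have h1 : x ∉ a := fun k => hn.2.2 x k x (by simp) rfl
  have h2 : x ∉ a' := fun k => hn'.2.2 x k x (by simp) rfl
  have h3 : x ∉ b := (List.nodup_cons.1 hn.2.1).1
  have := (List.append_cons_inj_of_notMem h1 h3).1 e
  exact ⟨this.1, this.2.2⟩

theorem Der.merge [Nonempty V] [DecidableEq Λ] (hπ : Invo π) {μ : Λ → Λ}
    {v : List Λ} {U : Multiset Λ} {n : ℕ} {M : Multiset (Sym2 Λ)}
    (d : Der cl (ValN nx) v U n M) : ((v : Multiset Λ) + U).Nodup → Cons μ M →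
    (∀ q ∈ U, Step π cl tl nx q) → ∀ e e', s(e, e') ∈ M → e ∈ U → e' ∈ U →
    tl e' = π (cl e) (tl e) → ∃ t m, t < Multiset.card U ∧ Ar (CW π) (v.map cl) t m := by
  induction d with
  | nil => simp
  | mat a0 b0 c0 x y U1 n1 M1 U2 n2 M2 hc h1 h2 ih1 ih2 =>
    intro hn hμ hs e e' hm he he' ho
    have hn0 := Multiset.nodup_iff_count_le_one.1 hn
    have s1 : ∀ q ∈ U1, Step π cl tl nx q := fun q k => hs q (by simp [k])
    have s2 : ∀ q ∈ U2, Step π cl tl nx q := fun q k => hs q (by simp [k])
    have dj : ∀ p, p ∈ U1 + U2 → p ∉ a0 ++ x :: (b0 ++ y :: c0) := fun p k k' =>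
      Multiset.disjoint_left.1 (Multiset.nodup_add.1 hn).2.2 (Multiset.mem_coe.2 k') k
    have e0 : (a0 ++ x :: (b0 ++ y :: c0)).map cl =
        a0.map cl ++ cl x :: (b0.map cl ++ cl x :: c0.map cl) := by simp [hc]
    rw [e0, Multiset.card_add]
    simp only [Multiset.mem_cons, Multiset.mem_add, Sym2.eq_iff] at hm
    rcases hm with (⟨rfl, rfl⟩ | ⟨rfl, rfl⟩) | hm | hm
    · exact absurd (by simp) (dj _ he)
    · exact absurd (by simp) (dj _ he)
    · have k1 : e ∈ U1 := ((h1.mem_of_M e e' hm).1).resolve_left (fun k => dj _ he (by simp [k]))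
      have k2 : e' ∈ U1 := ((h1.mem_of_M e' e (by rwa [Sym2.eq_swap])).1).resolve_left
        (fun k => dj _ he' (by simp [k]))
      obtain ⟨t, m, p, q⟩ := ih1 (Multiset.nodup_of_le (by
          simp only [← Multiset.cons_coe, ← Multiset.coe_add, ← Multiset.singleton_add]
          rw [Multiset.le_iff_count]; intro z; simp only [Multiset.count_add]; omega) hn)
        (fun p q h => hμ p q (by simp [h])) s1 e e' hm k1 k2 ho
      exact ⟨_, _, by omega, q.mat ((h2.toPlain s2).cast (by simp))⟩
    · have k1 : e ∈ U2 := ((h2.mem_of_M e e' hm).1).resolve_left (fun k => dj _ he (by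
        rcases List.mem_append.1 k with k | k <;> simp [k]))
      have k2 : e' ∈ U2 := ((h2.mem_of_M e' e (by rwa [Sym2.eq_swap])).1).resolve_left
        (fun k => dj _ he' (by rcases List.mem_append.1 k with k | k <;> simp [k]))
      obtain ⟨t, m, p, q⟩ := ih2 (Multiset.nodup_of_le (by
          simp only [← Multiset.cons_coe, ← Multiset.coe_add, ← Multiset.singleton_add]
          rw [Multiset.le_iff_count]; intro z; simp only [Multiset.count_add]; omega) hn)
        (fun p q h => hμ p q (by simp [h])) s2 e e' hm k1 k2 ho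
      exact ⟨_, _, by omega, (h1.toPlain s1).mat (q.cast (by simp))⟩
  | opn a0 r c0 x y U n M hc hv h ih =>
    intro hn hμ hs
    have s2 : ∀ q ∈ U, Step π cl tl nx q := fun q k => hs q (by simp [k])
    have s1 : ∀ q ∈ y :: r, Step π cl tl nx q := fun q k =>
      hs q (Multiset.mem_add.2 (Or.inl (Multiset.mem_coe.2 k)))
    have dj : ∀ p, p ∈ ((y :: r : List Λ) : Multiset Λ) + U → p ∉ a0 ++ x :: c0 := fun p k k' =>
      Multiset.disjoint_left.1 (Multiset.nodup_add.1 hn).2.2 (Multiset.mem_coe.2 k') k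
    have c1 : Cons μ M := fun p q h => hμ p q (by simp [h])
    have hn1 : (y ::ₘ (((a0 ++ (r ++ c0) : List Λ) : Multiset Λ) + U)).Nodup :=
      Multiset.nodup_of_le (by
        simp only [← Multiset.cons_coe, ← Multiset.coe_add, ← Multiset.singleton_add]
        rw [Multiset.le_iff_count]; intro z; simp only [Multiset.count_add]; omega) hn
    rw [Multiset.nodup_cons] at hn1
    obtain ⟨hy, hn2⟩ := hn1
    have e0 : (a0 ++ x :: c0).map cl = a0.map cl ++ cl y :: c0.map cl := by simp [hc]
    have fp := face_pth hv s1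
    rw [e0, Multiset.card_add, Multiset.coe_card]
    -- the letter `e` lies in the face being opened
    have key : ∀ e e', s(e, e') ∈ M → ∀ r1 r2, r = r1 ++ e :: r2 → e' ∉ r1 →
        e' ∈ ((y :: r : List Λ) : Multiset Λ) + U → tl e' = π (cl e) (tl e) →
        ∃ t m, t < (y :: r).length + Multiset.card U ∧
          Ar (CW π) (a0.map cl ++ cl y :: c0.map cl) t m := by
      intro e e' hm r1 r2 er n1 he' ho
      subst er
      have h' : Der cl (ValN nx) (e :: (r2 ++ (c0 ++ (a0 ++ r1)))) U n M :=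
        (Der.rot (a := a0 ++ r1) (b := e :: (r2 ++ c0)) (h.cast (by simp) rfl rfl rfl)).cast
          (by simp) rfl rfl rfl
      rw [← List.cons_append, pth_append] at fp
      obtain ⟨u1, f1, f2, -, f3⟩ := fp
      rcases h'.first cyc_rot with
        ⟨b, z, c', U1, n1', M1, U2, n2, M2, e1, hc', d1, d2, rfl, rfl, rfl⟩ |
        ⟨z, r'', U', n', M', hc', hv', d1, rfl, rfl, rfl⟩
      · have z1 : z = e' := (c1 e z (by simp)).symm.trans (c1 e e' hm)
        subst z1
        have m1 : z ∈ r2 ++ (c0 ++ (a0 ++ r1)) := by rw [e1]; simp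
        have m2 : z ∈ r2 := by
          have := dj z he'
          simp only [List.mem_append, List.mem_cons, not_or] at m1 this
          tauto
        obtain ⟨r3, r4, rfl⟩ := List.append_of_mem m2
        have nd : (r3 ++ z :: (r4 ++ (c0 ++ (a0 ++ r1)))).Nodup := by
          rw [← Multiset.coe_nodup]
          refine Multiset.nodup_of_le ?_ hn2
          simp only [← Multiset.cons_coe, ← Multiset.coe_add, ← Multiset.singleton_add]
          rw [Multiset.le_iff_count]; intro z; simp only [Multiset.count_add]; omega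
        obtain ⟨rfl, rfl⟩ := split_uniq nd (by simpa using e1)
        rw [pth_append] at f3
        obtain ⟨u2, -, f4, -, f5⟩ := f3
        rw [← f4, ho, ← hc', hπ, f2] at f5
        have cw : CW π (cl y :: (r1 ++ r4).map cl) :=
          ⟨tl y, pth_walk (y :: (r1 ++ r4)) _ _ ((pth_append (y :: r1) r4 _ _).2 ⟨u1, f1, f5⟩)⟩
        have p := d2.toPlain (π := π) (fun q k => s2 q (by simp [k]))
        have p' : Ar (CW π) (a0.map cl ++ ((r1 ++ r4).map cl ++ c0.map cl)) _ _ :=
          (Ar.rot (a := (r4 ++ c0).map cl) (b := (a0 ++ r1).map cl) (p.cast (by simp))).cast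
            (by simp)
        exact ⟨_, _, by simp; omega, Ar.opn cw p'⟩
      · have z1 : z = e' := (c1 e z (by simp)).symm.trans (c1 e e' hm)
        subst z1
        obtain ⟨-, -, f6⟩ := face_pth hv' (fun q k =>
          s2 q (Multiset.mem_add.2 (Or.inl (Multiset.mem_coe.2 k))))
        rw [ho, ← hc', hπ, f2] at f6
        have cw : CW π (cl y :: (r1 ++ (r'' ++ r2)).map cl) :=
          ⟨tl y, pth_walk (y :: (r1 ++ (r'' ++ r2))) _ _ ((pth_append (y :: r1) _ _ _).2
            ⟨u1, f1, (pth_append _ _ _ _).2 ⟨_, f6, f3⟩⟩)⟩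
        have p := d1.toPlain (π := π) (fun q k => s2 q (by simp [k]))
        have p' : Ar (CW π) (a0.map cl ++ ((r1 ++ (r'' ++ r2)).map cl ++ c0.map cl)) _ _ :=
          (Ar.rot (a := (r'' ++ (r2 ++ c0)).map cl) (b := (a0 ++ r1).map cl)
            (p.cast (by simp))).cast (by simp)
        exact ⟨_, _, by simp; omega, Ar.opn cw p'⟩
    intro e e' hm he he' ho
    simp only [Multiset.mem_cons, Sym2.eq_iff] at hm
    rcases hm with (⟨rfl, rfl⟩ | ⟨rfl, rfl⟩) | hm
    · exact absurd (by simp) (dj _ he)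
    · exact absurd (by simp) (dj _ he')
    have hm' : s(e', e) ∈ M := by rwa [Sym2.eq_swap]
    have ho' : tl e = π (cl e') (tl e') := by rw [ho, ← (h.mem_of_M e e' hm).2, hπ]
    have ny : ∀ p q, s(p, q) ∈ M → p ≠ y := by
      rintro p q k rfl
      exact hy (by rw [Multiset.mem_add, Multiset.mem_coe]; exact (h.mem_of_M _ _ k).1)
    by_cases k1 : e ∈ r
    · obtain ⟨r1, r2, er⟩ := List.append_of_mem k1
      by_cases k2 : e' ∈ r1
      · obtain ⟨r3, r4, er'⟩ := List.append_of_mem k2
        refine key e' e hm' r3 (r4 ++ e :: r2) (by simp [er, er']) (fun k => ?_) he ho'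
        have nd := Multiset.nodup_iff_count_le_one.1 hn2 e
        have := List.count_pos_iff.2 k
        subst er er'
        simp only [← Multiset.cons_coe, ← Multiset.coe_add, Multiset.count_add,
          Multiset.count_cons_self, Multiset.coe_count] at nd
        omega
      · exact key e e' hm r1 r2 er k2 he' ho
    · by_cases k2 : e' ∈ r
      · obtain ⟨r1, r2, er⟩ := List.append_of_mem k2
        exact key e' e hm' r1 r2 er (fun k => k1 (by simp [er, k])) he ho'
      · have a1 : e ∈ U := by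
          have := ny e e' hm
          simpa [this, k1] using he
        have a2 : e' ∈ U := by
          have := ny e' e hm'
          simpa [this, k2] using he'
        obtain ⟨t, m, p, q⟩ := ih hn2 c1 s2 e e' hm a1 a2 ho
        have cw : CW π (cl y :: r.map cl) := ⟨tl y, pth_walk (y :: r) _ _ fp⟩
        exact ⟨_, _, by simp; omega, Ar.opn cw (q.cast (by simp))⟩

/-- an originating match at a letter of the boundary path gives a cheaper path -/
theorem Der.push [Nonempty V] [DecidableEq Λ] (hπ : Invo π) {μ : Λ → Λ}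
    {v : List Λ} {U : Multiset Λ} {n : ℕ} {M : Multiset (Sym2 Λ)}
    (d : Der cl (ValN nx) v U n M) (hn : ((v : Multiset Λ) + U).Nodup) (hμ : Cons μ M)
    (hs : ∀ q ∈ U, Step π cl tl nx q) {c0 c1 : V} (hp : Pth π cl tl v c0 c1) :
    ∀ e e', s(e, e') ∈ M → e ∈ v → tl e' = π (cl e) (tl e) →
      ∃ p t m, Walk π c0 p ∧ run π c0 p = c1 ∧ t + p.length < Multiset.card U + v.length ∧
        Ar (CW π) p t m := by
  have key : ∀ e e', s(e, e') ∈ M → ∀ r1 r2, v = r1 ++ e :: r2 → e' ∉ r1 →
      tl e' = π (cl e) (tl e) →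
      ∃ p t m, Walk π c0 p ∧ run π c0 p = c1 ∧ t + p.length < Multiset.card U + v.length ∧
        Ar (CW π) p t m := by
    intro e e' hm r1 r2 er n1 ho
    subst er
    have h' : Der cl (ValN nx) (e :: (r2 ++ r1)) U n M := d.rot
    rw [pth_append] at hp
    obtain ⟨u1, f1, f2, -, f3⟩ := hp
    rcases h'.first cyc_rot with
      ⟨b, z, c', U1, n1', M1, U2, n2, M2, e1, hc', d1, d2, rfl, rfl, rfl⟩ |
      ⟨z, r'', U', n', M', hc', hv', d1, rfl, rfl, rfl⟩
    · have z1 : z = e' := (hμ e z (by simp)).symm.trans (hμ e e' hm)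
      subst z1
      have m1 : z ∈ r2 ++ r1 := by rw [e1]; simp
      have m2 : z ∈ r2 := by simpa [n1] using m1
      obtain ⟨r3, r4, rfl⟩ := List.append_of_mem m2
      have nd : (r3 ++ z :: (r4 ++ r1)).Nodup := by
        rw [← Multiset.coe_nodup]
        refine Multiset.nodup_of_le ?_ hn
        simp only [← Multiset.cons_coe, ← Multiset.coe_add, ← Multiset.singleton_add]
        rw [Multiset.le_iff_count]; intro z; simp only [Multiset.count_add]; omega
      obtain ⟨rfl, rfl⟩ := split_uniq nd (by simpa using e1)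
      rw [pth_append] at f3
      obtain ⟨u2, -, f4, -, f5⟩ := f3
      rw [← f4, ho, ← hc', hπ, f2] at f5
      have w := pth_walk (r1 ++ r4) _ _ ((pth_append r1 r4 _ _).2 ⟨u1, f1, f5⟩)
      have p := d2.toPlain (π := π) (fun q k => hs q (by simp [k]))
      refine ⟨_, _, _, w.1, w.2, ?_, (Ar.rot (a := r4.map cl) (b := r1.map cl)
        (p.cast (by simp))).cast (by simp)⟩
      simp; omega
    · have z1 : z = e' := (hμ e z (by simp)).symm.trans (hμ e e' hm)
      subst z1
      obtain ⟨-, -, f6⟩ := face_pth hv' (fun q k =>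
        hs q (Multiset.mem_add.2 (Or.inl (Multiset.mem_coe.2 k))))
      rw [ho, ← hc', hπ, f2] at f6
      have w := pth_walk (r1 ++ (r'' ++ r2)) _ _ ((pth_append r1 _ _ _).2
            ⟨u1, f1, (pth_append _ _ _ _).2 ⟨_, f6, f3⟩⟩)
      have p := d1.toPlain (π := π) (fun q k => hs q (by simp [k]))
      refine ⟨_, _, _, w.1, w.2, ?_, (Ar.rot (a := (r'' ++ r2).map cl) (b := r1.map cl)
        (p.cast (by simp))).cast (by simp)⟩
      simp; omega
  intro e e' hm he ho
  have hm' : s(e', e) ∈ M := by rwa [Sym2.eq_swap]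
  have ho' : tl e = π (cl e') (tl e') := by rw [ho, ← (d.mem_of_M e e' hm).2, hπ]
  obtain ⟨r1, r2, er⟩ := List.append_of_mem he
  by_cases k2 : e' ∈ r1
  · obtain ⟨r3, r4, er'⟩ := List.append_of_mem k2
    refine key e' e hm' r3 (r4 ++ e :: r2) (by simp [er, er']) (fun k => ?_) ho'
    have nd := Multiset.nodup_iff_count_le_one.1 hn e
    have := List.count_pos_iff.2 k
    subst er er'
    simp only [← Multiset.cons_coe, ← Multiset.coe_add, Multiset.count_add,
      Multiset.count_cons_self, Multiset.coe_count] at nd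
    omega
  · exact key e e' hm r1 r2 er k2 ho

end Vale.Agent.P194
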