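import Vale.Agent.P194.Cell

namespace Vale.Agent.P194

open Finset

variable {S V : Type}

open Classical in
/-- least corner at the same vertex -/
noncomputable def rep (tl : ℕ → V) (i : ℕ) : ℕ := Nat.find (⟨i, rfl⟩ : ∃ j, tl j = tl i)

open Classical in
/-- least corner at the root, `T + 1` if there is none -/
noncomputable def rt (T : ℕ) (tl : ℕ → V) (c0 : V) : ℕ :=
  Nat.find (⟨T + 1, Or.inr rfl⟩ : ∃ j, tl j = c0 ∨ j = T + 1)

theorem rep_tl (tl : ℕ → V) (i : ℕ) : tl (rep tl i) = tl i := by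
  classical
  exact Nat.find_spec (⟨i, rfl⟩ : ∃ j, tl j = tl i)

theorem rep_le_of (tl : ℕ → V) {i j : ℕ} (h : tl j = tl i) : rep tl i ≤ j := by
  classical
  exact Nat.find_min' (⟨i, rfl⟩ : ∃ j, tl j = tl i) h

theorem rep_le (tl : ℕ → V) (i : ℕ) : rep tl i ≤ i := rep_le_of tl rfl

theorem rep_eq (tl : ℕ → V) (i j : ℕ) : rep tl i = rep tl j ↔ tl i = tl j :=
  ⟨fun h => by rw [← rep_tl tl i, h, rep_tl tl], fun h => le_antisymm
    (rep_le_of tl (by rw [rep_tl tl, h])) (rep_le_of tl (by rw [rep_tl tl, h]))⟩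

theorem rt_le (T : ℕ) (tl : ℕ → V) (c0 : V) : rt T tl c0 ≤ T + 1 := by
  classical
  exact Nat.find_min' (⟨T + 1, Or.inr rfl⟩ : ∃ j, tl j = c0 ∨ j = T + 1) (Or.inr rfl)

theorem rep_rt {T : ℕ} (tl : ℕ → V) (c0 : V) {i : ℕ} (hi : i ≤ T) :
    rep tl i = rt T tl c0 ↔ tl i = c0 := by
  classical
  have a := Nat.find_spec (⟨T + 1, Or.inr rfl⟩ : ∃ j, tl j = c0 ∨ j = T + 1)
  have b := rep_le tl i
  have c : ∀ j, tl j = c0 → rt T tl c0 ≤ j := fun j h =>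
    Nat.find_min' (⟨T + 1, Or.inr rfl⟩ : ∃ j, tl j = c0 ∨ j = T + 1) (Or.inl h)
  change tl (rt T tl c0) = c0 ∨ rt T tl c0 = T + 1 at a
  constructor
  · intro h
    rcases a with a | a
    · rw [← rep_tl tl i, h, a]
    · omega
  · intro h
    have d := c (rep tl i) (by rw [rep_tl tl, h])
    rcases a with a | a
    · exact le_antisymm (rep_le_of tl (by rw [a, h])) d
    · omega

theorem Cfg.drawn {π : S → V → V} {c0 : V} {T B R : ℕ} {cl : ℕ → S} {tl : ℕ → V} {nx μ : ℕ → ℕ}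
    (c : Cfg π c0 T B R cl tl nx μ) : Drawn π c0 T nx μ (rep tl) (rt T tl c0) cl tl :=
  ⟨c.step, c.nx_le, fun j a b => (c.orig j a b).1, fun i _ j _ => (rep_eq tl i j).symm,
    fun _ hi => (rep_rt tl c0 hi).symm⟩

/-- WP-L: the layers of a configuration. -/
def LayerStmt : Prop :=
  ∀ (S V : Type) (π : S → V → V) (c0 : V) (T B R h : ℕ) (cl : ℕ → S) (tl : ℕ → V)
    (nx μ : ℕ → ℕ), Cfg π c0 T B R cl tl nx μ → Invo π → 1 ≤ h → Girth π (2 * h) →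
    ∃ (F Vt : ℕ → Finset ℕ) (Fr Ir : Finset ℕ) (ρ : ℕ → ℕ),
      (∀ k, Cert T nx μ (rep tl) (rt T tl c0) (F k) Fr (Vt k) Ir ρ) ∧
      T ≤ ∑ k ∈ range (T / h + 1 + R), (F k).card ∧
      2 * ∑ k ∈ range (T / h + 1 + R), ((F k).filter (· ∈ Fr)).card ≤ T + B + (T / h + 1 + R) ∧
      ∑ k ∈ range (T / h + 1 + R), (Vt k).card ≤ T ∧
      Ir.card ≤ 4 * (T / h + 1 + R + 1) ^ 2

/-- the graph contains a small reduced diagram with short boundary -/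
def Bad (π : S → V → V) (c0 : V) (h Tm : ℕ) : Prop :=
  ∃ (T B n : ℕ) (cl : ℕ → S) (tl : ℕ → V) (nx μ : ℕ → ℕ), Cfg π c0 T B (17 * n) cl tl nx μ ∧
    1 ≤ n ∧ (2 * h + 1) * n ≤ T ∧ 200 * B ≤ T ∧ T ≤ Tm

open Classical in
/-- WP-N: the first moment bound. -/
def FMStmt : Prop :=
  ∀ C h0 : ℕ, ∃ h, h0 ≤ h ∧ ∀ (X V : Type) [Fintype V] (m : Model (Fin 91) X V) (c0 : V) (N : ℕ),
    Big m (10 * N) → Few m (N + 17) → Fintype.card V ≤ 600 * N → 100 * 92 ^ (2 * h + 2) ≤ N →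
    2 * ((GG m (2 * h)).filter (fun π => Bad π c0 h (C * h))).card ≤ (GG m (2 * h)).card

/-- WP-M: the final statement. -/
def MainStmt : Prop :=
  ∃ (G : Type) (_ : Group G), IsHyperbolic G ∧
    ∃ a b : MonoidAlgebra (ZMod 3) G, a * b = 1 ∧ b * a ≠ 1

end Vale.Agent.P194
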